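import Mathlib

/-! P280, Theorem F: poles of elements of the fraction field of a normal ring. -/

namespace Vale.Agent.P280.H475

open IsLocalRing

section
variable {R : Type} [CommRing R] [IsDomain R] {K : Type} [Field K] [Algebra R K]
  [IsFractionRing R K]

variable (K) in
/-- The local ring of `P` as a subring of `K`. -/
noncomputable def locHom (P : Ideal R) [P.IsPrime] : Localization.AtPrime P →+* K :=
  IsLocalization.lift (M := P.primeCompl) (S := Localization.AtPrime P) (g := algebraMap R K)
    fun y => isUnit_iff_ne_zero.2 fun h => y.2 (by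
      have h1 : (y : R) = 0 := IsFractionRing.injective R K (by rw [h, map_zero])
      rw [h1]
      exact P.zero_mem)

omit [IsDomain R] in
theorem locHom_algebraMap (P : Ideal R) [P.IsPrime] (r : R) :
    locHom K P (algebraMap R (Localization.AtPrime P) r) = algebraMap R K r :=
  IsLocalization.lift_eq _ r

/-- A pole is contained in a divisor. -/
theorem exists_dvr [IsNoetherianRing R] [IsIntegrallyClosed R] {a : K}
    (ha : a ∉ Set.range (algebraMap R K)) :
    ∃ (P : Ideal R) (_ : P.IsPrime), IsDiscreteValuationRing (Localization.AtPrime P) ∧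
      ∀ (r s : R), s ∉ P → a * algebraMap R K s ≠ algebraMap R K r := by
  let N : Submodule R K := LinearMap.range (Algebra.linearMap R K)
  have hN : ∀ b : K, b ∈ N ↔ ∃ r, algebraMap R K r = b := fun b => Iff.rfl
  have hne : (N.mkQ a) ≠ 0 := by
    intro h
    exact ha ((hN a).1 ((Submodule.Quotient.mk_eq_zero N).1 h))
  obtain ⟨P, hPass, hle⟩ := exists_le_isAssociatedPrime_of_isNoetherianRing (R := R) (N.mkQ a) hne
  rw [isAssociatedPrime_iff] at hPass
  obtain ⟨hP, y, hPy⟩ := hPass
  obtain ⟨c, rfl⟩ := N.mkQ_surjective y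
  have hmem : ∀ (b : K) (g : R), g ∈ (⊥ : Submodule R (K ⧸ N)).colon {N.mkQ b} ↔
      ∃ r, algebraMap R K r = algebraMap R K g * b := by
    intro b g
    rw [Submodule.mem_colon_singleton, Submodule.mem_bot, ← map_smul, Submodule.mkQ_apply,
      Submodule.Quotient.mk_eq_zero, hN, Algebra.smul_def]
  have hPc : ∀ g, g ∈ P ↔ ∃ r, algebraMap R K r = algebraMap R K g * c := fun g => by
    rw [hPy]
    exact hmem c g
  have hpole : ∀ (r s : R), s ∉ P → a * algebraMap R K s ≠ algebraMap R K r := by
    intro r s hs h
    exact hs (hle ((hmem a s).2 ⟨r, by rw [← h, mul_comm]⟩))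
  refine ⟨P, hP, ?_, hpole⟩
  let O := Localization.AtPrime P
  let _ : Algebra O K := (locHom K P).toAlgebra
  have htow : IsScalarTower R O K := IsScalarTower.of_algebraMap_eq fun r =>
    (locHom_algebraMap P r).symm
  have hfrac : IsFractionRing O K :=
    IsFractionRing.isFractionRing_of_isDomain_of_isLocalization P.primeCompl O K
  have hdom : IsDomain O := IsLocalization.isDomain_of_le_nonZeroDivisors (M := P.primeCompl) O
    P.primeCompl_le_nonZeroDivisors
  have hnoeth : IsNoetherianRing O := IsLocalization.isNoetherianRing P.primeCompl O inferInstance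
  have hic : IsIntegrallyClosed O := isIntegrallyClosed_of_isLocalization O P.primeCompl
    P.primeCompl_le_nonZeroDivisors
  have hcO : ∀ o : O, algebraMap O K o ≠ c := by
    intro o ho
    obtain ⟨⟨r, s⟩, hrs⟩ := IsLocalization.surj P.primeCompl o
    have h1 : algebraMap R K r = algebraMap R K s * c := by
      have h2 := congrArg (algebraMap O K) hrs
      rw [map_mul, ← IsScalarTower.algebraMap_apply, ← IsScalarTower.algebraMap_apply, ho] at h2
      rw [← h2, mul_comm]
    exact s.2 ((hPc s).2 ⟨r, h1⟩)
  have hmc : ∀ x ∈ maximalIdeal O, ∃ o : O, algebraMap O K o = algebraMap O K x * c := by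
    intro x hx
    obtain ⟨p, s, rfl⟩ := IsLocalization.exists_mk'_eq P.primeCompl x
    have hp : p ∈ P := by
      rwa [IsLocalization.AtPrime.mk'_mem_maximal_iff O P] at hx
    obtain ⟨r, hr⟩ := (hPc p).1 hp
    refine ⟨IsLocalization.mk' O r s, ?_⟩
    have hs : algebraMap R K (s : R) ≠ 0 := fun h => s.2 (by
      have h1 : (s : R) = 0 := IsFractionRing.injective R K (by rw [h, map_zero])
      rw [h1]
      exact P.zero_mem)
    apply mul_right_cancel₀ hs
    rw [IsScalarTower.algebraMap_apply R O K, ← map_mul, IsLocalization.mk'_spec,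
      mul_right_comm, ← map_mul, IsLocalization.mk'_spec, ← IsScalarTower.algebraMap_apply,
      ← IsScalarTower.algebraMap_apply, hr]
  have hfield : ¬ IsField O := by
    rw [isField_iff_maximalIdeal_eq]
    intro hbot
    obtain ⟨r, t, ht, hrt⟩ := IsFractionRing.div_surjective (A := R) c
    have ht0 : t ≠ 0 := nonZeroDivisors.ne_zero ht
    have htK : algebraMap R K t ≠ 0 := fun h => ht0 (IsFractionRing.injective R K (by
      rw [h, map_zero]))
    have htP : t ∈ P := (hPc t).2 ⟨r, by rw [← hrt, mul_div_cancel₀ _ htK]⟩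
    have h1 : algebraMap R O t ∈ maximalIdeal O := (IsLocalization.AtPrime.to_map_mem_maximal_iff
      O P t).2 htP
    rw [hbot, Ideal.mem_bot] at h1
    apply htK
    rw [IsScalarTower.algebraMap_apply R O K, h1, map_zero]
  refine ((IsDiscreteValuationRing.TFAE O hfield).out 0 4).2 ?_
  by_cases hu : ∃ x ∈ maximalIdeal O, ∃ u : O, IsUnit u ∧ algebraMap O K u = algebraMap O K x * c
  · obtain ⟨x, hx, u, hu, hux⟩ := hu
    refine ⟨x, le_antisymm (fun x' hx' => ?_) ((Submodule.span_singleton_le_iff_mem _ _).2 hx)⟩
    obtain ⟨o, ho⟩ := hmc x' hx'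
    obtain ⟨u, rfl⟩ := hu
    rw [Submodule.mem_span_singleton]
    refine ⟨o * (↑u⁻¹ : O), IsFractionRing.injective O K ?_⟩
    have huK : algebraMap O K (↑u : O) ≠ 0 := fun h => u.ne_zero
      (IsFractionRing.injective O K (by rw [h, map_zero]))
    apply mul_left_cancel₀ huK
    rw [smul_eq_mul, map_mul, map_mul, ho]
    have h1 : algebraMap O K (↑u : O) * algebraMap O K (↑u⁻¹ : O) = 1 := by
      rw [← map_mul, Units.mul_inv, map_one]
    calc algebraMap O K ↑u * (algebraMap O K x' * c * algebraMap O K ↑u⁻¹ * algebraMap O K x)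
        = (algebraMap O K ↑u * algebraMap O K ↑u⁻¹) * (algebraMap O K x * c) *
          algebraMap O K x' := by ring
      _ = algebraMap O K ↑u * algebraMap O K x' := by rw [h1, one_mul, hux]
  · exfalso
    push Not at hu
    let M : Submodule O K := Submodule.map (Algebra.linearMap O K) (maximalIdeal O)
    have hM : M ≠ ⊥ := by
      intro hbot
      have h1 : maximalIdeal O ≠ ⊥ := isField_iff_maximalIdeal_eq.not.1 hfield
      apply h1
      rw [eq_bot_iff]
      intro x hx
      have h2 : algebraMap O K x ∈ M := ⟨x, hx, rfl⟩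
      rw [hbot, Submodule.mem_bot] at h2
      exact IsFractionRing.injective O K (by rw [h2, map_zero])
    have hfg : M.FG := Submodule.FG.map _ ((isNoetherianRing_iff_ideal_fg O).1 hnoeth
      (maximalIdeal O))
    have hint := isIntegral_of_smul_mem_submodule (R := O) (A := K) M hM hfg c (by
      rintro _ ⟨x, hx, rfl⟩
      obtain ⟨o, ho⟩ := hmc x hx
      refine ⟨o, ?_, ?_⟩
      · rw [SetLike.mem_coe, IsLocalRing.mem_maximalIdeal, mem_nonunits_iff]
        intro huo
        exact hu x hx o huo ho
      · rw [Algebra.linearMap_apply, Algebra.linearMap_apply, ho, smul_eq_mul, mul_comm])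
    obtain ⟨o, ho⟩ := IsIntegrallyClosed.isIntegral_iff.1 hint
    exact hcO o ho

end

end Vale.Agent.P280.H475
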