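import Vale.Agent.P280.S.Defs
import Vale.Agent.P280.H939.OrbA
import Vale.Agent.P292.VF.U1

/-!
# P280, R3: nilpotent fields which generate the tangent bundle act transitively
-/

namespace Vale.Agent.P280.H475

open Vale.Agent.P280.S Polynomial

section expo

variable {R : Type} [CommRing R] [Algebra ℂ R]

theorem iterate_zero_of_le {D : Derivation ℂ R R} {h : R} {n : ℕ} (hn : (⇑D)^[n] h = 0) {m : ℕ}
    (hm : n ≤ m) : (⇑D)^[m] h = 0 := by
  obtain ⟨k, rfl⟩ := Nat.exists_eq_add_of_le hm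
  rw [add_comm, Function.iterate_add_apply, hn]
  induction k with
  | zero => rfl
  | succ k ih =>
    rw [Function.iterate_succ_apply', ih (Nat.le_add_right _ _), map_zero]

theorem iterate_add_field (D : Derivation ℂ R R) (n : ℕ) (x y : R) :
    (⇑D)^[n] (x + y) = (⇑D)^[n] x + (⇑D)^[n] y :=
  H939.iterate_map_add' (D : R →ₗ[ℂ] R) n x y

theorem iterate_smul_field (D : Derivation ℂ R R) (n : ℕ) (c : ℂ) (x : R) :
    (⇑D)^[n] (c • x) = c • (⇑D)^[n] x :=
  H939.iterate_map_smul' (D : R →ₗ[ℂ] R) n c x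

/-- The exponential series of a locally nilpotent derivation. -/
theorem exists_expX (D : Derivation ℂ R R) (hD : ∀ h, ∃ n : ℕ, (⇑D)^[n] h = 0) :
    ∃ φ : R →ₐ[ℂ] R[X], ∀ (h : R) (n : ℕ),
      (φ h).coeff n = ((n.factorial : ℂ))⁻¹ • (⇑D)^[n] h := by
  choose N hN using hD
  let f : R → R[X] := fun h =>
    ∑ n ∈ Finset.range (N h), monomial n (((n.factorial : ℂ))⁻¹ • (⇑D)^[n] h)
  have hf : ∀ h n, (f h).coeff n = ((n.factorial : ℂ))⁻¹ • (⇑D)^[n] h := by
    intro h n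
    simp only [f, finsetSum_coeff, coeff_monomial]
    rw [Finset.sum_ite_eq' (Finset.range (N h)) n]
    split_ifs with hn
    · rfl
    · rw [iterate_zero_of_le (hN h) (by simpa using hn), smul_zero]
  have hadd : ∀ x y, f (x + y) = f x + f y := by
    intro x y
    ext n
    rw [coeff_add, hf, hf, hf, iterate_add_field, smul_add]
  have hsmul : ∀ (c : ℂ) x, f (c • x) = c • f x := by
    intro c x
    ext n
    rw [coeff_smul, hf, hf, iterate_smul_field, smul_comm]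
  have hone : f 1 = 1 := by
    ext n
    rw [hf, coeff_one]
    split_ifs with hn
    · subst hn
      simp
    · obtain ⟨m, rfl⟩ := Nat.exists_eq_succ_of_ne_zero hn
      rw [Function.iterate_succ_apply, D.map_one_eq_zero,
        iterate_zero_of_le (n := 0) rfl (Nat.zero_le m), smul_zero]
  have hmul : ∀ x y, f (x * y) = f x * f y := by
    intro x y
    ext n
    rw [hf, coeff_mul, H939.iterate_leibniz, Finset.smul_sum]
    refine Finset.sum_congr rfl fun ij hij => ?_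
    have hk := Finset.HasAntidiagonal.mem_antidiagonal.1 hij
    have h1 : (n.choose ij.1 : ℂ) =
        (n.factorial : ℂ) / ((ij.1.factorial : ℂ) * (ij.2.factorial)) := by
      rw [← hk, Nat.cast_add_choose]
    have h2 : (n.factorial : ℂ) ≠ 0 := by exact_mod_cast n.factorial_ne_zero
    have h3 : (ij.1.factorial : ℂ) ≠ 0 := by exact_mod_cast ij.1.factorial_ne_zero
    have h4 : (ij.2.factorial : ℂ) ≠ 0 := by exact_mod_cast ij.2.factorial_ne_zero
    have h5 : (n.choose ij.1) • ((⇑D)^[ij.1] x * (⇑D)^[ij.2] y) =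
        (n.choose ij.1 : ℂ) • ((⇑D)^[ij.1] x * (⇑D)^[ij.2] y) :=
      (Nat.cast_smul_eq_nsmul ℂ _ _).symm
    rw [hf, hf, h5, smul_smul, smul_mul_smul_comm, h1]
    congr 1
    field_simp
  let L : R →ₗ[ℂ] R[X] := { toFun := f, map_add' := hadd, map_smul' := hsmul }
  exact ⟨AlgHom.ofLinearMap L hone hmul, hf⟩

theorem eval_algebraMap_eq (D : Derivation ℂ R R) {φ : R →ₐ[ℂ] R[X]}
    (hφ : ∀ (h : R) (n : ℕ), (φ h).coeff n = ((n.factorial : ℂ))⁻¹ • (⇑D)^[n] h) (t : ℂ) (h : R) :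
    (φ h).eval (algebraMap ℂ R t) = ∑ n ∈ Finset.range ((φ h).natDegree + 1),
      ((n.factorial : ℂ))⁻¹ • (⇑(t • D : Derivation ℂ R R))^[n] h := by
  have h3 : ∀ k : ℕ, (⇑(t • D : Derivation ℂ R R))^[k] h = t ^ k • (⇑D)^[k] h := by
    intro k
    induction k with
    | zero => simp
    | succ k ih =>
      rw [Function.iterate_succ_apply', ih, Function.iterate_succ_apply' (⇑D)]
      change t • D (t ^ k • (⇑D)^[k] h) = _
      rw [D.map_smul, smul_smul, pow_succ']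
  rw [eval_eq_sum_range]
  refine Finset.sum_congr rfl fun n _ => ?_
  rw [hφ, h3, ← map_pow, mul_comm, ← Algebra.smul_def, smul_comm]

/-- The exponential of a locally nilpotent derivation is an automorphism. -/
theorem exists_autom (D : Derivation ℂ R R) {φ : R →ₐ[ℂ] R[X]}
    (hφ : ∀ (h : R) (n : ℕ), (φ h).coeff n = ((n.factorial : ℂ))⁻¹ • (⇑D)^[n] h)
    (hD : ∀ h, ∃ n : ℕ, (⇑D)^[n] h = 0) (t : ℂ) :
    ∃ F : R ≃ₐ[ℂ] R, ∀ h, F h = (φ h).eval (algebraMap ℂ R t) := by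
  have hit : ∀ (k : ℕ) (h : R), (⇑(t • D : Derivation ℂ R R))^[k] h = t ^ k • (⇑D)^[k] h := by
    intro k h
    induction k with
    | zero => simp
    | succ k ih =>
      rw [Function.iterate_succ_apply', ih, Function.iterate_succ_apply' (⇑D)]
      change t • D (t ^ k • (⇑D)^[k] h) = _
      rw [D.map_smul, smul_smul, pow_succ']
  have hloc : H939.LocFin (t • D) := by
    intro h
    obtain ⟨N, hN⟩ := hD h
    refine ⟨Submodule.span ℂ ((fun n => (⇑D)^[n] h) '' (Finset.range (N + 1) : Set ℕ)),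
      FiniteDimensional.span_of_finite ℂ ((Finset.finite_toSet _).image _), ?_, ?_⟩
    · intro x hx
      induction hx using Submodule.span_induction with
      | mem x hx =>
        obtain ⟨n, -, rfl⟩ := hx
        change t • D ((⇑D)^[n] h) ∈ _
        rw [← Function.iterate_succ_apply' (⇑D)]
        refine Submodule.smul_mem _ _ ?_
        by_cases hn : n + 1 < N + 1
        · exact Submodule.subset_span ⟨n + 1, by simpa using hn, rfl⟩
        · have h0 : (⇑D)^[n.succ] h = 0 := iterate_zero_of_le hN (by omega)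
          rw [h0]
          exact Submodule.zero_mem _
      | zero => rw [map_zero]; exact Submodule.zero_mem _
      | add a b _ _ ha hb => rw [map_add]; exact Submodule.add_mem _ ha hb
      | smul c a _ ha => rw [(t • D : Derivation ℂ R R).map_smul]; exact Submodule.smul_mem _ _ ha
    · exact Submodule.subset_span ⟨0, by simp, rfl⟩
  obtain ⟨F, hF, -⟩ := H939.exists_exp hloc
  refine ⟨F, fun h => (hF h).unique ?_⟩
  intro θ
  rw [eval_algebraMap_eq D hφ t h, map_sum]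
  have h2 : ∀ k ∉ Finset.range ((φ h).natDegree + 1),
      ((k.factorial : ℂ))⁻¹ * θ ((⇑((t • D : Derivation ℂ R R) : R →ₗ[ℂ] R))^[k] h) = 0 := by
    intro k hk
    have h3 : (φ h).coeff k = 0 :=
      coeff_eq_zero_of_natDegree_lt (by
        have h8 : ¬ k < (φ h).natDegree + 1 := fun h9 => hk (Finset.mem_range.2 h9)
        omega)
    rw [hφ, smul_eq_zero] at h3
    have h4 : (⇑D)^[k] h = 0 := h3.resolve_left
      (inv_ne_zero (by exact_mod_cast k.factorial_ne_zero))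
    have h5 : (⇑((t • D : Derivation ℂ R R) : R →ₗ[ℂ] R))^[k] h = 0 := by
      change (⇑(t • D : Derivation ℂ R R))^[k] h = 0
      rw [hit, h4, smul_zero]
    rw [h5, map_zero, mul_zero]
  have h6 : HasSum (fun k : ℕ =>
      ((k.factorial : ℂ))⁻¹ * θ ((⇑((t • D : Derivation ℂ R R) : R →ₗ[ℂ] R))^[k] h)) _ :=
    hasSum_sum_of_ne_finset_zero h2
  have h7 : ∑ k ∈ Finset.range ((φ h).natDegree + 1),
      θ (((k.factorial : ℂ))⁻¹ • (⇑(t • D : Derivation ℂ R R))^[k] h) =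
      ∑ k ∈ Finset.range ((φ h).natDegree + 1),
        ((k.factorial : ℂ))⁻¹ * θ ((⇑((t • D : Derivation ℂ R R) : R →ₗ[ℂ] R))^[k] h) := by
    refine Finset.sum_congr rfl fun k _ => ?_
    rw [map_smul, smul_eq_mul]
    rfl
  rw [h7]
  exact h6

end expo

section orb

variable {R : Type} [CommRing R] [Algebra ℂ R] {𝒜 : ℕ → Submodule ℂ R} [GradedAlgebra 𝒜]

theorem proj_map {F : R →ₗ[ℂ] R} (hF : ∀ d : ℕ, ∀ h ∈ 𝒜 d, F h ∈ 𝒜 d) (e : ℕ) (k : R) :
    GradedAlgebra.proj 𝒜 e (F k) = F (GradedAlgebra.proj 𝒜 e k) := by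
  have h1 : (GradedAlgebra.proj 𝒜 e).comp F = F.comp (GradedAlgebra.proj 𝒜 e) := by
    refine T.linearMap_ext_graded 𝒜 fun i a ha => ?_
    rw [LinearMap.comp_apply, LinearMap.comp_apply, GradedAlgebra.proj_apply,
      GradedAlgebra.proj_apply]
    by_cases hi : i = e
    · subst hi
      rw [DirectSum.decompose_of_mem_same 𝒜 ha, DirectSum.decompose_of_mem_same 𝒜 (hF _ _ ha)]
    · rw [DirectSum.decompose_of_mem_ne 𝒜 ha hi, DirectSum.decompose_of_mem_ne 𝒜 (hF _ _ ha) hi,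
        map_zero]
  exact LinearMap.congr_fun h1 k

theorem symm_graded {F : R ≃ₐ[ℂ] R} (hF : ∀ d : ℕ, ∀ h ∈ 𝒜 d, F h ∈ 𝒜 d) (d : ℕ) {h : R}
    (hh : h ∈ 𝒜 d) : F.symm h ∈ 𝒜 d := by
  classical
  have h1 : ∀ e, e ≠ d → GradedAlgebra.proj 𝒜 e (F.symm h) = 0 := by
    intro e he
    have h2 := proj_map (F := F.toLinearMap) hF e (F.symm h)
    have h3 : (F.toLinearMap (F.symm h)) = h := F.apply_symm_apply h
    rw [h3, GradedAlgebra.proj_apply, DirectSum.decompose_of_mem_ne 𝒜 hh (Ne.symm he)] at h2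
    exact F.injective (by rw [map_zero]; exact h2.symm)
  have h4 : F.symm h = GradedAlgebra.proj 𝒜 d (F.symm h) := by
    conv_lhs => rw [← DirectSum.sum_support_decompose 𝒜 (F.symm h)]
    rw [Finset.sum_eq_single d]
    · rfl
    · intro e _ he
      exact h1 e he
    · intro h5
      rw [DFinsupp.notMem_support_iff] at h5
      rw [h5]
      rfl
  rw [h4]
  exact SetLike.coe_mem _

variable (𝒜) in
/-- `y` lies in the orbit of `z`. -/
def Orb (z y : R →ₐ[ℂ] ℂ) : Prop :=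
  ∃ F : R ≃ₐ[ℂ] R, (∀ d : ℕ, ∀ h ∈ 𝒜 d, F h ∈ 𝒜 d) ∧ ∀ h, y h = z (F h)

omit [GradedAlgebra 𝒜] in
theorem Orb.trans {x y z : R →ₐ[ℂ] ℂ} (h1 : Orb 𝒜 x y) (h2 : Orb 𝒜 y z) : Orb 𝒜 x z := by
  obtain ⟨F, hF, h3⟩ := h1
  obtain ⟨G, hG, h4⟩ := h2
  refine ⟨G.trans F, fun d h hh => hF d _ (hG d h hh), fun h => ?_⟩
  rw [h4, h3]
  rfl

theorem Orb.symm {x y : R →ₐ[ℂ] ℂ} (h1 : Orb 𝒜 x y) : Orb 𝒜 y x := by
  obtain ⟨F, hF, h3⟩ := h1
  refine ⟨F.symm, fun d h hh => symm_graded hF d hh, fun h => ?_⟩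
  rw [h3, F.apply_symm_apply]

variable (𝒜) in
/-- The closure of a part of the orbit of `z`, as the kernel of a homomorphism. -/
def Reach (z : R →ₐ[ℂ] ℂ) (P : Ideal R) : Prop :=
  ∃ (B : Type) (_ : CommRing B) (_ : IsDomain B) (_ : Algebra ℂ B) (_ : Algebra.FiniteType ℂ B)
    (φ : R →ₐ[ℂ] B) (b : B), b ≠ 0 ∧ RingHom.ker φ = P ∧
      ∀ β : B →ₐ[ℂ] ℂ, β b ≠ 0 → Orb 𝒜 z (β.comp φ)

theorem exists_scale {c : ℂ} (hc : c ≠ 0) :
    ∃ F : R ≃ₐ[ℂ] R, ∀ d : ℕ, ∀ h ∈ 𝒜 d, F h = c ^ d • h := by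
  have key : ∀ c : ℂ, ∃ F : R →ₐ[ℂ] R, ∀ d : ℕ, ∀ h ∈ 𝒜 d, F h = c ^ d • h := by
    intro c
    obtain ⟨F, hF⟩ := T.exists_algHom 𝒜 (B := R) (fun d => c ^ d • LinearMap.id)
      (by simp) (by
        intro i j a _ b _
        change c ^ (i + j) • (a * b) = (c ^ i • a) * (c ^ j • b)
        rw [smul_mul_smul_comm, pow_add])
    exact ⟨F, fun d h hh => hF d h hh⟩
  obtain ⟨F, hF⟩ := key c
  obtain ⟨G, hG⟩ := key c⁻¹
  have h1 : F.comp G = AlgHom.id ℂ R := by
    refine T.algHom_ext_graded 𝒜 fun d h hh => ?_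
    rw [AlgHom.comp_apply, hG d h hh, map_smul, hF d h hh, smul_smul, ← mul_pow,
      inv_mul_cancel₀ hc, one_pow, one_smul]
    rfl
  have h2 : G.comp F = AlgHom.id ℂ R := by
    refine T.algHom_ext_graded 𝒜 fun d h hh => ?_
    rw [AlgHom.comp_apply, hF d h hh, map_smul, hG d h hh, smul_smul, ← mul_pow,
      mul_inv_cancel₀ hc, one_pow, one_smul]
    rfl
  exact ⟨AlgEquiv.ofAlgHom F G h1 h2, hF⟩

theorem reach_base (z : R →ₐ[ℂ] ℂ) : ∃ P : Ideal R, Reach 𝒜 z P ∧
    (∀ h ∈ P, ∀ d, GradedAlgebra.proj 𝒜 d h ∈ P) ∧ P ≤ RingHom.ker z := by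
  obtain ⟨φ, hφ⟩ := T.exists_algHom 𝒜 (B := ℂ[X]) (fun d => (monomial d).comp z.toLinearMap)
    (by
      change monomial 0 (z 1) = 1
      rw [map_one]
      rfl) (by
      intro i j a _ b _
      change monomial (i + j) (z (a * b)) = monomial i (z a) * monomial j (z b)
      rw [monomial_mul_monomial, map_mul])
  have hφ' : ∀ d, ∀ h ∈ 𝒜 d, φ h = monomial d (z h) := fun d h hh => hφ d h hh
  have hcoeff : ∀ (h : R) (d : ℕ), (φ h).coeff d = z (GradedAlgebra.proj 𝒜 d h) := by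
    intro h d
    have h1 : (lcoeff ℂ d).comp φ.toLinearMap = z.toLinearMap.comp (GradedAlgebra.proj 𝒜 d) := by
      refine T.linearMap_ext_graded 𝒜 fun i a ha => ?_
      change (φ a).coeff d = z (GradedAlgebra.proj 𝒜 d a)
      rw [hφ' i a ha, coeff_monomial, GradedAlgebra.proj_apply]
      split_ifs with hi
      · subst hi
        rw [DirectSum.decompose_of_mem_same 𝒜 ha]
      · rw [DirectSum.decompose_of_mem_ne 𝒜 ha hi, map_zero]
    exact LinearMap.congr_fun h1 h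
  refine ⟨RingHom.ker φ, ⟨ℂ[X], inferInstance, inferInstance, inferInstance, inferInstance, φ, X,
    X_ne_zero, rfl, ?_⟩, ?_, ?_⟩
  · intro β hβ
    obtain ⟨F, hF⟩ := exists_scale (𝒜 := 𝒜) hβ
    refine ⟨F, fun d h hh => ?_, fun h => ?_⟩
    · rw [hF d h hh]
      exact Submodule.smul_mem _ _ hh
    · have h1 : β.comp φ = z.comp (F : R →ₐ[ℂ] R) := by
        refine T.algHom_ext_graded 𝒜 fun d h hh => ?_
        change β (φ h) = z (F h)
        rw [hφ' d h hh, hF d h hh, ← C_mul_X_pow_eq_monomial, map_mul, map_pow, map_smul,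
          smul_eq_mul, mul_comm]
        congr 1
        exact β.commutes (z h)
      exact DFunLike.congr_fun h1 h
  · intro h hh d
    rw [RingHom.mem_ker] at hh ⊢
    ext e
    change (φ (GradedAlgebra.proj 𝒜 d h)).coeff e = (0 : ℂ[X]).coeff e
    rw [hcoeff, coeff_zero]
    by_cases he : d = e
    · subst he
      have h1 : GradedAlgebra.proj 𝒜 d (GradedAlgebra.proj 𝒜 d h) = GradedAlgebra.proj 𝒜 d h := by
        rw [GradedAlgebra.proj_apply 𝒜 d (GradedAlgebra.proj 𝒜 d h)]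
        exact DirectSum.decompose_of_mem_same 𝒜 (SetLike.coe_mem _)
      rw [h1, ← hcoeff, hh, coeff_zero]
    · have h1 : GradedAlgebra.proj 𝒜 e (GradedAlgebra.proj 𝒜 d h) = 0 := by
        rw [GradedAlgebra.proj_apply 𝒜 e (GradedAlgebra.proj 𝒜 d h)]
        exact DirectSum.decompose_of_mem_ne 𝒜 (SetLike.coe_mem _) he
      rw [h1, map_zero]
  · intro h hh
    rw [RingHom.mem_ker] at hh ⊢
    have h1 : (aeval (1 : ℂ)).comp φ = z := by
      refine T.algHom_ext_graded 𝒜 fun d h hh => ?_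
      rw [AlgHom.comp_apply, hφ' d h hh, aeval_monomial, one_pow, mul_one]
      rfl
    have h2 := DFunLike.congr_fun h1 h
    rw [← h2, AlgHom.comp_apply]
    change aeval (1 : ℂ) (φ h) = 0
    rw [show φ h = 0 from hh, map_zero]

omit [GradedAlgebra 𝒜] in
theorem reach_step {z : R →ₐ[ℂ] ℂ} {P : Ideal R} (hP : Reach 𝒜 z P) {D : Derivation ℂ R R}
    (hD : ∀ h, ∃ n : ℕ, (⇑D)^[n] h = 0) (hg : ∀ d : ℕ, ∀ h ∈ 𝒜 d, D h ∈ 𝒜 d) :
    ∃ P' : Ideal R, Reach 𝒜 z P' ∧ ∀ h, h ∈ P' ↔ ∀ n : ℕ, (⇑D)^[n] h ∈ P := by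
  obtain ⟨B, _, _, _, _, φ, b, hb, rfl, horb⟩ := hP
  obtain ⟨e, he⟩ := exists_expX D hD
  let ψ : R →ₐ[ℂ] B[X] := (mapAlgHom φ).comp e
  have hψ : ∀ h n, (ψ h).coeff n = ((n.factorial : ℂ))⁻¹ • φ ((⇑D)^[n] h) := by
    intro h n
    change ((e h).map (φ : R →+* B)).coeff n = _
    rw [coeff_map, he]
    exact map_smul φ _ _
  have hgi : ∀ (n d : ℕ), ∀ h ∈ 𝒜 d, (⇑D)^[n] h ∈ 𝒜 d := by
    intro n d h hh
    induction n with
    | zero => exact hh
    | succ n ih => rw [Function.iterate_succ_apply']; exact hg d _ ih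
  have : Algebra.FiniteType ℂ B[X] := Algebra.FiniteType.trans (S := B) inferInstance inferInstance
  refine ⟨RingHom.ker ψ, ⟨B[X], inferInstance, inferInstance, inferInstance, this, ψ, C b,
    C_ne_zero.2 hb, rfl, ?_⟩, ?_⟩
  · intro β hβ
    let β0 : B →ₐ[ℂ] ℂ := β.comp (CAlgHom : B →ₐ[ℂ] B[X])
    have h1 : Orb 𝒜 z (β0.comp φ) := horb β0 hβ
    obtain ⟨F, hF⟩ := exists_autom D he hD (β X)
    refine h1.trans ⟨F, ?_, ?_⟩
    · intro d h hh
      rw [hF, eval_eq_sum_range]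
      refine Submodule.sum_mem _ fun n _ => ?_
      rw [he, ← map_pow, mul_comm, ← Algebra.smul_def]
      exact Submodule.smul_mem _ _ (Submodule.smul_mem _ _ (hgi n d h hh))
    · intro h
      rw [hF]
      let ε : R[X] →ₐ[ℂ] R := (aeval (R := R) (algebraMap ℂ R (β X))).restrictScalars ℂ
      have h2 : β.comp (mapAlgHom φ) = (β0.comp φ).comp ε := by
        refine algHom_ext' ?_ ?_
        · ext r
          change β ((C r).map (φ : R →+* B)) = β (C (φ (aeval (R := R) (algebraMap ℂ R (β X)) (C r))))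
          rw [map_C, aeval_C]
          rfl
        · change β ((X : R[X]).map (φ : R →+* B)) =
            β (C (φ (aeval (R := R) (algebraMap ℂ R (β X)) X)))
          rw [map_X, aeval_X]
          have h3 : β (C (φ (algebraMap ℂ R (β X)))) = β X := by
            rw [AlgHom.commutes]
            exact β.commutes (β X)
          exact h3.symm
      exact DFunLike.congr_fun h2 (e h)
  · intro h
    rw [RingHom.mem_ker]
    constructor
    · intro h1 n
      rw [RingHom.mem_ker]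
      have h2 : (ψ h).coeff n = 0 := by
        rw [show ψ h = 0 from h1, coeff_zero]
      rw [hψ, smul_eq_zero] at h2
      exact h2.resolve_left (inv_ne_zero (by exact_mod_cast n.factorial_ne_zero))
    · intro h1
      ext n
      change (ψ h).coeff n = (0 : B[X]).coeff n
      rw [hψ, coeff_zero, (RingHom.mem_ker).1 (h1 n), smul_zero]

theorem exists_euler : ∃ E : Derivation ℂ R R, ∀ d : ℕ, ∀ h ∈ 𝒜 d, E h = (d : ℂ) • h := by
  obtain ⟨F, hF⟩ := H587.exists_linearMap 𝒜 (fun i : ℕ => (i : ℂ) • (LinearMap.id : R →ₗ[ℂ] R))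
  have hF' : ∀ i : ℕ, ∀ h ∈ 𝒜 i, F h = (i : ℂ) • h := fun i h hh => hF i h hh
  have hL : ∀ x y : R, F (x * y) = x • F y + y • F x := by
    intro a b
    let F1 : R →ₗ[ℂ] R →ₗ[ℂ] R := (LinearMap.mul ℂ R).compr₂ F
    let G : R →ₗ[ℂ] R →ₗ[ℂ] R :=
      (LinearMap.mul ℂ R).compl₁₂ LinearMap.id F +
        ((LinearMap.mul ℂ R).compl₁₂ LinearMap.id F).flip
    have hFG : F1 a b = G a b := by
      refine H587.bilin_ext 𝒜 (F := F1) (G := G) ?_ a b
      intro i j x hx y hy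
      change F (x * y) = x * F y + y * F x
      have hxy : x * y ∈ 𝒜 (i + j) := SetLike.mul_mem_graded hx hy
      rw [hF' _ _ hxy, hF' _ _ hx, hF' _ _ hy, mul_smul_comm, mul_smul_comm, mul_comm y x,
        ← add_smul, Nat.cast_add, add_comm]
    exact hFG
  exact ⟨Derivation.mk' F hL, hF'⟩

theorem exists_field {S : Set (Derivation ℂ R R)} {E : Derivation ℂ R R}
    (hE : ∀ d : ℕ, ∀ h ∈ 𝒜 d, E h = (d : ℂ) • h) {p : R →ₐ[ℂ] ℂ} {v : R →ₗ[ℂ] ℂ}
    (hv : ∃ c : ℂ, ∃ w ∈ Submodule.span ℂ {w : R →ₗ[ℂ] ℂ | ∃ D ∈ S, ∀ h, w h = p (D h)},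
      ∀ d : ℕ, ∀ h ∈ 𝒜 d, v h = w h + c * (d * p h)) :
    ∃ D ∈ Submodule.span ℂ (insert E S), ∀ h, p (D h) = v h := by
  obtain ⟨c, w, hw, hvw⟩ := hv
  have h1 : ∃ D ∈ Submodule.span ℂ (insert E S), ∀ h, w h = p (D h) := by
    clear hvw
    induction hw using Submodule.span_induction with
    | mem w hw =>
      obtain ⟨D, hD, h2⟩ := hw
      exact ⟨D, Submodule.subset_span (Set.mem_insert_of_mem _ hD), h2⟩
    | zero => exact ⟨0, Submodule.zero_mem _, fun h => by simp⟩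
    | add a b _ _ ha hb =>
      obtain ⟨D, hD, h2⟩ := ha
      obtain ⟨D', hD', h3⟩ := hb
      refine ⟨D + D', Submodule.add_mem _ hD hD', fun h => ?_⟩
      rw [LinearMap.add_apply, h2, h3, Derivation.add_apply, map_add]
    | smul r a _ ha =>
      obtain ⟨D, hD, h2⟩ := ha
      refine ⟨r • D, Submodule.smul_mem _ _ hD, fun h => ?_⟩
      rw [LinearMap.smul_apply, h2, Derivation.smul_apply, map_smul]
  obtain ⟨D, hD, h2⟩ := h1
  refine ⟨D + c • E, Submodule.add_mem _ hD (Submodule.smul_mem _ _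
    (Submodule.subset_span (Set.mem_insert _ _))), fun h => ?_⟩
  have h3 : p.toLinearMap.comp ((D + c • E : Derivation ℂ R R) : R →ₗ[ℂ] R) = v := by
    refine T.linearMap_ext_graded 𝒜 fun d h hh => ?_
    change p ((D + c • E : Derivation ℂ R R) h) = v h
    rw [hvw d h hh, h2, Derivation.add_apply, Derivation.smul_apply, hE d h hh, map_add, map_smul,
      map_smul, smul_eq_mul, smul_eq_mul]
  exact LinearMap.congr_fun h3 h

omit [GradedAlgebra 𝒜] in
theorem span_graded {S : Set (Derivation ℂ R R)}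
    (hS : ∀ D ∈ S, ∀ d : ℕ, ∀ h ∈ 𝒜 d, D h ∈ 𝒜 d) {D : Derivation ℂ R R}
    (hD : D ∈ Submodule.span ℂ S) : ∀ d : ℕ, ∀ h ∈ 𝒜 d, D h ∈ 𝒜 d := by
  induction hD using Submodule.span_induction with
  | mem D hD => exact hS D hD
  | zero => intro d h _; exact Submodule.zero_mem _
  | add a b _ _ ha hb =>
    intro d h hh
    exact Submodule.add_mem _ (ha d h hh) (hb d h hh)
  | smul r a _ ha =>
    intro d h hh
    exact Submodule.smul_mem _ _ (ha d h hh)

/-- The orbit of a point contains a nonempty open subset. -/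
theorem exists_open [IsDomain R] [Algebra.FiniteType ℂ R] (S : Set (Derivation ℂ R R))
    (hS : ∀ D ∈ S, (∀ d : ℕ, ∀ h ∈ 𝒜 d, D h ∈ 𝒜 d) ∧ ∀ h, ∃ n : ℕ, (⇑D)^[n] h = 0)
    (z : R →ₐ[ℂ] ℂ) (hspan : ∀ v : R →ₗ[ℂ] ℂ, IsTangent z v →
      ∃ c : ℂ, ∃ w ∈ Submodule.span ℂ {w : R →ₗ[ℂ] ℂ | ∃ D ∈ S, ∀ h, w h = z (D h)},
        ∀ d : ℕ, ∀ h ∈ 𝒜 d, v h = w h + c * (d * z h)) :
    ∃ G : R, G ≠ 0 ∧ ∀ y : R →ₐ[ℂ] ℂ, y G ≠ 0 → Orb 𝒜 z y := by
  classical
  have : IsNoetherianRing R := Algebra.FiniteType.isNoetherianRing ℂ R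
  obtain ⟨E, hE⟩ := exists_euler (𝒜 := 𝒜)
  let Q : Set (Ideal R) := {P | Reach 𝒜 z P ∧ (∀ h ∈ P, ∀ d, GradedAlgebra.proj 𝒜 d h ∈ P) ∧
    P ≤ RingHom.ker z}
  have hprime : ∀ P ∈ Q, P.IsPrime := by
    rintro P ⟨⟨B, _, _, _, _, φ, b, hb, rfl, -⟩, -, -⟩
    exact RingHom.ker_isPrime φ
  obtain ⟨P0, hP0⟩ : Q.Nonempty := reach_base z
  obtain ⟨P, hP, hmin⟩ := WellFounded.has_min
    (InvImage.wf (fun P : Ideal R => P.height) (wellFounded_lt (α := ℕ∞))) Q ⟨P0, hP0⟩
  obtain ⟨hreach, hhom, hle⟩ := hP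
  -- stability
  have hst : ∀ D ∈ S, ∀ h ∈ P, D h ∈ P := by
    intro D hD h hh
    obtain ⟨P', hP', hiff⟩ := reach_step hreach (hS D hD).2 (hS D hD).1
    have hsub : P' ≤ P := fun x hx => (hiff x).1 hx 0
    have hQ : P' ∈ Q := by
      refine ⟨hP', fun x hx d => ?_, hsub.trans hle⟩
      rw [hiff] at hx ⊢
      intro n
      have h1 : ∀ n : ℕ, (⇑D)^[n] (GradedAlgebra.proj 𝒜 d x) =
          GradedAlgebra.proj 𝒜 d ((⇑D)^[n] x) := by
        intro n
        induction n with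
        | zero => rfl
        | succ n ih =>
          rw [Function.iterate_succ_apply', Function.iterate_succ_apply', ih]
          exact (proj_map (F := (D : R →ₗ[ℂ] R)) (hS D hD).1 d _).symm
      rw [h1]
      exact hhom _ (hx n) d
    have heq : P' = P := by
      by_contra hne
      have := hprime P' hQ
      exact hmin P' hQ (Ideal.height_strict_mono_of_isPrime (lt_of_le_of_ne hsub hne))
    rw [← heq] at hh
    exact (hiff h).1 hh 1
  have hEP : ∀ h ∈ P, E h ∈ P := by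
    intro h hh
    rw [← DirectSum.sum_support_decompose 𝒜 h, map_sum]
    refine Ideal.sum_mem _ fun d _ => ?_
    rw [hE d _ (SetLike.coe_mem _), Algebra.smul_def]
    exact Ideal.mul_mem_left _ _ (hhom h hh d)
  have hst' : ∀ D ∈ Submodule.span ℂ (insert E S), ∀ h ∈ P, D h ∈ P := by
    intro D hD
    induction hD using Submodule.span_induction with
    | mem D hD =>
      rcases hD with rfl | hD
      · exact hEP
      · exact hst D hD
    | zero => intro h _; exact Ideal.zero_mem _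
    | add a b _ _ ha hb =>
      intro h hh
      exact Ideal.add_mem _ (ha h hh) (hb h hh)
    | smul r a _ ha =>
      intro h hh
      rw [Derivation.smul_apply, Algebra.smul_def]
      exact Ideal.mul_mem_left _ _ (ha h hh)
  -- the ideal is zero
  obtain ⟨n, u, v, hu, hv, hg⟩ := H939.exists_coords z
  choose D hD hDv using fun i => exists_field (S := S) hE (hspan (v i) (hv i))
  let E' : Derivation ℂ R R := ∑ i, u i • D i
  have hE' : ∀ x, E' x = ∑ i, u i * D i x := by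
    intro x
    have h1 := map_sum (Derivation.coeFnAddMonoidHom (R := ℂ) (A := R) (M := R))
      (fun i => u i • D i) Finset.univ
    have h2 := congrFun h1 x
    rw [Finset.sum_apply] at h2
    exact h2
  have hum : ∀ i, u i ∈ RingHom.ker z := fun i => (RingHom.mem_ker).2 (hu i)
  have hPbot : P = ⊥ := by
    refine H939.stable_eq_bot (m := RingHom.ker z) (E := E') (RingHom.ker_ne_top _) hle ?_ ?_ ?_
    · intro x
      rw [hE']
      exact Ideal.sum_mem _ fun i _ => Ideal.mul_mem_right _ _ (hum i)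
    · intro x hx
      have e : E' x - x = (∑ i, u i * (D i x - algebraMap ℂ R (z (D i x)))) -
          (x - ∑ i, v i x • u i) := by
        have e1 : ∑ i, u i * (D i x - algebraMap ℂ R (z (D i x))) =
            ∑ i, u i * D i x - ∑ i, v i x • u i := by
          rw [← Finset.sum_sub_distrib]
          refine Finset.sum_congr rfl fun i _ => ?_
          rw [hDv, Algebra.smul_def, mul_sub, mul_comm (u i) (algebraMap ℂ R _)]
        rw [hE', e1]
        ring
      rw [e]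
      refine Ideal.sub_mem _ (Ideal.sum_mem _ fun i _ => ?_) (hg x ((RingHom.mem_ker).1 hx))
      rw [pow_two]
      refine Ideal.mul_mem_mul (hum i) ?_
      rw [RingHom.mem_ker, map_sub, AlgHom.commutes]
      simp
    · intro x hx
      rw [hE']
      exact Ideal.sum_mem _ fun i _ => Ideal.mul_mem_mul (hum i) (hst' _ (hD i) x hx)
  obtain ⟨B, _, _, _, _, φ, b, hb, hker, horb⟩ := hreach
  rw [hPbot] at hker
  have hinj : Function.Injective φ := (RingHom.injective_iff_ker_eq_bot φ).2 hker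
  let ψ : R →ₐ[ℂ] Localization.Away b := (IsScalarTower.toAlgHom ℂ B (Localization.Away b)).comp φ
  have hψ : Function.Injective ψ :=
    (IsLocalization.injective (Localization.Away b)
      (powers_le_nonZeroDivisors_of_noZeroDivisors hb)).comp hinj
  have : Algebra.FiniteType ℂ (Localization.Away b) :=
    Algebra.FiniteType.trans (S := B) inferInstance
      (IsLocalization.finiteType_of_monoid_fg (Submonoid.powers b) _)
  obtain ⟨G, hG, hlift⟩ := Vale.Agent.P292.VF.exists_generic_lift ψ hψ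
  refine ⟨G, hG, fun y hy => ?_⟩
  obtain ⟨c, hc⟩ := hlift y hy
  have h1 := horb (c.comp (IsScalarTower.toAlgHom ℂ B (Localization.Away b))) (by
    have h2 : IsUnit (algebraMap B (Localization.Away b) b) :=
      IsLocalization.Away.algebraMap_isUnit b
    exact (h2.map c).ne_zero)
  have h3 : (c.comp (IsScalarTower.toAlgHom ℂ B (Localization.Away b))).comp φ = y := by
    rw [← hc]
    rfl
  rwa [h3] at h1

end orb

/-- (M-TRANS) Nilpotent fields whose values generate the tangent bundle. -/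
theorem transitive_of_nilpotent {R : Type} [CommRing R] [Algebra ℂ R] {𝒜 : ℕ → Submodule ℂ R}
    [GradedAlgebra 𝒜] (hX : IsProjectiveManifold 𝒜) (S : Set (Derivation ℂ R R))
    (hS : ∀ D ∈ S, (∀ d : ℕ, ∀ h ∈ 𝒜 d, D h ∈ 𝒜 d) ∧ ∀ h, ∃ n : ℕ, (⇑D)^[n] h = 0)
    (hspan : ∀ p : R →ₐ[ℂ] ℂ, ¬ IsVertex 𝒜 p → ∀ v : R →ₗ[ℂ] ℂ, IsTangent p v →
      ∃ c : ℂ, ∃ w ∈ Submodule.span ℂ {w : R →ₗ[ℂ] ℂ | ∃ D ∈ S, ∀ h, w h = p (D h)},
        ∀ d : ℕ, ∀ h ∈ 𝒜 d, v h = w h + c * (d * p h)) :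
    IsHomogeneousManifold 𝒜 ∧ IsTransitive 𝒜 := by
  have := hX.domain
  have := hX.finiteType
  constructor
  · intro p hp v hv
    obtain ⟨E, hE⟩ := exists_euler (𝒜 := 𝒜)
    obtain ⟨D, hD, hDv⟩ := exists_field (S := S) hE (hspan p hp v hv)
    refine ⟨D, span_graded ?_ hD, hDv⟩
    rintro D (rfl | hD) d h hh
    · rw [hE d h hh]
      exact Submodule.smul_mem _ _ hh
    · exact (hS D hD).1 d h hh
  · intro z z' hz hz'
    obtain ⟨G, hG, h1⟩ := exists_open S hS z (hspan z hz)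
    obtain ⟨G', hG', h2⟩ := exists_open S hS z' (hspan z' hz')
    obtain ⟨y, hy⟩ := Vale.Agent.P292.VF.exists_point_ne_zero (mul_ne_zero hG hG')
    rw [map_mul] at hy
    exact (h1 y (left_ne_zero_of_mul hy)).trans (h2 y (right_ne_zero_of_mul hy)).symm

end Vale.Agent.P280.H475
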