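import Vale.Agent.P280.H475.ConvF

/-! P280, Theorem F: the hypotheses in terms of weak curves over `ℂ`. -/

open DirectSum Polynomial Module

namespace Vale.Agent.P280.H475

open Vale.Agent.P280.S

section

set_option linter.unusedSectionVars false

variable {R : Type} [CommRing R] [Algebra ℂ R] {𝒜 : ℕ → Submodule ℂ R} [GradedAlgebra 𝒜]

/-- The homogenization of a vector field. -/
noncomputable def hgL (𝒜 : ℕ → Submodule ℂ R) [GradedAlgebra 𝒜] (e : ℕ) :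
    (R →ₗ[ℂ] ℂ[X]) →ₗ[ℂ] (R →ₗ[ℂ] MvPolynomial (Fin 2) ℂ) where
  toFun η := mkLin 𝒜 fun d => (homogenizeLM (R := ℂ) (d * e)).comp η
  map_add' η η' := lin_ext 𝒜 fun d h hh => by
    rw [LinearMap.add_apply, mkLin_apply 𝒜 hh, mkLin_apply 𝒜 hh, mkLin_apply 𝒜 hh]
    exact homogenize_add _ _ _
  map_smul' c η := lin_ext 𝒜 fun d h hh => by
    rw [RingHom.id_apply, LinearMap.smul_apply, mkLin_apply 𝒜 hh, mkLin_apply 𝒜 hh]
    exact homogenize_smul c (η h) (d * e)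

theorem hgL_apply {e : ℕ} (η : R →ₗ[ℂ] ℂ[X]) {d : ℕ} {h : R} (hh : h ∈ 𝒜 d) :
    hgL 𝒜 e η h = (η h).homogenize (d * e) := mkLin_apply 𝒜 hh

theorem hgL_mem {e : ℕ} {ψ : R →ₐ[ℂ] ℂ[X]} (hd : Deg 𝒜 e ψ) {η : R →ₗ[ℂ] ℂ[X]}
    (hη : η ∈ Vf0 𝒜 e ψ) : hgL 𝒜 e η ∈ fieldsZero 𝒜 e (hgz hd) := by
  refine ⟨leibniz_of_hom 𝒜 fun i j a ha b hb => ?_, fun d h hh => ?_, fun h => ?_⟩
  · rw [hgL_apply _ (SetLike.mul_mem_graded ha hb), hgL_apply _ ha, hgL_apply _ hb,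
      hgz_apply hd ha, hgz_apply hd hb, hη.1.1, homogenize_add, add_mul,
      homogenize_mul _ _ (hd i a ha) (hη.1.2 j b hb), add_comm (i * e),
      homogenize_mul _ _ (hd j b hb) (hη.1.2 i a ha)]
  · rw [hgL_apply _ hh]
    exact isHomogeneous_homogenize _
  · have h1 : (MvPolynomial.aeval ![(1 : ℂ), 0]).toLinearMap.comp (hgL 𝒜 e η) = 0 :=
      lin_ext 𝒜 fun d x hx => by
        rw [LinearMap.comp_apply, hgL_apply _ hx, AlgHom.toLinearMap_apply,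
          aeval_homogenize_infty _ _ _ (by simp), hη.2 d x hx, mul_zero, LinearMap.zero_apply]
    exact LinearMap.congr_fun h1 h

theorem hgL_injOn {e : ℕ} {ψ : R →ₐ[ℂ] ℂ[X]} {η η' : R →ₗ[ℂ] ℂ[X]}
    (hη : η ∈ Vf 𝒜 e ψ) (hη' : η' ∈ Vf 𝒜 e ψ) (h : hgL 𝒜 e η = hgL 𝒜 e η') : η = η' := by
  refine lin_ext 𝒜 fun d x hx => ?_
  have h1 := LinearMap.congr_fun h x
  rw [hgL_apply _ hx, hgL_apply _ hx] at h1
  have h2 : (η x - η' x).homogenize (d * e) = 0 := by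
    rw [homogenize_sub]
    exact sub_eq_zero.2 h1
  exact sub_eq_zero.1 ((homogenize_eq_zero_iff ((natDegree_sub_le _ _).trans
    (max_le (hη.2 d x hx) (hη'.2 d x hx)))).1 h2)

/-- The dehomogenization of a vector field. -/
noncomputable def dhL : (R →ₗ[ℂ] MvPolynomial (Fin 2) ℂ) →ₗ[ℂ] (R →ₗ[ℂ] ℂ[X]) where
  toFun δ := (MvPolynomial.aeval ![(X : ℂ[X]), 1]).toLinearMap.comp δ
  map_add' _ _ := LinearMap.comp_add _ _ _
  map_smul' _ _ := LinearMap.comp_smul _ _ _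

theorem dhL_mem {e : ℕ} {ψ : R →ₐ[ℂ] ℂ[X]} (hd : Deg 𝒜 e ψ)
    {δ : R →ₗ[ℂ] MvPolynomial (Fin 2) ℂ} (hδ : δ ∈ fieldsZero 𝒜 e (hgz hd)) :
    dhL δ ∈ Vf 𝒜 e ψ := by
  refine ⟨fun x y => ?_, fun d h hh => natDegree_dehom (hδ.2.1 d h hh)⟩
  have h1 : ∀ z, ψ z = MvPolynomial.aeval ![(X : ℂ[X]), 1] (hgz hd z) := fun z => by
    conv_lhs => rw [← dehom_hgz hd]
    rfl
  change MvPolynomial.aeval ![(X : ℂ[X]), 1] (δ (x * y)) =
    ψ x * MvPolynomial.aeval ![(X : ℂ[X]), 1] (δ y) +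
    ψ y * MvPolynomial.aeval ![(X : ℂ[X]), 1] (δ x)
  rw [hδ.1, map_add, map_mul, map_mul, h1, h1]

theorem finite_fieldsZero (hft : Algebra.FiniteType ℂ R)
    (hgen : Algebra.adjoin ℂ {h : R | h ∈ 𝒜 1} = ⊤) {e : ℕ} {ψ : R →ₐ[ℂ] ℂ[X]}
    (hd : Deg 𝒜 e ψ) : FiniteDimensional ℂ (fieldsZero 𝒜 e (hgz hd)) := by
  refine finite_of_vf 𝒜 hft hgen (ψ := ψ) (dhL.domRestrict (fieldsZero 𝒜 e (hgz hd)))
    (fun δ δ' h => ?_) fun δ => dhL_mem hd δ.2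
  refine Subtype.ext (lin_ext 𝒜 fun d x hx => ?_)
  have h2 : MvPolynomial.aeval ![(X : ℂ[X]), 1] (δ.1 x) =
      MvPolynomial.aeval ![(X : ℂ[X]), 1] (δ'.1 x) := LinearMap.congr_fun h x
  rw [← homogenize_eq_of_isHomogeneous (δ.2.2.1 d x hx) h2,
    homogenize_eq_of_isHomogeneous (δ'.2.2.1 d x hx) rfl]

/-- The dimension of the space of fields which vanish at infinity. -/
theorem finrank_vf0_le (hft : Algebra.FiniteType ℂ R)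
    (hgen : Algebra.adjoin ℂ {h : R | h ∈ 𝒜 1} = ⊤) {r : ℚ} (hr : HasIndex 𝒜 r) {e : ℕ}
    {ψ : R →ₐ[ℂ] ℂ[X]} (h : Strong 𝒜 e ψ) : (finrank ℂ (Vf0 𝒜 e ψ) : ℚ) ≤ r * e := by
  rw [← hr e (hgz h.1) (isCurve_of_strong hgen h)]
  have := finite_fieldsZero hft hgen h.1
  let L : Vf0 𝒜 e ψ →ₗ[ℂ] fieldsZero 𝒜 e (hgz h.1) :=
    ((hgL 𝒜 e).domRestrict (Vf0 𝒜 e ψ)).codRestrict (fieldsZero 𝒜 e (hgz h.1))
      fun η => hgL_mem h.1 η.2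
  have hL : Function.Injective L := fun η η' h1 =>
    Subtype.ext (hgL_injOn η.2.1 η'.2.1 (congrArg Subtype.val h1))
  exact_mod_cast LinearMap.finrank_le_finrank_of_injective hL

/-- The local expressions, evaluated at the velocity of a curve. -/
theorem val_eq {J : Set R} {θ : (R →ₐ[ℂ] ℂ) → (R →ₗ[ℂ] ℂ) → ℂ} {ρ : Rep R}
    (hρ : ρ.IsValid 𝒜 J θ) {e : ℕ} {φ : R →ₐ[ℂ] MvPolynomial (Fin 2) ℂ}
    (hφ : ∀ d : ℕ, ∀ h ∈ 𝒜 d, (φ h).IsHomogeneous (d * e)) (hF : OnF 𝒜 J (pt φ ![1, 0])) :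
    ρ.val e (dehom φ) = pt φ ![1, 0] ρ.b * θ (pt φ ![1, 0]) (vel φ ![1, 0] 1) := by
  rw [hρ.2 _ hF _ (isTangent_vel φ _ _), Rep.val]
  refine Finset.sum_congr rfl fun i _ => ?_
  obtain ⟨h1, h2, -⟩ := hρ.1.2 i
  rw [cInf, vInf, (piece_dehom hφ).fin _ _ h1, vel_infty hφ h2]

theorem basis_ne_zero : (![1, 0] : Fin 2 → ℂ) ≠ 0 := fun h => by
  have := congrFun h 0
  simp at this

theorem basis_ne_zero' : (![0, 1] : Fin 2 → ℂ) ≠ 0 := fun h => by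
  have := congrFun h 1
  simp at this

/-- Weak curves of small degree, and weak curves with base points, are null. -/
theorem null_val_aux (hgen : Algebra.adjoin ℂ {h : R | h ∈ 𝒜 1} = ⊤) {J : Set R}
    {θ : (R →ₐ[ℂ] ℂ) → (R →ₗ[ℂ] ℂ) → ℂ} {e d₀ : ℕ} {g : R}
    (hP : IsNullPair 𝒜 J θ e d₀ g) {e' : ℕ} {ψ : R →ₐ[ℂ] ℂ[X]} {p' p : R →ₐ[ℂ] ℂ}
    (h : Piece 𝒜 e' ψ p' p) (hp' : NV 𝒜 p') (hp : NV 𝒜 p)
    (hJ : ∀ h ∈ J, p h = 0) (he : e' ≤ e) (hs : e' = e → ¬ Strong 𝒜 e' ψ) {ρ : Rep R}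
    (hρ : ρ.IsValid 𝒜 J θ) : ρ.val e' ψ = 0 := by
  obtain ⟨g, c', ψ₁, hg0, hbe, hc', h1, hs1, hmul, hb⟩ := h.exists_strong hgen hp' hp
  have hlc : g.leadingCoeff ≠ 0 := leadingCoeff_ne_zero.2 hg0
  set b := g.natDegree with hbdef
  set c := g.leadingCoeff⁻¹ with hcdef
  set γ := (X * g).coeff b / g.leadingCoeff with hγ
  have hlt : e' - b < e := by
    rcases he.eq_or_lt with h2 | h2
    · have := hb (hs h2)
      omega
    · omega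
  have hcurve := isCurve_of_strong hgen hs1
  have hdh : dehom (hgz hs1.1) = ψ₁ := dehom_hgz hs1.1
  have hpt : pt (hgz hs1.1) ![1, 0] = twist 𝒜 c p := hom_ext_hom 𝒜 fun d x hx => by
    rw [← h1.fin d x hx, ← (piece_dehom hcurve.1).fin d x hx, hdh]
  have hF : OnF 𝒜 J (pt (hgz hs1.1) ![1, 0]) := by
    refine ⟨hcurve.2 _ basis_ne_zero, fun x hx => ?_⟩
    obtain ⟨d, hd⟩ := hP.homogeneous x hx
    rw [hpt, twist_apply 𝒜 hd, hJ x hx, mul_zero]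
  have hnull := hP.null (e' - b) (hgz hs1.1) hlt hcurve hF.2
  have hval := val_eq hρ hcurve.1 hF
  rw [hnull, mul_zero, hdh] at hval
  -- the Euler vector
  have heuler := hP.covector.euler _ hF (eu 𝒜 (pt (hgz hs1.1) ![1, 0])) fun d x hx => by
    rw [eu_apply 𝒜 hx]
  have heu := hρ.2 _ hF _ (eu_mem_tan 𝒜 (pt (hgz hs1.1) ![1, 0]))
  rw [heuler, mul_zero] at heu
  -- the velocity of `ψ`
  have hdeg : Deg 𝒜 (e' - b) ψ₁ := hs1.1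
  have hsplit : ∀ d : ℕ, d * e' = d * b + d * (e' - b) := fun d => by
    rw [← mul_add, Nat.add_sub_cancel' hbe]
  have hc1 : ∀ d, ∀ x ∈ 𝒜 d, cInf e' ψ d x = g.leadingCoeff ^ d * cInf (e' - b) ψ₁ d x := by
    intro d x hx
    have h2 : (g ^ d * ψ₁ x).coeff (d * b + d * (e' - b)) =
        (g ^ d).coeff (d * b) * (ψ₁ x).coeff (d * (e' - b)) :=
      coeff_mul_add_eq_of_natDegree_le natDegree_pow_le (hdeg d x hx)
    rw [cInf, cInf, hmul d x hx, hsplit d, h2, hbdef, coeff_pow_mul_natDegree]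
  have hv1 : ∀ d, ∀ x ∈ 𝒜 d, vInf e' ψ d x = g.leadingCoeff ^ d *
      (vInf (e' - b) ψ₁ d x + d * γ * cInf (e' - b) ψ₁ d x) := by
    intro d x hx
    have h2 : (X * (g ^ d * ψ₁ x)).coeff (d * b + d * (e' - b)) =
        (X * g ^ d).coeff (d * b) * (ψ₁ x).coeff (d * (e' - b)) +
        (g ^ d).coeff (d * b) * (X * ψ₁ x).coeff (d * (e' - b)) :=
      coeff_X_mul_mul natDegree_pow_le (hdeg d x hx)
    rw [vInf, vInf, cInf, hmul d x hx, hsplit d, h2, hbdef, coeff_pow_mul_natDegree,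
      coeff_X_mul_pow hg0]
    ring
  have hterm : ∀ i, cInf e' ψ (ρ.k i) (ρ.a i) * vInf e' ψ (ρ.l i) (ρ.c i) =
      g.leadingCoeff ^ ρ.m * (cInf (e' - b) ψ₁ (ρ.k i) (ρ.a i) *
      vInf (e' - b) ψ₁ (ρ.l i) (ρ.c i)) + g.leadingCoeff ^ ρ.m * γ *
      (pt (hgz hs1.1) ![1, 0] (ρ.a i) * eu 𝒜 (pt (hgz hs1.1) ![1, 0]) (ρ.c i)) := by
    intro i
    obtain ⟨h2, h3, h4⟩ := hρ.1.2 i
    rw [hc1 _ _ h2, hv1 _ _ h3, eu_apply 𝒜 h3, ← (piece_dehom hcurve.1).fin _ _ h2,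
      ← (piece_dehom hcurve.1).fin _ _ h3, hdh, ← h4, pow_add, cInf, cInf]
    ring
  rw [Rep.val, Finset.sum_congr rfl fun i _ => hterm i, Finset.sum_add_distrib,
    ← Finset.mul_sum, ← Finset.mul_sum, ← heu, mul_zero, add_zero]
  rw [Rep.val] at hval
  rw [hval, mul_zero]

end

end Vale.Agent.P280.H475
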