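import Vale.Agent.P280.H475.Weak
import Vale.Agent.P280.S.H847.Conv

/-! P280, Theorem F: curves over `ℂ`, velocities. -/

open DirectSum Polynomial Module

namespace Vale.Agent.P280.H475

open Vale.Agent.P280.S

section poly

/-- The velocity at infinity. -/
theorem aeval_pderiv_one (p : ℂ[X]) (n : ℕ) :
    MvPolynomial.aeval ![(1 : ℂ), 0] (MvPolynomial.pderiv 1 (p.homogenize n)) =
      (X * p).coeff n := by
  have h1 : ∀ kl : ℕ × ℕ, MvPolynomial.aeval ![(1 : ℂ), 0] (MvPolynomial.pderiv 1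
      (MvPolynomial.monomial (fun₀ | (0 : Fin 2) => kl.1 | 1 => kl.2) (p.coeff kl.1))) =
      p.coeff kl.1 * kl.2 * 0 ^ (kl.2 - 1) := by
    intro kl
    rw [MvPolynomial.pderiv_monomial, MvPolynomial.aeval_monomial,
      Finsupp.prod_fintype _ _ (fun i => pow_zero _), Fin.prod_univ_two]
    simp
  rw [homogenize, map_sum, map_sum, Finset.sum_congr rfl fun kl _ => h1 kl]
  cases n with
  | zero => simp
  | succ n =>
    rw [coeff_X_mul, Finset.sum_eq_single (n, 1)]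
    · simp
    · rintro ⟨i, j⟩ hij hne
      rw [Finset.HasAntidiagonal.mem_antidiagonal] at hij
      change i + j = n + 1 at hij
      change p.coeff i * j * 0 ^ (j - 1) = 0
      rcases Nat.lt_or_ge j 1 with hj | hj
      · have : j = 0 := by omega
        rw [this]
        simp
      · have : j - 1 ≠ 0 := fun h => hne (Prod.ext (by omega) (by omega))
        rw [zero_pow this, mul_zero]
    · intro h
      exact absurd (Finset.HasAntidiagonal.mem_antidiagonal.2 (Nat.succ_eq_add_one n).symm) h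

/-- The velocity at zero. -/
theorem aeval_pderiv_zero {p : ℂ[X]} {n : ℕ} (hn : p.natDegree ≤ n) :
    MvPolynomial.aeval ![(0 : ℂ), 1] (MvPolynomial.pderiv 0 (p.homogenize n)) = p.coeff 1 := by
  have h1 : ∀ kl : ℕ × ℕ, MvPolynomial.aeval ![(0 : ℂ), 1] (MvPolynomial.pderiv 0
      (MvPolynomial.monomial (fun₀ | (0 : Fin 2) => kl.1 | 1 => kl.2) (p.coeff kl.1))) =
      p.coeff kl.1 * kl.1 * 0 ^ (kl.1 - 1) := by
    intro kl
    rw [MvPolynomial.pderiv_monomial, MvPolynomial.aeval_monomial,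
      Finsupp.prod_fintype _ _ (fun i => pow_zero _), Fin.prod_univ_two]
    simp
  rw [homogenize, map_sum, map_sum, Finset.sum_congr rfl fun kl _ => h1 kl]
  cases n with
  | zero =>
    rw [coeff_eq_zero_of_natDegree_lt (by omega)]
    simp
  | succ n =>
    rw [Finset.sum_eq_single (1, n)]
    · simp
    · rintro ⟨i, j⟩ hij hne
      rw [Finset.HasAntidiagonal.mem_antidiagonal] at hij
      change i + j = n + 1 at hij
      change p.coeff i * i * 0 ^ (i - 1) = 0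
      rcases Nat.lt_or_ge i 1 with hj | hj
      · have : i = 0 := by omega
        rw [this]
        simp
      · have : i - 1 ≠ 0 := fun h => hne (Prod.ext (by omega) (by omega))
        rw [zero_pow this, mul_zero]
    · intro h
      exact absurd (Finset.HasAntidiagonal.mem_antidiagonal.2 (add_comm 1 n)) h

/-- The product rule at infinity. -/
theorem coeff_X_mul_mul {k : Type*} [CommRing k] {p q : k[X]} {m n : ℕ} (hp : p.natDegree ≤ m)
    (hq : q.natDegree ≤ n) : (X * (p * q)).coeff (m + n) =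
      (X * p).coeff m * q.coeff n + p.coeff m * (X * q).coeff n := by
  set P := X * p - C (p.coeff m) * X ^ (m + 1) with hP
  have hPd : P.natDegree ≤ m := by
    rw [natDegree_le_iff_coeff_eq_zero]
    intro i hi
    obtain ⟨j, rfl⟩ : ∃ j, i = j + 1 := ⟨i - 1, by omega⟩
    rw [hP, coeff_sub, coeff_X_mul, coeff_C_mul, coeff_X_pow]
    rcases (Nat.lt_succ_iff.1 hi).eq_or_lt with h | h
    · rw [h, if_pos rfl, mul_one, sub_self]
    · rw [coeff_eq_zero_of_natDegree_lt (lt_of_le_of_lt hp h), if_neg (by omega), mul_zero,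
        sub_zero]
  have h1 : X * (p * q) = P * q + C (p.coeff m) * (X ^ m * (X * q)) := by
    rw [hP]
    ring
  rw [h1, coeff_add, coeff_mul_add_eq_of_natDegree_le hPd hq, coeff_C_mul, add_comm m n,
    coeff_X_pow_mul, hP, coeff_sub, coeff_C_mul, coeff_X_pow, if_neg (by omega), mul_zero,
    sub_zero]

theorem coeff_X_mul_pow {k : Type*} [Field k] {g : k[X]} (hg : g ≠ 0) (d : ℕ) :
    (X * g ^ d).coeff (d * g.natDegree) =
      d * ((X * g).coeff g.natDegree / g.leadingCoeff) * g.leadingCoeff ^ d := by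
  have hlc : g.leadingCoeff ≠ 0 := leadingCoeff_ne_zero.2 hg
  induction d with
  | zero => simp
  | succ d ih =>
    rw [pow_succ, add_mul, one_mul, coeff_X_mul_mul natDegree_pow_le le_rfl, ih,
      coeff_pow_mul_natDegree]
    change _ * g.leadingCoeff + _ = _
    push_cast
    field_simp
    ring

end poly

section

set_option linter.unusedSectionVars false

variable {R : Type} [CommRing R] [Algebra ℂ R] {𝒜 : ℕ → Submodule ℂ R} [GradedAlgebra 𝒜]

/-- The weak curve of a curve. -/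
noncomputable def dehom (φ : R →ₐ[ℂ] MvPolynomial (Fin 2) ℂ) : R →ₐ[ℂ] ℂ[X] :=
  (MvPolynomial.aeval ![(X : ℂ[X]), 1]).comp φ

theorem homogenize_dehom {e : ℕ} {φ : R →ₐ[ℂ] MvPolynomial (Fin 2) ℂ}
    (hφ : ∀ d : ℕ, ∀ h ∈ 𝒜 d, (φ h).IsHomogeneous (d * e)) {d : ℕ} {h : R} (hh : h ∈ 𝒜 d) :
    (dehom φ h).homogenize (d * e) = φ h := homogenize_eq_of_isHomogeneous (hφ d h hh) rfl

theorem deg_dehom {e : ℕ} {φ : R →ₐ[ℂ] MvPolynomial (Fin 2) ℂ}
    (hφ : ∀ d : ℕ, ∀ h ∈ 𝒜 d, (φ h).IsHomogeneous (d * e)) : Deg 𝒜 e (dehom φ) :=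
  fun d h hh => natDegree_dehom (hφ d h hh)

theorem hgz_dehom {e : ℕ} {φ : R →ₐ[ℂ] MvPolynomial (Fin 2) ℂ}
    (hφ : ∀ d : ℕ, ∀ h ∈ 𝒜 d, (φ h).IsHomogeneous (d * e)) : hgz (deg_dehom hφ) = φ :=
  hom_ext_hom 𝒜 fun d h hh => by rw [hgz_apply _ hh, homogenize_dehom hφ hh]

/-- The weak curve of a curve, as a piece. -/
theorem piece_dehom {e : ℕ} {φ : R →ₐ[ℂ] MvPolynomial (Fin 2) ℂ}
    (hφ : ∀ d : ℕ, ∀ h ∈ 𝒜 d, (φ h).IsHomogeneous (d * e)) :
    Piece 𝒜 e (dehom φ) (pt φ ![0, 1]) (pt φ ![1, 0]) := by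
  refine ⟨deg_dehom hφ, fun d h hh => ?_, fun d h hh => ?_⟩
  · conv_rhs => rw [pt, AlgHom.comp_apply, ← homogenize_dehom hφ hh]
    rw [aeval_homogenize_fin _ (deg_dehom hφ d h hh) _ (by simp), coeff_zero_eq_eval_zero]
    simp
  · conv_rhs => rw [pt, AlgHom.comp_apply, ← homogenize_dehom hφ hh]
    rw [aeval_homogenize_infty _ _ _ (by simp)]
    simp

theorem vel_infty {e : ℕ} {φ : R →ₐ[ℂ] MvPolynomial (Fin 2) ℂ}
    (hφ : ∀ d : ℕ, ∀ h ∈ 𝒜 d, (φ h).IsHomogeneous (d * e)) {d : ℕ} {h : R} (hh : h ∈ 𝒜 d) :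
    vel φ ![1, 0] 1 h = (X * dehom φ h).coeff (d * e) := by
  change MvPolynomial.aeval ![(1 : ℂ), 0] (MvPolynomial.pderiv 1 (φ h)) = _
  rw [← homogenize_dehom hφ hh, aeval_pderiv_one]

theorem vel_zero {e : ℕ} {φ : R →ₐ[ℂ] MvPolynomial (Fin 2) ℂ}
    (hφ : ∀ d : ℕ, ∀ h ∈ 𝒜 d, (φ h).IsHomogeneous (d * e)) {d : ℕ} {h : R} (hh : h ∈ 𝒜 d) :
    vel φ ![0, 1] 0 h = (dehom φ h).coeff 1 := by
  change MvPolynomial.aeval ![(0 : ℂ), 1] (MvPolynomial.pderiv 0 (φ h)) = _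
  rw [← homogenize_dehom hφ hh, aeval_pderiv_zero (deg_dehom hφ d h hh)]

theorem isTangent_vel (φ : R →ₐ[ℂ] MvPolynomial (Fin 2) ℂ) (a : Fin 2 → ℂ) (i : Fin 2) :
    IsTangent (pt φ a) (vel φ a i) := by
  intro x y
  change MvPolynomial.aeval a (MvPolynomial.pderiv i (φ (x * y))) =
    MvPolynomial.aeval a (φ x) * MvPolynomial.aeval a (MvPolynomial.pderiv i (φ y)) +
    MvPolynomial.aeval a (φ y) * MvPolynomial.aeval a (MvPolynomial.pderiv i (φ x))
  rw [map_mul, Derivation.leibniz, map_add, smul_eq_mul, smul_eq_mul, map_mul, map_mul]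

theorem strong_no_base {k : Type} [Field k] [Algebra ℂ k] {e : ℕ} {ψ : R →ₐ[ℂ] k[X]}
    (h : Strong 𝒜 e ψ) (c : k) : ∃ x ∈ 𝒜 1, (ψ x).eval c ≠ 0 := by
  by_contra hcon
  push Not at hcon
  have h1 : Ideal.span (ψ '' {h : R | h ∈ 𝒜 1}) ≤ RingHom.ker (evalRingHom c) := by
    refine Ideal.span_le.2 ?_
    rintro _ ⟨x, hx, rfl⟩
    exact hcon x hx
  rw [h.2.2] at h1
  have h2 : (1 : k[X]) ∈ RingHom.ker (evalRingHom c) := h1 trivial
  rw [RingHom.mem_ker, map_one] at h2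
  exact one_ne_zero h2

theorem isCurve_of_strong (hgen : Algebra.adjoin ℂ {h : R | h ∈ 𝒜 1} = ⊤) {e : ℕ}
    {ψ : R →ₐ[ℂ] ℂ[X]} (h : Strong 𝒜 e ψ) : IsCurve 𝒜 e (hgz h.1) :=
  isCurve_hgz hgen h.1 (strong_no_base h) h.2.1

end

end Vale.Agent.P280.H475
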