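import Vale.Agent.P280.H475.Step

/-! P280, Theorem F: weak curves. -/

open DirectSum Polynomial Module

namespace Vale.Agent.P280.H475

open Vale.Agent.P280.S

section
variable {R : Type} [CommRing R] [Algebra ℂ R] (𝒜 : ℕ → Submodule ℂ R) [GradedAlgebra 𝒜]
  {k : Type} [Field k] [Algebra ℂ k]

theorem twist_twist {B : Type} [CommRing B] [Algebra ℂ B] (c c' : B) (p : R →ₐ[ℂ] B) :
    twist 𝒜 c (twist 𝒜 c' p) = twist 𝒜 (c * c') p := hom_ext_hom 𝒜 fun d h hh => by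
  rw [twist_apply 𝒜 hh, twist_apply 𝒜 hh, twist_apply 𝒜 hh, mul_pow, mul_assoc]

theorem twist_one {B : Type} [CommRing B] [Algebra ℂ B] (p : R →ₐ[ℂ] B) : twist 𝒜 1 p = p :=
  hom_ext_hom 𝒜 fun d h hh => by rw [twist_apply 𝒜 hh, one_pow, one_mul]

theorem nv_twist {c : k} (hc : c ≠ 0) {p : R →ₐ[ℂ] k} (hp : NV 𝒜 p) : NV 𝒜 (twist 𝒜 c p) := by
  obtain ⟨x, hx, h0⟩ := hp
  exact ⟨x, hx, by rw [twist_apply 𝒜 hx]; exact mul_ne_zero (pow_ne_zero _ hc) h0⟩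

variable {𝒜} in
/-- The base point free part of a weak curve. -/
theorem Piece.exists_strong (hgen : Algebra.adjoin ℂ {h : R | h ∈ 𝒜 1} = ⊤) {e : ℕ}
    {ψ : R →ₐ[ℂ] k[X]} {p' p : R →ₐ[ℂ] k} (h : Piece 𝒜 e ψ p' p) (hp' : NV 𝒜 p')
    (hp : NV 𝒜 p) : ∃ (g : k[X]) (c' : k) (ψ₁ : R →ₐ[ℂ] k[X]), g ≠ 0 ∧ g.natDegree ≤ e ∧
      c' ≠ 0 ∧ Piece 𝒜 (e - g.natDegree) ψ₁ (twist 𝒜 c' p') (twist 𝒜 g.leadingCoeff⁻¹ p) ∧
      Strong 𝒜 (e - g.natDegree) ψ₁ ∧ (∀ d, ∀ x ∈ 𝒜 d, ψ x = g ^ d * ψ₁ x) ∧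
      (¬ Strong 𝒜 e ψ → 0 < g.natDegree) := by
  obtain ⟨x, hx, hx0⟩ := hp
  obtain ⟨y, hy, hy0⟩ := hp'
  have hxe : (ψ x).coeff e = p x := by
    rw [← h.fin 1 x hx, one_mul]
  set I : Ideal k[X] := Ideal.span (ψ '' {h : R | h ∈ 𝒜 1}) with hI
  obtain ⟨g, hg⟩ : ∃ g, I = Ideal.span {g} := (IsPrincipalIdealRing.principal I).principal
  have hdvd : ∀ z ∈ 𝒜 1, g ∣ ψ z := by
    intro z hz
    rw [← Ideal.mem_span_singleton, ← hg]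
    exact Ideal.subset_span ⟨z, hz, rfl⟩
  have hψx : ψ x ≠ 0 := by
    intro h0
    rw [h0, coeff_zero] at hxe
    exact hx0 hxe.symm
  have hg0 : g ≠ 0 := by
    rintro rfl
    exact hψx (zero_dvd_iff.1 (hdvd x hx))
  obtain ⟨ψ₁, h1⟩ := exists_divide 𝒜 hgen ψ hg0 hdvd
  have hbe : g.natDegree ≤ e := by
    have h2 := natDegree_le_of_dvd (hdvd x hx) hψx
    have h3 := h.deg 1 x hx
    omega
  have hlc : g.leadingCoeff ≠ 0 := leadingCoeff_ne_zero.2 hg0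
  have hc0 : g.coeff 0 ≠ 0 := by
    intro h0
    obtain ⟨u, hu⟩ := hdvd y hy
    have h2 := h.start y
    rw [hu, mul_coeff_zero, h0, zero_mul] at h2
    exact hy0 h2.symm
  have hdeg : Deg 𝒜 (e - g.natDegree) ψ₁ := by
    intro d z hz
    by_cases h0 : ψ₁ z = 0
    · rw [h0, natDegree_zero]
      exact Nat.zero_le _
    · have h2 := h.deg d z hz
      rw [h1 d z hz, natDegree_mul (pow_ne_zero _ hg0) h0, natDegree_pow] at h2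
      rw [Nat.mul_sub]
      omega
  have hfin : ∀ d, ∀ z ∈ 𝒜 d, (ψ z).coeff (d * e) =
      g.leadingCoeff ^ d * (ψ₁ z).coeff (d * (e - g.natDegree)) := by
    intro d z hz
    have h2 : d * e = d * g.natDegree + d * (e - g.natDegree) := by
      rw [← mul_add, Nat.add_sub_cancel' hbe]
    have h3 : (g ^ d * ψ₁ z).coeff (d * g.natDegree + d * (e - g.natDegree)) =
        (g ^ d).coeff (d * g.natDegree) * (ψ₁ z).coeff (d * (e - g.natDegree)) :=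
      coeff_mul_add_eq_of_natDegree_le (natDegree_pow_le) (hdeg d z hz)
    rw [h1 d z hz, h2, h3, coeff_pow_mul_natDegree]
  refine ⟨g, (g.coeff 0)⁻¹, ψ₁, hg0, hbe, inv_ne_zero hc0,
    ⟨hdeg, fun d z hz => ?_, fun d z hz => ?_⟩, ⟨hdeg, ⟨x, hx, ?_⟩, ?_⟩, h1, ?_⟩
  · rw [twist_apply 𝒜 hz, ← h.start z, h1 d z hz, mul_coeff_zero, coeff_zero_eq_eval_zero (g ^ d),
      eval_pow, ← coeff_zero_eq_eval_zero, inv_pow, inv_mul_cancel_left₀ (pow_ne_zero _ hc0)]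
  · rw [twist_apply 𝒜 hz, ← h.fin d z hz, hfin d z hz, inv_pow,
      inv_mul_cancel_left₀ (pow_ne_zero _ hlc)]
  · intro h0
    have h2 := hfin 1 x hx
    rw [one_mul, one_mul, h0, mul_zero, hxe] at h2
    exact hx0 h2
  · have h2 : I ≤ Ideal.span {g} * Ideal.span (ψ₁ '' {h : R | h ∈ 𝒜 1}) := by
      rw [hI]
      refine Ideal.span_le.2 ?_
      rintro _ ⟨z, hz, rfl⟩
      rw [h1 1 z hz, pow_one]
      exact Ideal.mul_mem_mul (Ideal.mem_span_singleton_self g) (Ideal.subset_span ⟨z, hz, rfl⟩)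
    have h3 : g ∈ Ideal.span {g} * Ideal.span (ψ₁ '' {h : R | h ∈ 𝒜 1}) :=
      h2 (by rw [hg]; exact Ideal.mem_span_singleton_self g)
    obtain ⟨u, hu, hgu⟩ := Ideal.mem_span_singleton_mul.1 h3
    have h4 : u = 1 := mul_left_cancel₀ hg0 (by rw [hgu, mul_one])
    rw [Ideal.eq_top_iff_one, ← h4]
    exact hu
  · intro hns
    by_contra hb
    have hb0 : g.natDegree = 0 := by omega
    apply hns
    refine ⟨h.deg, ⟨x, hx, by rwa [hxe]⟩, ?_⟩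
    rw [← hI, hg, Ideal.span_singleton_eq_top, eq_C_of_natDegree_eq_zero hb0]
    exact (isUnit_iff_ne_zero.2 hc0).map C

/-- The main component of `ψ` is constant. -/
def Bub (ψ : R →ₐ[ℂ] k[X]) : Prop :=
  ∃ (g : k[X]) (q : R →ₐ[ℂ] k), ∀ d, ∀ x ∈ 𝒜 d, ψ x = g ^ d * C (q x)

variable {𝒜} in
/-- The step in the weak case. -/
theorem Piece.exists_prev (hft : Algebra.FiniteType ℂ R)
    (hgen : Algebra.adjoin ℂ {h : R | h ∈ 𝒜 1} = ⊤) {r : ℚ} (hr : 0 < r)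
    (hB : ∀ (e' : ℕ) (ψ' : R →ₐ[ℂ] k[X]), Strong 𝒜 e' ψ' → (finrank k (Vf0 𝒜 e' ψ') : ℚ) ≤ r * e')
    {e : ℕ} {ψ : R →ₐ[ℂ] k[X]} {p' p : R →ₐ[ℂ] k} (h : Piece 𝒜 e ψ p' p) (hp' : NV 𝒜 p')
    (hp : NV 𝒜 p) (hbub : Bub 𝒜 ψ → 1 < r * e) {T : Submodule k (R →ₗ[ℂ] k)}
    (hT : Good 𝒜 p T) (hns : ¬ Strong 𝒜 e ψ) :
    ∃ T' : Submodule k (R →ₗ[ℂ] k), Good 𝒜 p' T' ∧
      (finrank k T' : ℚ) + 1 < finrank k T + r * e := by
  obtain ⟨g, c', ψ₁, hg0, hbe, hc', h1, hs, hmul, hb⟩ := h.exists_strong hgen hp' hp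
  have hb' := hb hns
  have hc : g.leadingCoeff⁻¹ ≠ 0 := inv_ne_zero (leadingCoeff_ne_zero.2 hg0)
  set b := g.natDegree with hbdef
  set c := g.leadingCoeff⁻¹ with hcdef
  have key : ∃ T₂ : Submodule k (R →ₗ[ℂ] k), Good 𝒜 (twist 𝒜 c' p') T₂ ∧
      (finrank k T₂ : ℚ) + 1 < finrank k T + r * e := by
    have hbq : (1 : ℚ) ≤ b := by exact_mod_cast hb'
    rcases Nat.eq_zero_or_pos (e - b) with h0 | h0
    · have h2 : twist 𝒜 c' p' = twist 𝒜 c p := hom_ext_hom 𝒜 fun d z hz => by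
        rw [← h1.start1 d z hz, ← h1.fin d z hz, h0, mul_zero]
      rw [h2]
      refine ⟨_, hT.twist 𝒜 hc, ?_⟩
      rw [finrank_twist 𝒜 T hc]
      have h4 : 1 < r * e := hbub ⟨g, twist 𝒜 c' p', fun d x hx => by
        have h5 := h1.deg d x hx
        rw [h0, mul_zero] at h5
        rw [hmul d x hx, ← h1.start1 d x hx, ← eq_C_of_natDegree_le_zero h5]⟩
      linarith
    · refine ⟨_, h1.good (hT.twist 𝒜 hc), ?_⟩
      have h2 := h1.finrank_le hft hgen h0 (nv_twist 𝒜 hc hp) (hT.twist 𝒜 hc)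
      rw [finrank_twist 𝒜 T hc] at h2
      have h3 := hB _ _ hs
      have h4 : (finrank k (prev 𝒜 (e - b) ψ₁ (T.map (twL 𝒜 c))) : ℚ) + 1 ≤
          finrank k T + finrank k (Vf0 𝒜 (e - b) ψ₁) := by exact_mod_cast h2
      have h5 : ((e - b : ℕ) : ℚ) = e - b := Nat.cast_sub hbe
      rw [h5] at h3
      nlinarith
  obtain ⟨T₂, h2, h3⟩ := key
  refine ⟨T₂.map (twL 𝒜 c'⁻¹), ?_, ?_⟩
  · have h4 := h2.twist 𝒜 (inv_ne_zero hc')
    rwa [twist_twist, inv_mul_cancel₀ hc', twist_one] at h4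
  · rw [finrank_twist 𝒜 T₂ (inv_ne_zero hc')]
    exact h3

/-- Steps. -/
theorem exists_step (hft : Algebra.FiniteType ℂ R)
    (hgen : Algebra.adjoin ℂ {h : R | h ∈ 𝒜 1} = ⊤) {r : ℚ} (hr : 0 < r)
    (hB : ∀ (e' : ℕ) (ψ' : R →ₐ[ℂ] k[X]), Strong 𝒜 e' ψ' → (finrank k (Vf0 𝒜 e' ψ') : ℚ) ≤ r * e')
    {e : ℕ} {ψ : R →ₐ[ℂ] k[X]} {p' p : R →ₐ[ℂ] k} (h : Piece 𝒜 e ψ p' p) (he : 0 < e)
    (hp' : NV 𝒜 p') (hp : NV 𝒜 p) (hbub : Bub 𝒜 ψ → 1 < r * e)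
    {T : Submodule k (R →ₗ[ℂ] k)} (hT : Good 𝒜 p T) :
    ∃ T' : Submodule k (R →ₗ[ℂ] k), Good 𝒜 p' T' ∧
      (finrank k T' : ℚ) + 1 ≤ finrank k T + r * e ∧
      (¬ Strong 𝒜 e ψ → (finrank k T' : ℚ) + 1 < finrank k T + r * e) ∧
      (∀ q : ℕ, 2 ≤ q → (∀ d, ∀ h ∈ 𝒜 d, ∀ i, (ψ h).coeff i ≠ 0 → q ∣ i) →
        (finrank k T' : ℚ) + 1 < finrank k T + r * e) ∧
      (Strong 𝒜 e ψ → T' = prev 𝒜 e ψ T) := by
  by_cases hs : Strong 𝒜 e ψ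
  · refine ⟨prev 𝒜 e ψ T, h.good hT, ?_, fun h0 => absurd hs h0, fun q hq hqd => ?_,
      fun _ => rfl⟩
    · have h1 := h.finrank_le hft hgen he hp hT
      have h2 := hB e ψ hs
      have h3 : (finrank k (prev 𝒜 e ψ T) : ℚ) + 1 ≤ finrank k T + finrank k (Vf0 𝒜 e ψ) := by
        exact_mod_cast h1
      linarith
    · have h1 := h.finrank_le_two hft hgen he hp' hp hT hq hqd
      have h2 := hB e ψ hs
      have h3 : (finrank k (prev 𝒜 e ψ T) : ℚ) + 2 ≤ finrank k T + finrank k (Vf0 𝒜 e ψ) := by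
        exact_mod_cast h1
      linarith
  · obtain ⟨T', h1, h2⟩ := h.exists_prev hft hgen hr hB hp' hp hbub hT hs
    exact ⟨T', h1, h2.le, fun _ => h2, fun _ _ _ => h2, fun h0 => absurd h0 hs⟩

end

end Vale.Agent.P280.H475
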