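import Vale.Agent.P280.H475.Poly
import Vale.Agent.P280.H475.Weak
import Vale.Agent.P280.H475.ConvF

/-! P280, Theorem F: limit curves with constant main component (bubbles), first part. -/

open DirectSum Polynomial Module

namespace Vale.Agent.P280.H475

open Vale.Agent.P280.S

section two

variable {R : Type} [CommRing R] [Algebra ℂ R] (𝒜 : ℕ → Submodule ℂ R) [GradedAlgebra 𝒜]
  {k : Type} [Field k] [Algebra ℂ k]

/-- The field `d/dt` along `ψ`. -/
noncomputable def fd (ψ : R →ₐ[ℂ] k[X]) : R →ₗ[ℂ] k[X] where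
  toFun h := derivative (ψ h)
  map_add' x y := by rw [map_add, map_add]
  map_smul' c x := by rw [map_smul, RingHom.id_apply, derivative_smul]

theorem fd_apply (ψ : R →ₐ[ℂ] k[X]) (h : R) : fd ψ h = derivative (ψ h) := rfl

theorem fd_mem {e : ℕ} {ψ : R →ₐ[ℂ] k[X]} (hd : Deg 𝒜 e ψ) : fd ψ ∈ Vf0 𝒜 e ψ := by
  refine ⟨⟨fun x y => ?_, fun d h hh => ?_⟩, fun d h hh => ?_⟩
  · rw [fd_apply, fd_apply, fd_apply, map_mul, derivative_mul]
    ring
  · exact (natDegree_derivative_le _).trans ((Nat.sub_le _ _).trans (hd d h hh))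
  · rw [fd_apply, coeff_derivative, coeff_eq_zero_of_natDegree_lt, zero_mul]
    exact Nat.lt_succ_of_le (hd d h hh)

theorem fZ_apply {e : ℕ} (ψ : R →ₐ[ℂ] k[X]) {d : ℕ} {h : R} (hh : h ∈ 𝒜 d) :
    (fX ψ - (e : k) • fE 𝒜 ψ) h = X * derivative (ψ h) - C ((e : k) * d) * ψ h := by
  rw [LinearMap.sub_apply, fX_apply, LinearMap.smul_apply, fE_apply 𝒜 hh, smul_smul,
    smul_eq_C_mul]

theorem fZ_mem {e : ℕ} {ψ : R →ₐ[ℂ] k[X]} (hd : Deg 𝒜 e ψ) :
    fX ψ - (e : k) • fE 𝒜 ψ ∈ Vf0 𝒜 e ψ := by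
  refine ⟨sub_mem (fX_mem 𝒜 hd) (Submodule.smul_mem _ _ (fE_mem 𝒜 hd)), fun d h hh => ?_⟩
  rw [fZ_apply 𝒜 ψ hh, coeff_sub, coeff_X_derivative, coeff_C_mul]
  push_cast
  ring

/-- Nonconstant curves have at least two fields which vanish at infinity. -/
theorem two_le_vf0 (hft : Algebra.FiniteType ℂ R)
    (hgen : Algebra.adjoin ℂ {h : R | h ∈ 𝒜 1} = ⊤) {e : ℕ} (he : 0 < e) {ψ : R →ₐ[ℂ] k[X]}
    (hs : Strong 𝒜 e ψ) : 2 ≤ finrank k (Vf0 𝒜 e ψ) := by
  have := charZero_of k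
  have h1 : FiniteDimensional k (Vf 𝒜 e ψ) := finite_vf 𝒜 hft hgen e ψ
  have h2 : FiniteDimensional k (Vf0 𝒜 e ψ) := Submodule.finiteDimensional_of_le (vf0_le 𝒜 e ψ)
  refine two_le_finrank (fd_mem 𝒜 hs.1) (fZ_mem 𝒜 hs.1) fun s t hst => ?_
  have h3 : ∀ x ∈ 𝒜 1, C s * derivative (ψ x) + C t * (X * derivative (ψ x) -
      C (e : k) * ψ x) = 0 := by
    intro x hx
    have h4 := congrArg (fun η : R →ₗ[ℂ] k[X] => η x) hst
    simp only [LinearMap.add_apply, LinearMap.smul_apply, LinearMap.zero_apply] at h4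
    rw [fZ_apply 𝒜 ψ hx, Nat.cast_one, mul_one, smul_eq_C_mul, smul_eq_C_mul, fd_apply] at h4
    exact h4
  have ht : t = 0 := by
    by_contra ht
    obtain ⟨x, hx, hne⟩ := strong_no_base hs (-s / t)
    have h4 := congrArg (fun q : k[X] => q.eval (-s / t)) (h3 x hx)
    simp only [eval_add, eval_mul, eval_C, eval_sub, eval_X, eval_zero] at h4
    have h5 : t * (e * (ψ x).eval (-s / t)) = 0 := by
      have h6 : t * (-s / t) = -s := by field_simp
      linear_combination (-1 : k) * h4 + h6 * (derivative (ψ x)).eval (-s / t)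
    rcases mul_eq_zero.1 h5 with h6 | h6
    · exact ht h6
    · rcases mul_eq_zero.1 h6 with h7 | h7
      · exact absurd h7 (Nat.cast_ne_zero.2 he.ne')
      · exact hne h7
  refine ⟨?_, ht⟩
  obtain ⟨x, hx, hne⟩ := hs.2.1
  obtain ⟨n, rfl⟩ : ∃ n, e = n + 1 := ⟨e - 1, by omega⟩
  have h4 := congrArg (fun q : k[X] => q.coeff n) (h3 x hx)
  simp only [ht, map_zero, zero_mul, add_zero, coeff_C_mul, coeff_derivative, coeff_zero] at h4
  rcases mul_eq_zero.1 h4 with h5 | h5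
  · exact h5
  · exfalso
    rcases mul_eq_zero.1 h5 with h6 | h6
    · exact hne h6
    · exact absurd h6 (by exact_mod_cast Nat.succ_ne_zero n)

end two

section lv

variable {K κ : Type} [Field K] [Algebra ℂ K] [Field κ] [Algebra ℂ κ] (v : LV K κ)

theorem LV.pow {s : ℤ} {a : K} (h : v.W s a) (n : ℕ) :
    v.W (n * s) (a ^ n) ∧ v.ld (n * s) (a ^ n) = v.ld s a ^ n := by
  induction n with
  | zero =>
    have h1 := v.const 1
    have h2 := v.ld_const 1
    rw [map_one] at h1 h2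
    rw [map_one] at h2
    simpa using ⟨h1, h2⟩
  | succ n ih =>
    have h1 : ((n + 1 : ℕ) : ℤ) * s = n * s + s := by
      push_cast
      ring
    rw [h1, pow_succ, pow_succ]
    exact ⟨v.mul ih.1 h, by rw [v.ld_mul ih.1 h, ih.2]⟩

theorem LV.natCast (n : ℕ) : v.W 0 (n : K) ∧ v.ld 0 (n : K) = n := by
  have h1 := v.const n
  have h2 := v.ld_const n
  rw [map_natCast] at h1 h2
  rw [map_natCast] at h2
  exact ⟨h1, h2⟩

theorem coeff_taylor_sum {k : Type*} [CommRing k] (r : k) {f : k[X]} {N : ℕ}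
    (hN : f.natDegree < N) (i : ℕ) : (taylor r f).coeff i =
      ∑ j ∈ Finset.range N, f.coeff j * (r ^ (j - i) * (j.choose i : ℕ)) := by
  conv_lhs => rw [f.as_sum_range' N hN]
  rw [map_sum, finsetSum_coeff]
  refine Finset.sum_congr rfl fun j _ => ?_
  rw [taylor_monomial, coeff_C_mul, coeff_X_add_C_pow]

/-- Translations on the line of slope `σ`. -/
theorem taylor_W {σ c : ℤ} {α : K} (hα : v.W (-σ) α) {f : K[X]}
    (hf : ∀ i : ℕ, v.W (σ * i + c) (f.coeff i)) (i : ℕ) :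
    v.W (σ * i + c) ((taylor α f).coeff i) ∧ v.ld (σ * i + c) ((taylor α f).coeff i) =
      (taylor (v.ld (-σ) α) (mapc (fun i a => v.ld (σ * i + c) a) f)).coeff i := by
  set f' := mapc (fun i a => v.ld (σ * i + c) a) f with hf'
  have hc : ∀ j, f'.coeff j = v.ld (σ * j + c) (f.coeff j) := fun j =>
    coeff_mapc (fun i => v.ld_zero _) f j
  have hN : f'.natDegree < f.natDegree + 1 := by
    refine Nat.lt_succ_of_le (natDegree_le_iff_coeff_eq_zero.2 fun j hj => ?_)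
    rw [hc, coeff_eq_zero_of_natDegree_lt hj, v.ld_zero]
  have hterm : ∀ j, v.W (σ * i + c) (f.coeff j * (α ^ (j - i) * (j.choose i : ℕ))) ∧
      v.ld (σ * i + c) (f.coeff j * (α ^ (j - i) * (j.choose i : ℕ))) =
        f'.coeff j * (v.ld (-σ) α ^ (j - i) * (j.choose i : ℕ)) := by
    intro j
    rcases Nat.lt_or_ge j i with hj | hj
    · rw [Nat.choose_eq_zero_of_lt hj, Nat.cast_zero, Nat.cast_zero, mul_zero, mul_zero, mul_zero,
        mul_zero]
      exact ⟨v.zero _, v.ld_zero _⟩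
    · obtain ⟨h1, h2⟩ := v.pow hα (j - i)
      obtain ⟨h3, h4⟩ := v.natCast (j.choose i)
      have h5 : σ * (i : ℤ) + c = (σ * j + c) + (((j - i : ℕ) : ℤ) * -σ + 0) := by
        rw [Nat.cast_sub hj]
        ring
      rw [h5]
      refine ⟨v.mul (hf j) (v.mul h1 h3), ?_⟩
      rw [v.ld_mul (hf j) (v.mul h1 h3), v.ld_mul h1 h3, h2, h4, hc]
  rw [coeff_taylor_sum α (Nat.lt_succ_self _), coeff_taylor_sum _ hN]
  refine ⟨v.sum _ fun j _ => (hterm j).1, ?_⟩
  rw [v.ld_sum _ fun j _ => (hterm j).1]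
  exact Finset.sum_congr rfl fun j _ => (hterm j).2

end lv

section trans

set_option linter.unusedSectionVars false

variable {R : Type} [CommRing R] [Algebra ℂ R] {𝒜 : ℕ → Submodule ℂ R} [GradedAlgebra 𝒜]
variable {K κ : Type} [Field K] [Algebra ℂ K] [Field κ] [Algebra ℂ κ] (v : LV K κ)
variable {S : Finset R} (hS : ∀ s ∈ S, s ∈ 𝒜 1) (hgen : Algebra.adjoin ℂ (S : Set R) = ⊤)

/-- The translate of a curve. -/
noncomputable def trU (U : R →ₐ[ℂ] K[X]) (α : K) : R →ₐ[ℂ] K[X] :=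
  ((taylorAlgHom α).restrictScalars ℂ).comp U

theorem trU_apply (U : R →ₐ[ℂ] K[X]) (α : K) (x : R) : trU U α x = taylor α (U x) := rfl

include hS in
/-- The translate of an edge with proportional coefficients. -/
theorem St.translate {U : R →ₐ[ℂ] K[X]} {σ c : ℤ} {a' a : ℕ} (h : St v U S a' σ c)
    (hlt : ∀ s ∈ S, ∀ i : ℕ, a < i → v.W (σ * i + c + 1) ((U s).coeff i)) {s₀ : R}
    (hs₀ : s₀ ∈ S) (htop : ¬ v.W (σ * a + c + 1) ((U s₀).coeff a))
    (hprop : ∀ s ∈ S, ∀ i : ℕ, v.W ((σ * i + c) + (σ * a + c) + 1)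
      ((U s).coeff i * (U s₀).coeff a - (U s).coeff a * (U s₀).coeff i)) {α : K}
    (hα : v.W (-σ) α) (hα' : ¬ v.W (-σ + 1) α) :
    ∃ μ ≤ a - a', St v (trU U α) S μ σ c ∧
      ∀ p, Vx v (trU U α) 𝒜 μ (σ * μ + c) p → p s₀ ≠ 0 := by
  classical
  set H : κ[X] := mapc (fun i x => v.ld (σ * i + c) x) (U s₀) with hH
  have hHc : ∀ j : ℕ, H.coeff j = v.ld (σ * j + c) ((U s₀).coeff j) := fun j =>
    coeff_mapc (fun i => v.ld_zero _) _ j
  have hHa : H.coeff a ≠ 0 := by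
    rw [hHc]
    intro h0
    exact htop ((v.ld_eq_zero (h.le s₀ hs₀ a)).1 h0)
  have hHdeg : H.natDegree ≤ a := natDegree_le_iff_coeff_eq_zero.2 fun i hi => by
    rw [hHc]
    exact (v.ld_eq_zero (h.le s₀ hs₀ i)).2 (hlt s₀ hs₀ i hi)
  have hH0 : H ≠ 0 := fun h0 => hHa (by rw [h0, coeff_zero])
  have hHX : X ^ a' ∣ H := by
    rw [X_pow_dvd_iff]
    intro i hi
    rw [hHc]
    exact (v.ld_eq_zero (h.le s₀ hs₀ i)).2 (h.lt s₀ hs₀ i hi)
  set τ := v.ld (-σ) α with hτ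
  have hτ0 : τ ≠ 0 := fun h0 => hα' ((v.ld_eq_zero hα).1 h0)
  set T := taylor τ H with hT
  have hT0 : T ≠ 0 := by
    intro h0
    apply hH0
    have h1 := congrArg (taylor (-τ)) h0
    rw [hT, taylor_taylor, neg_add_cancel, taylor_zero, map_zero] at h1
    exact h1
  -- the coefficients
  have hq : ∀ s ∈ S, ∃ q : κ, ∀ i : ℕ, v.ld (σ * i + c) ((trU U α s).coeff i) = q * T.coeff i := by
    intro s hs
    refine ⟨v.ld (σ * a + c) ((U s).coeff a) / H.coeff a, fun i => ?_⟩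
    rw [trU_apply, (taylor_W v hα (h.le s hs) i).2]
    have h1 : mapc (fun i x => v.ld (σ * i + c) x) (U s) =
        C (v.ld (σ * a + c) ((U s).coeff a) / H.coeff a) * H := by
      ext j
      rw [coeff_mapc (fun i => v.ld_zero _), coeff_C_mul, div_mul_eq_mul_div, eq_div_iff hHa]
      have h2 := v.mul (h.le s hs j) (h.le s₀ hs₀ a)
      have h3 := v.mul (h.le s hs a) (h.le s₀ hs₀ j)
      rw [add_comm (σ * a + c)] at h3
      have h4 : v.W ((σ * j + c) + (σ * a + c)) (-((U s).coeff a * (U s₀).coeff j)) := by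
        have h5 := v.smul (-1) h3
        rwa [map_neg, map_one, neg_one_mul] at h5
      have h6 := (v.ld_eq_zero (v.add h2 h4)).2 (by rw [← sub_eq_add_neg]; exact hprop s hs j)
      rw [v.ld_add h2 h4, v.ld_mul (h.le s hs j) (h.le s₀ hs₀ a)] at h6
      have h7 : v.ld ((σ * j + c) + (σ * a + c)) (-((U s).coeff a * (U s₀).coeff j)) =
          -(v.ld (σ * a + c) ((U s).coeff a) * v.ld (σ * j + c) ((U s₀).coeff j)) := by
        have h8 := v.ld_smul (-1) h3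
        rw [map_neg, map_one, neg_one_mul, map_neg, map_one, neg_one_mul,
          add_comm (σ * (j : ℤ) + c), v.ld_mul (h.le s hs a) (h.le s₀ hs₀ j)] at h8
        rw [add_comm (σ * (j : ℤ) + c)]
        exact h8
      rw [h7, ← sub_eq_add_neg, sub_eq_zero] at h6
      rw [hHc, hHc, h6]
    rw [h1, taylor_mul, taylor_C, coeff_C_mul]
  have hle : Below v (trU U α) S σ c := fun s hs i => by
    rw [trU_apply]
    exact (taylor_W v hα (h.le s hs) i).1
  have hs₀T : ∀ i : ℕ, v.ld (σ * i + c) ((trU U α s₀).coeff i) = T.coeff i := by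
    intro i
    rw [trU_apply, (taylor_W v hα (h.le s₀ hs₀) i).2]
  have hlead : T.coeff T.natTrailingDegree ≠ 0 := fun h0 =>
    hT0 (trailingCoeff_eq_zero.1 h0)
  refine ⟨T.natTrailingDegree, ?_, ⟨hle, fun s hs i hi => ?_, s₀, hs₀, fun h0 => ?_⟩, ?_⟩
  · -- the multiplicity
    have h1 : X ^ T.natTrailingDegree ∣ T := by
      rw [X_pow_dvd_iff]
      intro i hi
      exact coeff_eq_zero_of_lt_natTrailingDegree hi
    have h2 : (X - C τ) ^ T.natTrailingDegree ∣ H := by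
      obtain ⟨W, hW⟩ := h1
      refine ⟨taylor (-τ) W, ?_⟩
      have h3 := congrArg (taylor (-τ)) hW
      rw [hT, taylor_taylor, neg_add_cancel, taylor_zero, taylor_mul, taylor_pow, taylor_X] at h3
      rw [← hT, map_neg, ← sub_eq_add_neg] at h3
      exact h3
    have h3 : IsCoprime ((X : κ[X]) ^ a') ((X - C τ) ^ T.natTrailingDegree) := by
      refine IsCoprime.pow ?_
      have h4 := isCoprime_X_sub_C_of_isUnit_sub (R := κ) (a := 0) (b := τ)
        (by rw [zero_sub]; exact (isUnit_iff_ne_zero.2 hτ0).neg)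
      rwa [map_zero, sub_zero] at h4
    have h4 := natDegree_le_of_dvd (h3.mul_dvd hHX h2) hH0
    rw [natDegree_mul (pow_ne_zero _ X_ne_zero) (pow_ne_zero _ (X_sub_C_ne_zero τ)),
      natDegree_X_pow, natDegree_pow, natDegree_X_sub_C, mul_one] at h4
    omega
  · obtain ⟨q, hq⟩ := hq s hs
    refine (v.ld_eq_zero (hle s hs i)).1 ?_
    rw [hq, coeff_eq_zero_of_lt_natTrailingDegree hi, mul_zero]
  · apply hlead
    rw [← hs₀T]
    exact (v.ld_eq_zero (hle s₀ hs₀ _)).2 h0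
  · intro p hp h0
    rw [hp 1 s₀ (hS s₀ hs₀), Nat.cast_one, one_mul, one_mul, hs₀T] at h0
    exact hlead h0

include hS hgen in
/-- A nonconstant limit curve. -/
theorem exists_change {W : R →ₐ[ℂ] K[X]} (h0 : ∃ s ∈ S, (W s).coeff 0 ≠ 0) {s₀ : R}
    (hs₀ : s₀ ∈ S) (hz : (W s₀).coeff 0 = 0) {Q : ℤ} (hdiv : ∀ s x, v.ld s x ≠ 0 → Q ∣ s) :
    ∀ a : ℕ, (∀ j : ℕ, 0 < j → j ≤ a → (j : ℤ) ∣ Q) → ∀ σ c : ℤ, St v W S a σ c →
      ∀ p : R →ₐ[ℂ] κ, Vx v W 𝒜 a (σ * a + c) p → p s₀ ≠ 0 →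
      ∃ b ≤ a, 0 < b ∧ ∃ (ψ : R →ₐ[ℂ] κ[X]) (p' p'' : R →ₐ[ℂ] κ), Piece 𝒜 b ψ p' p'' ∧
        NV 𝒜 p' ∧ NV 𝒜 p'' ∧ p' s₀ = 0 ∧ p'' s₀ ≠ 0 := by
  intro a
  induction a using Nat.strong_induction_on with
  | _ a ih =>
    intro hQ σ c hst p hp hne
    rcases Nat.eq_zero_or_pos a with ha | ha
    · exfalso
      apply hne
      rw [hp 1 s₀ (hS s₀ hs₀), ha, mul_zero, hz, v.ld_zero]
    · obtain ⟨a', ha', σ', hσ', c', hc', hst', hgt⟩ := hst.next v W ha h0 hdiv hQ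
      obtain ⟨p', hp'⟩ := hst'.exists_pt v hS hgen W
      by_cases h1 : p' s₀ = 0
      · obtain ⟨ψ, hψ, -⟩ := hst'.exists_piece v hS hgen W ha'.le hgt hp' (by rwa [hc'])
        exact ⟨a - a', Nat.sub_le _ _, by omega, ψ, p', p, hψ, hst'.nv v hS W hp',
          hst.nv v hS W hp, h1, hne⟩
      · obtain ⟨b, hb, hrest⟩ := ih a' ha' (fun j hj hja => hQ j hj (by omega)) σ' c' hst' p' hp' h1
        exact ⟨b, hb.trans ha'.le, hrest⟩

end trans

end Vale.Agent.P280.H475
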