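import Vale.Agent.P280.H475.Val
import Vale.Agent.P280.H475.DvrA

/-! P280, Theorem F: extensions of discrete valuations. -/

open Polynomial

namespace Vale.Agent.P280.H475

theorem exists_ext {O K : Type} [CommRing O] [IsDomain O] [Algebra ℂ O]
    [IsDiscreteValuationRing O] [Field K] [Algebra ℂ K] [Algebra O K] [IsScalarTower ℂ O K]
    [IsFractionRing O K] {ϖ : O} (hϖ : Irreducible ϖ) (f : K[X]) :
    ∃ (O' K' κ' : Type) (_ : CommRing O') (_ : IsDomain O') (_ : Algebra ℂ O')
      (_ : IsDiscreteValuationRing O') (_ : Field K') (_ : Algebra ℂ K') (_ : Algebra O' K')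
      (_ : IsScalarTower ℂ O' K') (_ : IsFractionRing O' K') (_ : Field κ') (_ : Algebra ℂ κ')
      (ϖ' : O') (_ : Irreducible ϖ') (res' : O' →ₐ[ℂ] κ')
      (_ : RingHom.ker res' = IsLocalRing.maximalIdeal O') (j : K →ₐ[ℂ] K') (E : ℤ),
      0 < E ∧ (f.map (j : K →+* K')).Splits ∧
      (∀ (n : ℤ) (x : K), V K ϖ n x → V K' ϖ' (E * n) (j x)) ∧
      (∀ (n : ℤ) (x : K), V K ϖ n x → ¬ V K ϖ (n + 1) x → ¬ V K' ϖ' (E * n + 1) (j x)) := by
  have hchar : CharZero K := charZero_of_injective_algebraMap (algebraMap ℂ K).injective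
  let K' := SplittingField f
  have htowOK : IsScalarTower O K K' := inferInstance
  have htowC : IsScalarTower ℂ O K' := IsScalarTower.of_algebraMap_eq fun c => by
    rw [IsScalarTower.algebraMap_apply ℂ K K', IsScalarTower.algebraMap_apply ℂ O K,
      ← IsScalarTower.algebraMap_apply O K K']
  let B := integralClosure O K'
  have hDed : IsDedekindDomain B := IsIntegralClosure.isDedekindDomain O K K' B
  have hfracB : IsFractionRing B K' := integralClosure.isFractionRing_of_finite_extension K K'
  have hOB : Function.Injective (algebraMap O B) := by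
    have h1 : Function.Injective (algebraMap O K') := by
      rw [IsScalarTower.algebraMap_eq O K K']
      exact (algebraMap K K').injective.comp (IsFractionRing.injective O K)
    intro x y hxy
    apply h1
    have h2 := congrArg (algebraMap B K') hxy
    exact h2
  obtain ⟨P, hPmax, hP⟩ := Ideal.exists_ideal_over_maximal_of_isIntegral (S := B)
    (IsLocalRing.maximalIdeal O) (by
      rw [(RingHom.injective_iff_ker_eq_bot _).1 hOB]
      exact bot_le)
  have hPprime : P.IsPrime := hPmax.isPrime
  have hϖP : algebraMap O B ϖ ∈ P := by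
    rw [← Ideal.mem_comap, hP, hϖ.maximalIdeal_eq]
    exact Ideal.mem_span_singleton_self ϖ
  have hPne : P ≠ ⊥ := by
    rintro rfl
    have h1 : algebraMap O B ϖ = 0 := hϖP
    exact hϖ.ne_zero (hOB (by rw [h1, map_zero]))
  let O' := Localization.AtPrime P
  have hdvr : IsDiscreteValuationRing O' :=
    IsLocalization.AtPrime.isDiscreteValuationRing_of_dedekind_domain B hPne O'
  let _ : Algebra O' K' := (locHom K' P).toAlgebra
  have htow : IsScalarTower B O' K' := IsScalarTower.of_algebraMap_eq fun r =>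
    (locHom_algebraMap P r).symm
  have hfrac : IsFractionRing O' K' :=
    IsFractionRing.isFractionRing_of_isDomain_of_isLocalization P.primeCompl O' K'
  have htow2 : IsScalarTower ℂ O' K' := IsScalarTower.of_algebraMap_eq fun c => by
    rw [IsScalarTower.algebraMap_apply ℂ B O', ← IsScalarTower.algebraMap_apply B O' K']
    rfl
  let κ' := IsLocalRing.ResidueField O'
  let res' : O' →ₐ[ℂ] κ' := IsScalarTower.toAlgHom ℂ O' κ'
  have hres : ∀ x, res' x = IsLocalRing.residue O' x := fun x => rfl
  have hker : RingHom.ker res' = IsLocalRing.maximalIdeal O' := by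
    ext y
    rw [RingHom.mem_ker, hres, IsLocalRing.residue_eq_zero_iff]
  obtain ⟨ϖ', hϖ'⟩ := IsDiscreteValuationRing.exists_irreducible O'
  let j : K →ₐ[ℂ] K' := IsScalarTower.toAlgHom ℂ K K'
  let ι : O →+* O' := (algebraMap B O').comp (algebraMap O B)
  have hι : ∀ x : O, j (algebraMap O K x) = algebraMap O' K' (ι x) := by
    intro x
    change algebraMap K K' (algebraMap O K x) = algebraMap O' K' (algebraMap B O' (algebraMap O B x))
    rw [← IsScalarTower.algebraMap_apply O K K', ← IsScalarTower.algebraMap_apply B O' K']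
    rfl
  have hιinj : Function.Injective ι := by
    intro x y hxy
    have h1 := congrArg (algebraMap O' K') hxy
    rw [← hι, ← hι] at h1
    exact IsFractionRing.injective O K (j.injective h1)
  obtain ⟨E, u, hu⟩ := IsDiscreteValuationRing.eq_unit_mul_pow_irreducible
    (x := ι ϖ) (fun h => hϖ.ne_zero (hιinj (by rw [h, map_zero]))) hϖ'
  have hnunit : ¬ IsUnit (ι ϖ) := by
    intro h1
    have h2 : IsUnit (algebraMap B O' (algebraMap O B ϖ)) := h1
    rw [IsLocalization.AtPrime.isUnit_to_map_iff O' P] at h2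
    exact h2 hϖP
  have hE : 0 < E := by
    rcases Nat.eq_zero_or_pos E with h | h
    · exfalso
      apply hnunit
      rw [hu, h, pow_zero, mul_one]
      exact u.isUnit
    · exact h
  have hpi : ∀ n : ℤ, j (algebraMap O K ϖ ^ n) =
      algebraMap O' K' ϖ' ^ ((E : ℤ) * n) * algebraMap O' K' (↑(u ^ n) : O') := by
    intro n
    have h1 : algebraMap O' K' (↑(u ^ n) : O') = algebraMap O' K' (↑u : O') ^ n := by
      have h2 : ((Units.map (algebraMap O' K' : O' →* K')) (u ^ n) : K') =
          ((Units.map (algebraMap O' K' : O' →* K')) u : K') ^ n := by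
        rw [map_zpow, Units.val_zpow_eq_zpow_val]
      exact h2
    rw [map_zpow₀, hι, hu, map_mul, map_pow, mul_zpow, h1, zpow_mul, zpow_natCast, mul_comm]
  refine ⟨O', K', κ', inferInstance, inferInstance, inferInstance, hdvr, inferInstance,
    inferInstance, inferInstance, htow2, hfrac, inferInstance, inferInstance, ϖ', hϖ', res', hker,
    j, E, by exact_mod_cast hE, SplittingField.splits f, ?_, ?_⟩
  · rintro n x ⟨w, rfl⟩
    refine ⟨↑(u ^ n) * ι w, ?_⟩
    rw [map_mul j, hpi, hι, map_mul, mul_assoc]
  · rintro n x ⟨w, rfl⟩ hne ⟨y, hy⟩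
    have hw : IsUnit w := by
      by_contra hw
      apply hne
      have h1 : w ∈ IsLocalRing.maximalIdeal O := hw
      rw [hϖ.maximalIdeal_eq, Ideal.mem_span_singleton] at h1
      obtain ⟨t, rfl⟩ := h1
      refine ⟨t, ?_⟩
      rw [map_mul, zpow_add₀ (piK_ne_zero hϖ), zpow_one, mul_assoc]
    rw [map_mul j, hpi, hι, zpow_add₀ (piK_ne_zero hϖ'), zpow_one, mul_assoc, mul_assoc] at hy
    have h1 := mul_left_cancel₀ (zpow_ne_zero _ (piK_ne_zero (K := K') hϖ')) hy
    rw [← map_mul, ← map_mul] at h1
    have h2 := IsFractionRing.injective O' K' h1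
    have h3 : IsUnit (ϖ' * y) := by
      rw [← h2]
      exact (u ^ n).isUnit.mul (hw.map ι)
    exact hϖ'.not_isUnit (isUnit_of_mul_isUnit_left h3)

end Vale.Agent.P280.H475
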