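import Vale.Agent.P280.H475.Val

/-! P280, Theorem F: an edge of the Newton polygon gives roots. -/

open Polynomial

namespace Vale.Agent.P280.H475

section

variable {K κ : Type} [Field K] [Algebra ℂ K] [Field κ] [Algebra ℂ κ] (v : LV K κ)

/-- The leading part of `f` at the slope `σ` is a monomial. -/
def Mono (σ : ℤ) (f : K[X]) : Prop :=
  ∃ (k : ℕ) (c : ℤ), (∀ i : ℕ, v.W (σ * i + c) (f.coeff i)) ∧
    (∀ i : ℕ, i ≠ k → v.W (σ * i + c + 1) (f.coeff i)) ∧ ¬ v.W (σ * k + c + 1) (f.coeff k)

theorem Mono.mul {σ : ℤ} {f g : K[X]} (hf : Mono v σ f) (hg : Mono v σ g) :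
    Mono v σ (f * g) := by
  obtain ⟨k, c, h1, h2, h3⟩ := hf
  obtain ⟨l, c', h1', h2', h3'⟩ := hg
  have hterm : ∀ p q : ℕ, v.W (σ * ((p + q : ℕ) : ℤ) + (c + c')) (f.coeff p * g.coeff q) := by
    intro p q
    have h4 := v.mul (h1 p) (h1' q)
    convert h4 using 1
    push_cast
    ring
  have hterm' : ∀ p q : ℕ, (p ≠ k ∨ q ≠ l) →
      v.W (σ * ((p + q : ℕ) : ℤ) + (c + c') + 1) (f.coeff p * g.coeff q) := by
    rintro p q (hp | hq)
    · have h4 := v.mul (h2 p hp) (h1' q)
      convert h4 using 1
      push_cast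
      ring
    · have h4 := v.mul (h1 p) (h2' q hq)
      convert h4 using 1
      push_cast
      ring
  refine ⟨k + l, c + c', fun i => ?_, fun i hi => ?_, fun h0 => ?_⟩
  · rw [coeff_mul]
    refine v.sum _ fun q hq => ?_
    rw [Finset.HasAntidiagonal.mem_antidiagonal] at hq
    rw [← hq]
    exact hterm _ _
  · rw [coeff_mul]
    refine v.sum _ fun q hq => ?_
    rw [Finset.HasAntidiagonal.mem_antidiagonal] at hq
    rw [← hq]
    refine hterm' _ _ ?_
    by_contra hcon
    push Not at hcon
    omega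
  · have h4 : ∀ q ∈ Finset.HasAntidiagonal.antidiagonal (k + l),
        v.W (σ * ((k + l : ℕ) : ℤ) + (c + c')) (f.coeff q.1 * g.coeff q.2) := fun q hq => by
      rw [Finset.HasAntidiagonal.mem_antidiagonal] at hq
      rw [← hq]
      exact hterm _ _
    have h5 := v.sum _ h4
    rw [coeff_mul] at h0
    have h6 := (v.ld_eq_zero h5).2 h0
    rw [v.ld_sum _ h4, Finset.sum_eq_single (k, l)] at h6
    · have h7 : v.ld (σ * ((k + l : ℕ) : ℤ) + (c + c')) (f.coeff k * g.coeff l) =
          v.ld (σ * k + c) (f.coeff k) * v.ld (σ * l + c') (g.coeff l) := by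
        rw [← v.ld_mul (h1 k) (h1' l)]
        congr 1
        push_cast
        ring
      rw [h7] at h6
      rcases mul_eq_zero.1 h6 with h8 | h8
      · exact h3 ((v.ld_eq_zero (h1 k)).1 h8)
      · exact h3' ((v.ld_eq_zero (h1' l)).1 h8)
    · rintro ⟨p, q⟩ hpq hne
      refine (v.ld_eq_zero (h4 _ hpq)).2 ?_
      rw [Finset.HasAntidiagonal.mem_antidiagonal] at hpq
      rw [← hpq]
      refine hterm' _ _ ?_
      by_contra hcon
      push Not at hcon
      exact hne (Prod.ext hcon.1 hcon.2)
    · intro h7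
      exact absurd (Finset.HasAntidiagonal.mem_antidiagonal.2 (show (k, l).1 + (k, l).2 = k + l
        from rfl)) h7

theorem W_one : v.W 0 (1 : K) ∧ ¬ v.W 1 (1 : K) := by
  have h1 := v.const 1
  have h2 := v.ld_const 1
  rw [map_one] at h1 h2
  rw [map_one] at h2
  refine ⟨h1, fun h3 => ?_⟩
  have h4 := (v.ld_eq_zero h1).2 h3
  rw [h2] at h4
  exact one_ne_zero h4

theorem W_neg {s : ℤ} {a : K} : v.W s (-a) ↔ v.W s a := by
  have key : ∀ b : K, v.W s b → v.W s (-b) := by
    intro b hb
    have h5 := v.smul (-1) hb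
    rwa [map_neg, map_one, neg_one_mul] at h5
  exact ⟨fun h => by have := key _ h; rwa [neg_neg] at this, key a⟩

theorem Mono.const (σ : ℤ) {a : K} (ha : a ≠ 0) : Mono v σ (C a) := by
  obtain ⟨s, hs, hs'⟩ := v.exists_order {a} ⟨a, Finset.mem_singleton_self a, ha⟩
  have h1 := hs a (Finset.mem_singleton_self a)
  obtain ⟨b, hb, hb'⟩ := hs'
  rw [Finset.mem_singleton.1 hb] at hb'
  refine ⟨0, s, fun i => ?_, fun i hi => ?_, ?_⟩
  · rcases Nat.eq_zero_or_pos i with h | h
    · subst h
      simpa using h1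
    · rw [coeff_C_of_ne_zero h.ne']
      exact v.zero _
  · rw [coeff_C_of_ne_zero hi]
    exact v.zero _
  · simpa using hb'

theorem Mono.linear {σ : ℤ} {r : K} (hr : v.W (-σ) r → v.W (-σ + 1) r) :
    Mono v σ (X - C r) := by
  obtain ⟨h1, h2⟩ := W_one v
  have hc0 : (X - C r).coeff 0 = -r := by simp
  have hc1 : (X - C r).coeff 1 = 1 := by simp
  have hc2 : ∀ i, 2 ≤ i → (X - C r).coeff i = 0 := by
    intro i hi
    rw [coeff_sub, coeff_X, coeff_C, if_neg (by omega), if_neg (by omega), sub_zero]
  by_cases h3 : v.W (-σ) r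
  · refine ⟨1, -σ, fun i => ?_, fun i hi => ?_, ?_⟩
    · rcases Nat.lt_or_ge i 2 with h4 | h4
      · interval_cases i
        · rw [hc0, W_neg]
          simpa using h3
        · rw [hc1]
          simpa using h1
      · rw [hc2 i h4]
        exact v.zero _
    · rcases Nat.lt_or_ge i 2 with h4 | h4
      · interval_cases i
        · rw [hc0, W_neg]
          simpa using hr h3
        · exact absurd rfl hi
      · rw [hc2 i h4]
        exact v.zero _
    · rw [hc1]
      simpa using h2
  · have hr0 : r ≠ 0 := by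
      rintro rfl
      exact h3 (v.zero _)
    obtain ⟨s, hs, b, hb, hb'⟩ := v.exists_order {r} ⟨r, Finset.mem_singleton_self r, hr0⟩
    have h4 := hs r (Finset.mem_singleton_self r)
    rw [Finset.mem_singleton.1 hb] at hb'
    have h5 : s < -σ := by
      by_contra h5
      push Not at h5
      exact h3 (v.mono h5 h4)
    refine ⟨0, s, fun i => ?_, fun i hi => ?_, ?_⟩
    · rcases Nat.lt_or_ge i 2 with h6 | h6
      · interval_cases i
        · rw [hc0, W_neg]
          simpa using h4
        · rw [hc1]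
          refine v.mono ?_ h1
          push_cast
          omega
      · rw [hc2 i h6]
        exact v.zero _
    · rcases Nat.lt_or_ge i 2 with h6 | h6
      · interval_cases i
        · exact absurd rfl hi
        · rw [hc1]
          refine v.mono ?_ h1
          push_cast
          omega
      · rw [hc2 i h6]
        exact v.zero _
    · rw [hc0, W_neg]
      simpa using hb'

/-- An edge of the Newton polygon gives a root. -/
theorem exists_root {f : K[X]} (hf : f.Splits) {σ c : ℤ} {a b : ℕ} (hab : a < b)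
    (hle : ∀ i : ℕ, v.W (σ * i + c) (f.coeff i)) (ha : ¬ v.W (σ * a + c + 1) (f.coeff a))
    (hb : ¬ v.W (σ * b + c + 1) (f.coeff b)) :
    ∃ α : K, f.eval α = 0 ∧ v.W (-σ) α ∧ ¬ v.W (-σ + 1) α := by
  by_contra hcon
  push Not at hcon
  have hf0 : f ≠ 0 := by
    rintro rfl
    exact ha (by rw [coeff_zero]; exact v.zero _)
  have hmono : Mono v σ f := by
    rw [hf.eq_prod_roots]
    refine Mono.mul v (Mono.const v σ (leadingCoeff_ne_zero.2 hf0)) ?_
    have key : ∀ m : Multiset K, (∀ r ∈ m, v.W (-σ) r → v.W (-σ + 1) r) →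
        Mono v σ ((m.map fun r => X - C r).prod) := by
      intro m
      induction m using Multiset.induction_on with
      | empty =>
        intro _
        rw [Multiset.map_zero, Multiset.prod_zero, ← C_1]
        exact Mono.const v σ one_ne_zero
      | cons r m ih =>
        intro hm
        rw [Multiset.map_cons, Multiset.prod_cons]
        exact Mono.mul v (Mono.linear v (hm r (Multiset.mem_cons_self r m)))
          (ih fun s hs => hm s (Multiset.mem_cons_of_mem hs))
    exact key _ fun r hr => hcon r ((mem_roots hf0).1 hr)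
  obtain ⟨k, c', h1, h2, h3⟩ := hmono
  have h4 : c ≤ c' := by
    by_contra hlt
    push Not at hlt
    exact h3 (v.mono (by omega) (hle k))
  have h5 : ∀ i : ℕ, ¬ v.W (σ * i + c + 1) (f.coeff i) → i = k := by
    intro i hi
    by_contra hne
    exact hi (v.mono (by omega) (h2 i hne))
  have := h5 a ha
  have := h5 b hb
  omega

end

end Vale.Agent.P280.H475
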