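import Vale.Agent.P280.H475.BubA
import Vale.Agent.P280.H475.Ext
import Vale.Agent.P280.H475.Root

/-! P280, Theorem F: limit curves with constant main component (bubbles), second part. -/

open DirectSum Polynomial Module

namespace Vale.Agent.P280.H475

open Vale.Agent.P280.S

section

set_option linter.unusedSectionVars false

variable {R : Type} [CommRing R] [Algebra ℂ R] {𝒜 : ℕ → Submodule ℂ R} [GradedAlgebra 𝒜]

theorem LV.not_W_mul {K κ : Type} [Field K] [Algebra ℂ K] [Field κ] [Algebra ℂ κ] (v : LV K κ)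
    {s t : ℤ} {a b : K} (ha : v.W s a) (hb : v.W t b) (ha' : ¬ v.W (s + 1) a)
    (hb' : ¬ v.W (t + 1) b) : ¬ v.W (s + t + 1) (a * b) := by
  intro h
  have h1 := (v.ld_eq_zero (v.mul ha hb)).2 h
  rw [v.ld_mul ha hb] at h1
  rcases mul_eq_zero.1 h1 with h2 | h2
  · exact ha' ((v.ld_eq_zero ha).1 h2)
  · exact hb' ((v.ld_eq_zero hb).1 h2)

variable {O K κ : Type} [CommRing O] [IsDomain O] [Algebra ℂ O] [IsDiscreteValuationRing O]
  [Field K] [Algebra ℂ K] [Algebra O K] [IsScalarTower ℂ O K] [IsFractionRing O K]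
  [Field κ] [Algebra ℂ κ] {ϖ : O} (hϖ : Irreducible ϖ) (res : O →ₐ[ℂ] κ)
  (hker : RingHom.ker res = IsLocalRing.maximalIdeal O)

/-- **Bubbles.** If an edge of the Newton polygon has proportional coefficients, there is a
nonconstant curve of at most the same degree. -/
theorem bubble {Q : ℤ} (hQ : 0 < Q) {U : R →ₐ[ℂ] K[X]}
    (hcz : Ideal.span (U '' {h : R | h ∈ 𝒜 1}) = ⊤) {S : Finset R} (hS : ∀ s ∈ S, s ∈ 𝒜 1)
    (hgen : Algebra.adjoin ℂ (S : Set R) = ⊤) (hgen1 : Algebra.adjoin ℂ {h : R | h ∈ 𝒜 1} = ⊤)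
    {σ c : ℤ} {a' a : ℕ} (haa : a' < a)
    (h : St (lvOf K hϖ res hker hQ) U S a' σ c)
    (hlt : ∀ s ∈ S, ∀ i : ℕ, a < i → (lvOf K hϖ res hker hQ).W (σ * i + c + 1) ((U s).coeff i))
    {s₀ : R} (hs₀ : s₀ ∈ S)
    (htop : ¬ (lvOf K hϖ res hker hQ).W (σ * a + c + 1) ((U s₀).coeff a))
    (hprop : ∀ s ∈ S, ∀ i : ℕ, (lvOf K hϖ res hker hQ).W ((σ * i + c) + (σ * a + c) + 1)
      ((U s).coeff i * (U s₀).coeff a - (U s).coeff a * (U s₀).coeff i))
    (hQj : ∀ j : ℕ, 0 < j → j ≤ a - a' → (j : ℤ) ∣ Q) :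
    ∃ (κ' : Type) (_ : Field κ') (_ : Algebra ℂ κ') (b : ℕ) (ψ₁ : R →ₐ[ℂ] κ'[X]),
      0 < b ∧ b ≤ a - a' ∧ Strong 𝒜 b ψ₁ := by
  obtain ⟨O', K', κ', _, _, _, _, _, _, _, _, _, _, _, ϖ', hϖ', res', hker', j, E, hE, hsplit, h1,
    h2⟩ := exists_ext (K := K) hϖ (U s₀)
  set v := lvOf K hϖ res hker hQ with hv
  set v' := lvOf K' hϖ' res' hker' hQ with hv'
  have hW1 : ∀ s x, v.W s x → v'.W (E * s) (j x) := by
    rintro s x ⟨n, hn, hx⟩
    refine ⟨E * n, ?_, h1 n x hx⟩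
    have := mul_le_mul_of_nonneg_left hn hE.le
    linarith [mul_left_comm E Q n]
  have hW2 : ∀ s x, v.W s x → ¬ v.W (s + 1) x → ¬ v'.W (E * s + 1) (j x) := by
    rintro s x ⟨n, hn, hx⟩ hne ⟨m, hm, hxm⟩
    have h3 : s = Q * n := by
      by_contra h3
      exact hne ⟨n, by omega, hx⟩
    have h4 : ¬ V K ϖ (n + 1) x := fun h4 => hne ⟨n + 1, by rw [h3]; nlinarith, h4⟩
    refine h2 n x hx h4 (V_of_le hϖ' ?_ hxm)
    by_contra h5
    push Not at h5
    have h6 : m ≤ E * n := by omega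
    have h7 := mul_le_mul_of_nonneg_left h6 hQ.le
    rw [h3] at hm
    have h8 : E * (Q * n) = Q * (E * n) := by ring
    omega
  let U' : R →ₐ[ℂ] K'[X] := (mapAlgHom j).comp U
  have hUc : ∀ x i, (U' x).coeff i = j ((U x).coeff i) := by
    intro x i
    change (mapAlgHom j (U x)).coeff i = _
    rw [coe_mapAlgHom, coeff_map]
    rfl
  have hidx : ∀ i : ℕ, E * σ * i + E * c = E * (σ * i + c) := fun i => by ring
  have hidx1 : ∀ i : ℕ, E * σ * i + E * c + 1 ≤ E * (σ * i + c + 1) := fun i => by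
    rw [hidx]
    linarith [mul_add E (σ * i + c) 1]
  have hst : St v' U' S a' (E * σ) (E * c) := by
    refine ⟨fun s hs i => ?_, fun s hs i hi => ?_, ?_⟩
    · rw [hUc, hidx]
      exact hW1 _ _ (h.le s hs i)
    · rw [hUc]
      exact v'.mono (hidx1 i) (hW1 _ _ (h.lt s hs i hi))
    · obtain ⟨s, hs, hne⟩ := h.eq
      refine ⟨s, hs, ?_⟩
      rw [hUc, hidx]
      exact hW2 _ _ (h.le s hs a') hne
  have hlt' : ∀ s ∈ S, ∀ i : ℕ, a < i → v'.W (E * σ * i + E * c + 1) ((U' s).coeff i) := by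
    intro s hs i hi
    rw [hUc]
    exact v'.mono (hidx1 i) (hW1 _ _ (hlt s hs i hi))
  have htop' : ¬ v'.W (E * σ * a + E * c + 1) ((U' s₀).coeff a) := by
    rw [hUc, hidx]
    exact hW2 _ _ (h.le s₀ hs₀ a) htop
  have hprop' : ∀ s ∈ S, ∀ i : ℕ, v'.W ((E * σ * i + E * c) + (E * σ * a + E * c) + 1)
      ((U' s).coeff i * (U' s₀).coeff a - (U' s).coeff a * (U' s₀).coeff i) := by
    intro s hs i
    rw [hUc, hUc, hUc, hUc, ← map_mul, ← map_mul, ← map_sub]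
    refine v'.mono ?_ (hW1 _ _ (hprop s hs i))
    rw [hidx, hidx]
    linarith [mul_add E (σ * i + c + (σ * a + c)) 1, mul_add E (σ * i + c) (σ * a + c)]
  have hbot : ¬ v.W (σ * a' + c + 1) ((U s₀).coeff a') := by
    intro h3
    obtain ⟨s, hs, hne⟩ := h.eq
    refine v.not_W_mul (h.le s hs a') (h.le s₀ hs₀ a) hne htop ?_
    have h4 := v.mul (h.le s hs a) h3
    have h5 := v.add (hprop s hs a') (by
      rwa [show σ * (a' : ℤ) + c + (σ * a + c) + 1 = σ * a + c + (σ * a' + c + 1) by ring])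
    rwa [sub_add_cancel] at h5
  have hbot' : ¬ v'.W (E * σ * a' + E * c + 1) ((U' s₀).coeff a') := by
    rw [hUc, hidx]
    exact hW2 _ _ (h.le s₀ hs₀ a') hbot
  have hsplit' : (U' s₀).Splits := by
    have h3 : U' s₀ = (U s₀).map (j : K →+* K') := by
      change mapAlgHom j (U s₀) = _
      rw [coe_mapAlgHom]
    rw [h3]
    exact hsplit
  obtain ⟨α, hα0, hα, hα'⟩ := exists_root v' hsplit' haa (hst.le s₀ hs₀) hbot' htop'
  have hdiv' : ∀ s x, v'.ld s x ≠ 0 → Q ∣ s := fun s x h => lvOf_dvd hϖ' res' hker' hQ h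
  obtain ⟨μ, hμ, hstμ, hpμ⟩ := hst.translate v' hS hlt' hs₀ htop' hprop' hα hα'
  obtain ⟨p, hp⟩ := hstμ.exists_pt v' hS hgen (trU U' α)
  have h0 : ∃ s ∈ S, (trU U' α s).coeff 0 ≠ 0 := by
    let q : R →ₐ[ℂ] K' := cz.comp (trU U' α)
    have hq : ∀ x, q x = (U' x).eval α := fun x => by
      change cz (trU U' α x) = _
      rw [cz_apply, trU_apply, taylor_coeff_zero]
    have hqnv : NV 𝒜 q := by
      by_contra hcon
      have h3 : ∀ x ∈ 𝒜 1, q x = 0 := by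
        intro x hx
        by_contra hne
        exact hcon ⟨x, hx, hne⟩
      have h4 : Ideal.span (U '' {h : R | h ∈ 𝒜 1}) ≤
          RingHom.ker ((evalRingHom α).comp (mapRingHom (j : K →+* K'))) := by
        refine Ideal.span_le.2 ?_
        rintro _ ⟨x, hx, rfl⟩
        have h5 := h3 x hx
        rw [hq] at h5
        exact h5
      rw [hcz] at h4
      have h5 : (1 : K[X]) ∈ RingHom.ker ((evalRingHom α).comp (mapRingHom (j : K →+* K'))) :=
        h4 trivial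
      rw [RingHom.mem_ker, map_one] at h5
      exact one_ne_zero h5
    obtain ⟨s, hs, hne⟩ := H348.nv_gens hS hgen hqnv
    refine ⟨s, hs, ?_⟩
    rwa [trU_apply, taylor_coeff_zero, ← hq]
  have hz : (trU U' α s₀).coeff 0 = 0 := by
    rw [trU_apply, taylor_coeff_zero]
    exact hα0
  obtain ⟨b, hb, hb0, ψ, p', p'', hψ, hp', hp'', hz', hne'⟩ := exists_change v' hS hgen h0 hs₀ hz
    hdiv' μ (fun i hi hiμ => hQj i hi (by omega)) _ _ hstμ p hp (hpμ p hp)
  obtain ⟨G, c', ψ₁, hG0, hGb, hc', hpc, hs, -, -⟩ := hψ.exists_strong hgen1 hp' hp''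
  refine ⟨κ', inferInstance, inferInstance, b - G.natDegree, ψ₁, ?_, by omega, hs⟩
  rcases Nat.eq_zero_or_pos (b - G.natDegree) with h3 | h3
  · exfalso
    have h4 := hpc.start1 1 s₀ (hS s₀ hs₀)
    have h5 := hpc.fin 1 s₀ (hS s₀ hs₀)
    rw [h3, mul_zero, h4, twist_apply 𝒜 (hS s₀ hs₀), twist_apply 𝒜 (hS s₀ hs₀), hz', mul_zero,
      pow_one] at h5
    exact mul_ne_zero (inv_ne_zero (leadingCoeff_ne_zero.2 hG0)) hne' h5.symm
  · exact h3

end

end Vale.Agent.P280.H475
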