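import Vale.Agent.P280.H475.Poly

/-! P280, Theorem F: derivations of the valuation ring act on the limit curves. -/

open DirectSum Polynomial Module

namespace Vale.Agent.P280.H475

open Vale.Agent.P280.S

section

set_option linter.unusedSectionVars false

variable {R : Type} [CommRing R] [Algebra ℂ R] {𝒜 : ℕ → Submodule ℂ R} [GradedAlgebra 𝒜]
variable {O K κ : Type} [CommRing O] [IsDomain O] [Algebra ℂ O] [IsDiscreteValuationRing O]
  [Field K] [Algebra ℂ K] [Algebra O K] [IsScalarTower ℂ O K] [IsFractionRing O K]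
  [Field κ] [Algebra ℂ κ] {ϖ : O} (hϖ : Irreducible ϖ) (res : O →ₐ[ℂ] κ)
  (hker : RingHom.ker res = IsLocalRing.maximalIdeal O)
  {D : O →ₗ[ℂ] κ} (hD : ∀ x y, D (x * y) = res x * D y + res y * D x)

include hϖ in
theorem un_zero (n : ℤ) : un K ϖ n 0 = 0 := un_eq hϖ (by rw [map_zero, mul_zero])

include hϖ in
theorem un_sum {ι : Type} {n : ℤ} (A : Finset ι) {f : ι → K} (h : ∀ i ∈ A, V K ϖ n (f i)) :
    V K ϖ n (∑ i ∈ A, f i) ∧ un K ϖ n (∑ i ∈ A, f i) = ∑ i ∈ A, un K ϖ n (f i) := by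
  classical
  induction A using Finset.induction_on with
  | empty =>
    rw [Finset.sum_empty, Finset.sum_empty]
    exact ⟨V_zero n, un_zero hϖ n⟩
  | insert a A ha ih =>
    obtain ⟨h1, h2⟩ := ih fun i hi => h i (Finset.mem_insert_of_mem hi)
    rw [Finset.sum_insert ha, Finset.sum_insert ha]
    exact ⟨V_add (h a (Finset.mem_insert_self a A)) h1, by
      rw [un_add hϖ (h a (Finset.mem_insert_self a A)) h1, h2]⟩

include hϖ in
theorem un_smul {n : ℤ} (c : ℂ) {a : K} (h : V K ϖ n a) :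
    V K ϖ n (c • a) ∧ un K ϖ n (c • a) = c • un K ϖ n a := by
  have h1 : V K ϖ 0 (algebraMap ℂ K c) := by
    rw [IsScalarTower.algebraMap_apply ℂ O K]
    exact V_algebraMap _
  have h2 : un K ϖ 0 (algebraMap ℂ K c) = algebraMap ℂ O c := by
    rw [IsScalarTower.algebraMap_apply ℂ O K, un_algebraMap hϖ]
  have h3 := V_mul hϖ h1 h
  have h4 := un_mul hϖ h1 h
  rw [zero_add] at h3 h4
  rw [Algebra.smul_def, Algebra.smul_def, ← h2]
  exact ⟨h3, h4⟩

include hϖ hker hD in
/-- The derivation vanishes on elements of order at least two. -/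
theorem dl_eq_zero {n : ℤ} {a : K} (h : V K ϖ (n + 2) a) : D (un K ϖ n a) = 0 := by
  rw [un_of_le hϖ (by omega) h]
  have h3 : (n + 2 - n).toNat = 2 := by omega
  have h4 : res ϖ = 0 := (res_eq_zero hϖ res hker).2 dvd_rfl
  rw [h3, pow_two, mul_assoc, hD, map_mul res, h4]
  ring

/-- A shift of the coefficients. -/
noncomputable def shiftc {k : Type} [Field k] (n : ℕ) (p : k[X]) : k[X] :=
  ∑ i ∈ Finset.range (p.natDegree + 1), monomial i (p.coeff (n + i))

theorem coeff_shiftc {k : Type} [Field k] (n : ℕ) (p : k[X]) (i : ℕ) :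
    (shiftc n p).coeff i = p.coeff (n + i) := by
  rw [shiftc, finsetSum_coeff]
  simp only [coeff_monomial]
  rw [Finset.sum_ite_eq']
  split_ifs with h
  · rfl
  · rw [Finset.mem_range] at h
    rw [coeff_eq_zero_of_natDegree_lt (by omega)]

include hϖ hker hD in
/-- The field along a limit curve which is given by a derivation of the valuation ring. -/
theorem exists_pfield {U : R →ₐ[ℂ] K[X]} {s t : ℤ} {a : ℕ} {ψ : R →ₐ[ℂ] κ[X]}
    (hline : ∀ d, ∀ x ∈ 𝒜 d, ∀ i : ℕ, V K ϖ (s * i + d * t) ((U x).coeff i))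
    (hleft : ∀ d, ∀ x ∈ 𝒜 d, ∀ i : ℕ, i < d * a → V K ϖ (s * i + d * t + 2) ((U x).coeff i))
    (hψ : ∀ d, ∀ x ∈ 𝒜 d, ∀ i : ℕ, (ψ x).coeff i =
      res (un K ϖ (s * ((d * a + i : ℕ) : ℤ) + d * t) ((U x).coeff (d * a + i)))) :
    ∃ η : R →ₗ[ℂ] κ[X], (∀ x y, η (x * y) = ψ x * η y + ψ y * η x) ∧
      ∀ d, ∀ x ∈ 𝒜 d, ∀ i : ℕ, (η x).coeff i =
        D (un K ϖ (s * ((d * a + i : ℕ) : ℤ) + d * t) ((U x).coeff (d * a + i))) := by
  have hm0 : ∀ (d : ℕ) (p : K[X]) (i : ℕ),
      (mapc (fun (i : ℕ) c => D (un K ϖ (s * i + d * t) c)) p).coeff i =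
        D (un K ϖ (s * i + d * t) (p.coeff i)) := fun d p i =>
    coeff_mapc (fun i => by rw [un_zero hϖ, map_zero]) p i
  -- the unshifted field
  have h1 : ∃ η : R →ₗ[ℂ] κ[X], ∀ d, ∀ x ∈ 𝒜 d,
      η x = mapc (fun (i : ℕ) c => D (un K ϖ (s * i + d * t) c)) (U x) := by
    refine exists_graded_lin 𝒜
      (fun (d : ℕ) x => mapc (fun (i : ℕ) c => D (un K ϖ (s * i + d * t) c)) (U x)) ?_ ?_
    · intro d x hx y hy
      ext i
      rw [coeff_add, hm0, hm0, hm0, map_add, coeff_add,
        un_add hϖ (hline d x hx i) (hline d y hy i), map_add]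
    · intro d c x hx
      ext i
      rw [coeff_smul, hm0, hm0, map_smul, coeff_smul, (un_smul hϖ c (hline d x hx i)).2,
        map_smul]
  obtain ⟨η, hη⟩ := h1
  have hηc : ∀ d, ∀ x ∈ 𝒜 d, ∀ i : ℕ,
      (η x).coeff i = D (un K ϖ (s * i + d * t) ((U x).coeff i)) := fun d x hx i => by
    rw [hη d x hx, hm0]
  -- the shifted field
  have h2 : ∃ η' : R →ₗ[ℂ] κ[X], ∀ d, ∀ x ∈ 𝒜 d, η' x = shiftc (d * a) (η x) := by
    refine exists_graded_lin 𝒜 (fun (d : ℕ) x => shiftc (d * a) (η x)) ?_ ?_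
    · intro d x _ y _
      ext i
      rw [coeff_add, coeff_shiftc, coeff_shiftc, coeff_shiftc, map_add, coeff_add]
    · intro d c x _
      ext i
      rw [coeff_smul, coeff_shiftc, coeff_shiftc, map_smul, coeff_smul]
  obtain ⟨η', hη'⟩ := h2
  have hηX : ∀ d, ∀ x ∈ 𝒜 d, η x = X ^ (d * a) * η' x := by
    intro d x hx
    ext i
    rw [coeff_X_pow_mul']
    split_ifs with hi
    · rw [hη' d x hx, coeff_shiftc, Nat.add_sub_cancel' hi]
    · rw [hηc d x hx]
      exact dl_eq_zero hϖ res hker hD (hleft d x hx i (by omega))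
  have hψX : ∀ d, ∀ x ∈ 𝒜 d, ∀ i : ℕ, (X ^ (d * a) * ψ x).coeff i =
      res (un K ϖ (s * i + d * t) ((U x).coeff i)) := by
    intro d x hx i
    rw [coeff_X_pow_mul']
    split_ifs with hi
    · rw [hψ d x hx, Nat.add_sub_cancel' hi]
    · exact ((res_un_eq_zero hϖ res hker (hline d x hx i)).2
        (V_of_le hϖ (by omega) (hleft d x hx i (by omega)))).symm
  refine ⟨η', leibniz_of_hom' (𝒜 := 𝒜) fun i j x hx y hy => ?_, fun d x hx i => ?_⟩
  · apply mul_left_cancel₀ (pow_ne_zero ((i + j) * a) (X_ne_zero (R := κ)))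
    rw [← hηX _ _ (SetLike.mul_mem_graded hx hy)]
    have h3 : X ^ ((i + j) * a) * (ψ x * η' y + ψ y * η' x) =
        X ^ (i * a) * ψ x * η y + X ^ (j * a) * ψ y * η x := by
      rw [hηX i x hx, hηX j y hy, add_mul, pow_add]
      ring
    rw [h3]
    ext n
    rw [coeff_add, coeff_mul, coeff_mul, hηc _ _ (SetLike.mul_mem_graded hx hy), map_mul,
      coeff_mul]
    have hterm : ∀ q ∈ Finset.HasAntidiagonal.antidiagonal n,
        V K ϖ (s * n + ((i + j : ℕ) : ℤ) * t) ((U x).coeff q.1 * (U y).coeff q.2) ∧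
        D (un K ϖ (s * n + ((i + j : ℕ) : ℤ) * t) ((U x).coeff q.1 * (U y).coeff q.2)) =
          (X ^ (i * a) * ψ x).coeff q.1 * (η y).coeff q.2 +
          (X ^ (j * a) * ψ y).coeff q.2 * (η x).coeff q.1 := by
      intro q hq
      rw [Finset.HasAntidiagonal.mem_antidiagonal] at hq
      have h4 : s * n + ((i + j : ℕ) : ℤ) * t = (s * q.1 + i * t) + (s * q.2 + j * t) := by
        rw [← hq]
        push_cast
        ring
      rw [h4]
      refine ⟨V_mul hϖ (hline i x hx q.1) (hline j y hy q.2), ?_⟩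
      rw [un_mul hϖ (hline i x hx q.1) (hline j y hy q.2), hD, hψX i x hx, hψX j y hy,
        hηc i x hx, hηc j y hy]
    rw [(un_sum hϖ _ fun q hq => (hterm q hq).1).2, map_sum,
      Finset.sum_congr rfl fun q hq => (hterm q hq).2, Finset.sum_add_distrib]
    congr 1
    exact Finset.Nat.sum_antidiagonal_swap
      (f := fun q => (X ^ (j * a) * ψ y).coeff q.1 * (η x).coeff q.2)
  · rw [hη' d x hx, coeff_shiftc, hηc d x hx]

end

section rank

set_option linter.unusedSectionVars false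

variable {R : Type} [CommRing R] [Algebra ℂ R] {𝒜 : ℕ → Submodule ℂ R} [GradedAlgebra 𝒜]
variable {O κ : Type} [CommRing O] [Algebra ℂ O] [IsLocalRing O]
  [Field κ] [Algebra ℂ κ] {ϖ : O}  (res : O →ₐ[ℂ] κ)
  (hker : ∀ x, res x = 0 ↔ ϖ ∣ x) (hsurj : Function.Surjective res) (ι : R →ₐ[ℂ] O)
  {N : ℕ} {D : Fin N → (O →ₗ[ℂ] κ)}
  (hD : ∀ i x y, D i (x * y) = res x * D i y + res y * D i x)
  (hind : LinearIndependent κ fun i => (D i).comp ι.toLinearMap)

include hker hsurj in
/-- A derivation which kills the uniformizer descends to the residue field. -/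
theorem exists_descend {E : O →ₗ[ℂ] κ} (hE : ∀ x y, E (x * y) = res x * E y + res y * E x)
    (h0 : E ϖ = 0) : ∃ F : Derivation ℂ κ κ, ∀ x, F (res x) = E x := by
  have h1 : ∀ x x', res x = res x' → E x = E x' := by
    intro x x' h
    have h2 : res (x - x') = 0 := by rw [map_sub, h, sub_self]
    obtain ⟨u, hu⟩ := (hker _).1 h2
    have h3 : E (x - x') = 0 := by
      rw [hu, hE, h0, (hker ϖ).2 dvd_rfl]
      ring
    rw [map_sub] at h3
    exact sub_eq_zero.1 h3
  let f : κ → κ := fun y => E (Function.surjInv hsurj y)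
  have hf : ∀ x, f (res x) = E x := fun x => h1 _ _ (Function.surjInv_eq hsurj (res x))
  let F : κ →ₗ[ℂ] κ :=
    { toFun := f
      map_add' := fun x y => by
        obtain ⟨x, rfl⟩ := hsurj x
        obtain ⟨y, rfl⟩ := hsurj y
        rw [← map_add, hf, hf, hf, map_add]
      map_smul' := fun c x => by
        obtain ⟨x, rfl⟩ := hsurj x
        rw [← map_smul, hf, hf, map_smul, RingHom.id_apply] }
  refine ⟨Derivation.mk' F fun x y => ?_, hf⟩
  obtain ⟨x, rfl⟩ := hsurj x
  obtain ⟨y, rfl⟩ := hsurj y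
  change f (res x * res y) = res x • f (res y) + res y • f (res x)
  rw [← map_mul, hf, hf, hf, hE]
  rfl

include hker hsurj hD hind in
/-- Good spaces at the generic point of the divisor have dimension at least `N - 1`. -/
theorem rank_good [Algebra.FiniteType ℂ R] {T : Submodule κ (R →ₗ[ℂ] κ)}
    (hT : Good 𝒜 (res.comp ι) T) : N ≤ finrank κ T + 1 := by
  have hfin : FiniteDimensional κ T := finite_le_tan hT.le
  let L : (Fin N → κ) →ₗ[κ] (R →ₗ[ℂ] κ) :=
    Fintype.linearCombination κ fun i => (D i).comp ι.toLinearMap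
  have hL : Function.Injective L := by
    rw [← LinearMap.ker_eq_bot, LinearMap.ker_eq_bot']
    intro c hc
    funext i
    exact Fintype.linearIndependent_iff.1 hind c hc i
  let l : (Fin N → κ) →ₗ[κ] κ := Fintype.linearCombination κ fun i => D i ϖ
  have hmem : ∀ c ∈ LinearMap.ker l, L c ∈ T := by
    intro c hc
    have hc' : ∑ i, c i * D i ϖ = 0 := hc
    let E : O →ₗ[ℂ] κ := ∑ i, c i • D i
    have hEa : ∀ x, E x = ∑ i, c i * D i x := fun x => by
      rw [LinearMap.sum_apply]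
      rfl
    obtain ⟨F, hF⟩ := exists_descend (E := E) res hker hsurj (fun x y => by
      rw [hEa, hEa, hEa, Finset.mul_sum, Finset.mul_sum, ← Finset.sum_add_distrib]
      refine Finset.sum_congr rfl fun i _ => ?_
      rw [hD]
      ring) (by rw [hEa]; exact hc')
    have h1 : L c = dP F (res.comp ι) := LinearMap.ext fun r => by
      rw [dP_apply, AlgHom.comp_apply, hF, hEa]
      change (∑ i, c i • (D i).comp ι.toLinearMap) r = _
      rw [LinearMap.sum_apply]
      rfl
    rw [h1]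
    exact hT.dP F
  have h1 : finrank κ (LinearMap.ker l) ≤ finrank κ T := by
    let L' : LinearMap.ker l →ₗ[κ] T := (L.domRestrict (LinearMap.ker l)).codRestrict T
      fun c => hmem c c.2
    have hL' : Function.Injective L' := fun c c' h => by
      have h2 : L c = L c' := congrArg (fun z : T => (z : R →ₗ[ℂ] κ)) h
      exact Subtype.ext (hL h2)
    exact LinearMap.finrank_le_finrank_of_injective hL'
  have h2 := LinearMap.finrank_range_add_finrank_ker l
  have h3 : finrank κ (LinearMap.range l) ≤ 1 := by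
    have := Submodule.finrank_le (LinearMap.range l)
    rwa [finrank_self] at this
  rw [finrank_fin_fun] at h2
  omega

include hind in
theorem rank_all [Algebra.FiniteType ℂ R] {p : R →ₐ[ℂ] κ} {T : Submodule κ (R →ₗ[ℂ] κ)}
    (hT : Good 𝒜 p T) (hmem : ∀ i, (D i).comp ι.toLinearMap ∈ T) : N ≤ finrank κ T := by
  have hfin : FiniteDimensional κ T := finite_le_tan hT.le
  have hind2 : LinearIndependent κ (fun i => (⟨(D i).comp ι.toLinearMap, hmem i⟩ : T)) :=
    LinearIndependent.of_comp T.subtype hind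
  have h3 := hind2.fintype_card_le_finrank
  rwa [Fintype.card_fin] at h3

end rank

end Vale.Agent.P280.H475
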