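import Vale.Agent.P280.H475.Eul
import Vale.Agent.P280.H475.BubB
import Vale.Agent.P280.H475.Fld

/-! P280, Theorem F: the velocity of the generic arc has no poles. -/

open DirectSum Polynomial Module

namespace Vale.Agent.P280.H475

open Vale.Agent.P280.S

section hbub

set_option linter.unusedSectionVars false

variable {R : Type} [CommRing R] [Algebra ℂ R]

/-- Edges with constant main component have degree greater than `1 / r`. -/
def HBub (𝒜 : ℕ → Submodule ℂ R) {K κ : Type} [Field K] [Algebra ℂ K] [Field κ] [Algebra ℂ κ]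
    (v : LV K κ) (U : R →ₐ[ℂ] K[X]) (S : Finset R) (r : ℚ) (Q : ℤ) : Prop :=
  ∀ (a' a : ℕ) (σ c : ℤ) (ψ : R →ₐ[ℂ] κ[X]), a' < a →
    (∀ j : ℕ, 0 < j → j ≤ a → (j : ℤ) ∣ Q) → St v U S a' σ c →
    (∀ s ∈ S, ∀ i : ℕ, a < i → v.W (σ * i + c + 1) ((U s).coeff i)) →
    (∃ s ∈ S, ¬ v.W (σ * a + c + 1) ((U s).coeff a)) →
    (∀ d, ∀ x ∈ 𝒜 d, ∀ i : ℕ, (ψ x).coeff i =
      v.ld (σ * ((d * a' + i : ℕ) : ℤ) + d * c) ((U x).coeff (d * a' + i))) →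
    Bub 𝒜 ψ → 1 < r * ((a - a' : ℕ) : ℚ)

theorem hbub_of {𝒜 : ℕ → Submodule ℂ R} [GradedAlgebra 𝒜]
    {O K κ : Type} [CommRing O] [IsDomain O] [Algebra ℂ O] [IsDiscreteValuationRing O]
    [Field K] [Algebra ℂ K] [Algebra O K] [IsScalarTower ℂ O K] [IsFractionRing O K]
    [Field κ] [Algebra ℂ κ] {ϖ : O} (hϖ : Irreducible ϖ) (res : O →ₐ[ℂ] κ)
    (hker : RingHom.ker res = IsLocalRing.maximalIdeal O) (hft : Algebra.FiniteType ℂ R)
    (hgen1 : Algebra.adjoin ℂ {h : R | h ∈ 𝒜 1} = ⊤) {r : ℚ} (hr : 0 < r) (hI : HasIndex 𝒜 r)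
    {Q : ℤ} (hQ : 0 < Q) {U : R →ₐ[ℂ] K[X]}
    (hcz : Ideal.span (U '' {h : R | h ∈ 𝒜 1}) = ⊤) {S : Finset R} (hS : ∀ s ∈ S, s ∈ 𝒜 1)
    (hgen : Algebra.adjoin ℂ (S : Set R) = ⊤) :
    HBub 𝒜 (lvOf K hϖ res hker hQ) U S r Q := by
  intro a' a σ c ψ haa hQj hst hlt ⟨s₀, hs₀, htop⟩ hψ ⟨g, q, hgq⟩
  set v := lvOf K hϖ res hker hQ with hv
  have hld : ∀ s ∈ S, ∀ i : ℕ, v.ld (σ * i + c) ((U s).coeff i) =
      (if a' ≤ i then g.coeff (i - a') else 0) * q s := by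
    intro s hs i
    split_ifs with hi
    · have h1 := hψ 1 s (hS s hs) (i - a')
      rw [one_mul, Nat.add_sub_cancel' hi, Nat.cast_one, one_mul, hgq 1 s (hS s hs), pow_one,
        coeff_mul_C] at h1
      exact h1.symm
    · rw [zero_mul]
      exact (v.ld_eq_zero (hst.le s hs i)).2 (hst.lt s hs i (by omega))
  have hprop : ∀ s ∈ S, ∀ i : ℕ, v.W ((σ * i + c) + (σ * a + c) + 1)
      ((U s).coeff i * (U s₀).coeff a - (U s).coeff a * (U s₀).coeff i) := by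
    intro s hs i
    have h2 := v.mul (hst.le s hs i) (hst.le s₀ hs₀ a)
    have h3 := v.mul (hst.le s hs a) (hst.le s₀ hs₀ i)
    rw [add_comm (σ * a + c)] at h3
    have h4 : v.W ((σ * i + c) + (σ * a + c)) (-((U s).coeff a * (U s₀).coeff i)) := by
      have h5 := v.smul (-1) h3
      rwa [map_neg, map_one, neg_one_mul] at h5
    rw [sub_eq_add_neg]
    refine (v.ld_eq_zero (v.add h2 h4)).1 ?_
    rw [v.ld_add h2 h4, v.ld_mul (hst.le s hs i) (hst.le s₀ hs₀ a)]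
    have h7 : v.ld ((σ * i + c) + (σ * a + c)) (-((U s).coeff a * (U s₀).coeff i)) =
        -(v.ld (σ * a + c) ((U s).coeff a) * v.ld (σ * i + c) ((U s₀).coeff i)) := by
      have h8 := v.ld_smul (-1) h3
      rw [map_neg, map_one, neg_one_mul, map_neg, map_one, neg_one_mul,
        add_comm (σ * (i : ℤ) + c), v.ld_mul (hst.le s hs a) (hst.le s₀ hs₀ i)] at h8
      rw [add_comm (σ * (i : ℤ) + c)]
      exact h8
    rw [h7, hld s hs i, hld s₀ hs₀ a, hld s hs a, hld s₀ hs₀ i]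
    ring
  obtain ⟨κ', _, _, b, ψ₁, hb, hba, hs⟩ := bubble hϖ res hker hQ hcz hS hgen hgen1 haa hst hlt hs₀
    htop hprop fun j hj hja => hQj j hj (by omega)
  have h1 := two_le_vf0 𝒜 hft hgen1 hb hs
  have h2 := bound_vf0 (k := κ') hft hgen1 hI b ψ₁ hs
  have h3 : (2 : ℚ) ≤ finrank κ' (Vf0 𝒜 b ψ₁) := by exact_mod_cast h1
  have h4 : (b : ℚ) ≤ ((a - a' : ℕ) : ℚ) := by exact_mod_cast hba
  have h5 := mul_le_mul_of_nonneg_left h4 hr.le
  linarith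

end hbub

section chain

set_option linter.unusedSectionVars false

variable {R : Type} [CommRing R] [Algebra ℂ R] {𝒜 : ℕ → Submodule ℂ R} [GradedAlgebra 𝒜]
variable {K κ : Type} [Field K] [Algebra ℂ K] [Field κ] [Algebra ℂ κ] {v : LV K κ}
variable {S : Finset R} (hS : ∀ s ∈ S, s ∈ 𝒜 1) (hgen : Algebra.adjoin ℂ (S : Set R) = ⊤)
  {U : R →ₐ[ℂ] K[X]} {p₀ : R →ₐ[ℂ] κ} (hp₀ : Vx v U 𝒜 0 0 p₀) (hnv₀ : NV 𝒜 p₀)
  (hint : ∀ s ∈ S, v.W 0 ((U s).coeff 0))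

include hS hgen hp₀ hnv₀ hint in
theorem St.zero {σ c : ℤ} (h : St v U S 0 σ c) : c = 0 := by
  obtain ⟨s, hs, hne⟩ := H348.nv_gens hS hgen hnv₀
  obtain ⟨s', hs', hne'⟩ := h.eq
  rw [hp₀ 1 s (hS s hs), Nat.cast_one, mul_zero, one_mul] at hne
  have h1 : ¬ v.W (0 + 1) ((U s).coeff 0) := fun h1 => hne ((v.ld_eq_zero (hint s hs)).2 h1)
  have h2 : c < 1 := by
    by_contra hc
    push Not at hc
    exact h1 (v.mono (by push_cast; omega) (h.le s hs 0))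
  have h3 : 0 ≤ c := by
    by_contra hc
    push Not at hc
    exact hne' (v.mono (by push_cast; omega) (hint s' hs'))
  omega

include hS hgen hp₀ hnv₀ hint in
/-- The part of the chain to the left of a vertex. -/
theorem chain (hft : Algebra.FiniteType ℂ R)
    (hgen1 : Algebra.adjoin ℂ {h : R | h ∈ 𝒜 1} = ⊤) {r : ℚ} (hr : 0 < r)
    (hB : ∀ (e' : ℕ) (ψ' : R →ₐ[ℂ] κ[X]), Strong 𝒜 e' ψ' → (finrank κ (Vf0 𝒜 e' ψ') : ℚ) ≤ r * e')
    {Q : ℤ} (hHB : HBub 𝒜 v U S r Q) (hdiv : ∀ s x, v.ld s x ≠ 0 → Q ∣ s)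
    (h0 : ∃ s ∈ S, (U s).coeff 0 ≠ 0) :
    ∀ a : ℕ, (∀ j : ℕ, 0 < j → j ≤ a → (j : ℤ) ∣ Q) → ∀ σ c : ℤ, St v U S a σ c →
      ∀ p : R →ₐ[ℂ] κ, Vx v U 𝒜 a (σ * a + c) p → ∀ T : Submodule κ (R →ₗ[ℂ] κ), Good 𝒜 p T →
      ∃ T₀ : Submodule κ (R →ₗ[ℂ] κ), Good 𝒜 p₀ T₀ ∧
        (finrank κ T₀ : ℚ) + (if 0 < a then 1 else 0) ≤ finrank κ T + r * a := by
  intro a
  induction a using Nat.strong_induction_on with
  | _ a ih =>
    intro hQ σ c hst p hp T hT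
    rcases Nat.eq_zero_or_pos a with ha | ha
    · subst ha
      have hc := hst.zero hS hgen hp₀ hnv₀ hint
      have hpp : p = p₀ := by
        refine Vx.unique v U hp ?_
        rw [hc]
        simpa using hp₀
      subst hpp
      exact ⟨T, hT, by simp⟩
    · obtain ⟨a', ha', σ', hσ', c', hc', hst', hgt⟩ := hst.next v U ha h0 hdiv hQ
      obtain ⟨p', hp'⟩ := hst'.exists_pt v hS hgen U
      obtain ⟨ψ, hψ, hψc⟩ := hst'.exists_piece v hS hgen U ha'.le hgt hp' (by rwa [hc'])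
      have hbub := hHB a' a σ' c' ψ ha' hQ hst' hgt (by rw [hc']; exact hst.eq) hψc
      obtain ⟨T', hT', hle, -⟩ := exists_step 𝒜 hft hgen1 hr hB hψ (by omega)
        (hst'.nv v hS U hp') (hst.nv v hS U hp) hbub hT
      obtain ⟨T₀, hT₀, hle'⟩ := ih a' ha' (fun j hj hja => hQ j hj (by omega)) σ' c' hst' p' hp'
        T' hT'
      refine ⟨T₀, hT₀, ?_⟩
      rw [if_pos ha]
      have h1 : (0 : ℚ) ≤ if 0 < a' then 1 else 0 := by split_ifs <;> norm_num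
      have h2 : ((a - a' : ℕ) : ℚ) = a - a' := Nat.cast_sub ha'.le
      rw [h2] at hle
      nlinarith

end chain

section mult

/-- Slopes which are not integral give multiple covers. -/
theorem exists_mult {Q : ℕ} (hQ : 0 < Q) {σ : ℤ} (h : ¬ (Q : ℤ) ∣ σ) :
    ∃ q : ℕ, 2 ≤ q ∧ ∀ i : ℕ, (Q : ℤ) ∣ σ * i → q ∣ i := by
  set g := Nat.gcd Q σ.natAbs with hg
  have hgpos : 0 < g := Nat.gcd_pos_of_pos_left _ hQ
  obtain ⟨q, hq⟩ : g ∣ Q := Nat.gcd_dvd_left _ _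
  obtain ⟨m, hm⟩ : g ∣ σ.natAbs := Nat.gcd_dvd_right _ _
  have hcop : Nat.Coprime q m := by
    have h1 : Nat.gcd (g * q) (g * m) = g := by rw [← hq, ← hm]
    rw [Nat.gcd_mul_left] at h1
    exact Nat.eq_of_mul_eq_mul_left hgpos (by rw [h1, mul_one])
  refine ⟨q, ?_, fun i hi => ?_⟩
  · rcases Nat.lt_or_ge q 2 with h2 | h2
    · exfalso
      have h3 : q ≠ 0 := by
        rintro rfl
        omega
      have h4 : q = 1 := by omega
      rw [h4, mul_one] at hq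
      apply h
      rw [Int.natCast_dvd, hq]
      exact ⟨m, hm⟩
    · exact h2
  · rw [Int.natCast_dvd, Int.natAbs_mul, Int.natAbs_natCast, hm, hq, mul_assoc] at hi
    exact hcop.dvd_of_dvd_mul_left (Nat.dvd_of_mul_dvd_mul_left hgpos hi)

end mult

section main

set_option linter.unusedSectionVars false

variable {R : Type} [CommRing R] [Algebra ℂ R] {𝒜 : ℕ → Submodule ℂ R} [GradedAlgebra 𝒜]
variable {O K κ : Type} [CommRing O] [IsDomain O] [Algebra ℂ O] [IsDiscreteValuationRing O]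
  [Field K] [Algebra ℂ K] [Algebra O K] [IsScalarTower ℂ O K] [IsFractionRing O K]
  [Field κ] [Algebra ℂ κ] {ϖ : O} (hϖ : Irreducible ϖ) (res : O →ₐ[ℂ] κ)
  (hker : RingHom.ker res = IsLocalRing.maximalIdeal O) (hsurj : Function.Surjective res)

include hϖ hker hsurj in
/-- **The velocity of the generic arc has no poles.** -/
theorem no_pole (hft : Algebra.FiniteType ℂ R)
    (hgen1 : Algebra.adjoin ℂ {h : R | h ∈ 𝒜 1} = ⊤) {r : ℚ} (hr : 0 < r) (hI : HasIndex 𝒜 r)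
    {J : Set R} {θ : (R →ₐ[ℂ] ℂ) → (R →ₗ[ℂ] ℂ) → ℂ} {e d₀ : ℕ} {g : R}
    (hP : IsNullPair 𝒜 J θ e d₀ g) {N : ℕ} (hN : r * e + d₀ ≤ N) {U : R →ₐ[ℂ] K[X]}
    (ι : R →ₐ[ℂ] O) (hU : WSol 𝒜 J e ((IsScalarTower.toAlgHom ℂ O K).comp ι) U)
    (hnrm : Nrm {ρ | ρ.IsValid 𝒜 J θ} e U) (hnv : NV 𝒜 (res.comp ι))
    {D : Fin N → (O →ₗ[ℂ] κ)} (hD : ∀ i x y, D i (x * y) = res x * D i y + res y * D i x)
    (hind : LinearIndependent κ fun i => (D i).comp ι.toLinearMap)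
    {x₁ : R} (hx₁ : x₁ ∈ 𝒜 1) : V K ϖ 0 ((U x₁).coeff 1) := by
  by_contra hpole
  obtain ⟨S, hS, hgen⟩ := exists_gen1 hft hgen1
  have hQ : (0 : ℤ) < (e.factorial : ℤ) := by exact_mod_cast Nat.factorial_pos e
  set Q : ℤ := (e.factorial : ℤ) with hQdef
  set v := lvOf K hϖ res hker hQ with hv
  set p₀ : R →ₐ[ℂ] κ := res.comp ι with hp₀def
  have hU0 : ∀ x, (U x).coeff 0 = algebraMap O K (ι x) := fun x => hU.start x
  have hp₀ : Vx v U 𝒜 0 0 p₀ := by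
    intro d x _
    rw [mul_zero, mul_zero, hU0, hv]
    have h1 := lvOf_ld hϖ res hker hQ (n := 0) (a := algebraMap O K (ι x))
    rw [mul_zero] at h1
    rw [h1, un_algebraMap hϖ]
    rfl
  have hint : ∀ s ∈ S, v.W 0 ((U s).coeff 0) := by
    intro s _
    have h1 := (lvOf_W hϖ res hker hQ (n := 0) (a := (U s).coeff 0)).2
      (by rw [hU0]; exact V_algebraMap _)
    rwa [mul_zero] at h1
  have hdiv : ∀ s x, v.ld s x ≠ 0 → Q ∣ s := fun s x h => lvOf_dvd hϖ res hker hQ h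
  have hQe : ∀ j : ℕ, 0 < j → j ≤ e → (j : ℤ) ∣ Q := fun j hj hje =>
    Int.natCast_dvd_natCast.2 (Nat.dvd_factorial hj hje)
  have hB := bound_vf0 (k := κ) hft hgen1 hI
  have hznv : NV 𝒜 ((IsScalarTower.toAlgHom ℂ O K).comp ι) := by
    obtain ⟨x, hx, hne⟩ := hnv
    refine ⟨x, hx, fun h0 => hne ?_⟩
    have h1 : ι x = 0 := IsFractionRing.injective O K (by rw [map_zero]; exact h0)
    change res (ι x) = 0
    rw [h1, map_zero]
  have hHB : HBub 𝒜 v U S r Q := hbub_of hϖ res hker hft hgen1 hr hI hQ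
    (strong_of_sol hft hgen1 hP hznv hU hnrm).2.2 hS hgen
  have hW0 : ¬ v.W 0 ((U x₁).coeff 1) := by
    intro h1
    apply hpole
    rw [← mul_zero Q] at h1
    exact (lvOf_W hϖ res hker hQ).1 h1
  -- the degree is positive
  have he : 0 < e := by
    rcases Nat.eq_zero_or_pos e with h0 | h0
    · exfalso
      apply hW0
      have h1 := hU.deg 1 x₁ hx₁
      rw [coeff_eq_zero_of_natDegree_lt (by omega)]
      exact v.zero 0
    · exact h0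
  have h0 : ∃ s ∈ S, (U s).coeff 0 ≠ 0 := by
    obtain ⟨s, hs, hne⟩ := H348.nv_gens hS hgen hnv
    refine ⟨s, hs, fun h0 => hne ?_⟩
    rw [hp₀ 1 s (hS s hs), mul_zero, h0, v.ld_zero]
  have hend : ∃ s ∈ S, (U s).coeff e ≠ 0 := by
    obtain ⟨p, hp⟩ := exists_end hU.deg
    obtain ⟨x, hx, hne⟩ := hU.nv
    obtain ⟨s, hs, hs0⟩ := H348.nv_gens (𝒜 := 𝒜) hS hgen (q := p) ⟨x, hx, by
      rw [← hp 1 x hx]
      exact hne⟩
    refine ⟨s, hs, ?_⟩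
    rw [← hp 1 s (hS s hs), one_mul] at hs0
    exact hs0
  obtain ⟨σ₀, c₀, hst₀⟩ := exists_st v U (fun s hs => by
    have := hU.deg 1 s (hS s hs)
    rwa [one_mul] at this) hend
  -- the first edge
  obtain ⟨a₁, ha₁, σ₁, -, c₁, hc₁, hst₁, hgt₁⟩ := hst₀.next v U he h0 hdiv hQe
  obtain ⟨pe, hpe'⟩ := hst₀.exists_pt v hS hgen U
  have hpenv := hst₀.nv v hS U hpe'
  have hpe : Vx v U 𝒜 e (σ₁ * e + c₁) pe := by rwa [hc₁]
  obtain ⟨p₁, hp₁⟩ := hst₁.exists_pt v hS hgen U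
  have hp₁nv := hst₁.nv v hS U hp₁
  obtain ⟨ψ₁, hψ₁, hψ₁c⟩ := hst₁.exists_piece v hS hgen U ha₁.le hgt₁ hp₁ hpe
  have hpeJ : ∀ x ∈ J, pe x = 0 := by
    intro x hx
    obtain ⟨d, hd⟩ := hP.homogeneous x hx
    have h1 := hU.mem d x hx hd
    rw [cInf] at h1
    rw [hpe d x hd, h1, v.ld_zero]
  -- nullity
  obtain ⟨ρ, hρ, hρb⟩ := exists_rep hft hgen1 hP.covector hpenv hpeJ
  set ν := σ₁ * e + c₁ with hν
  have hcW : ∀ d, ∀ x ∈ 𝒜 d, v.W (d * ν) ((U x).coeff (d * e)) := by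
    intro d x hx
    have h1 := hst₁.le.all v hS hgen U hx (d * e)
    convert h1 using 1
    rw [hν]
    push_cast
    ring
  have hvW : ∀ d, ∀ x ∈ 𝒜 d, v.W (d * ν - σ₁) ((X * U x).coeff (d * e)) ∧
      v.ld (d * ν - σ₁) ((X * U x).coeff (d * e)) = (X * ψ₁ x).coeff (d * (e - a₁)) := by
    intro d x hx
    rcases Nat.eq_zero_or_pos d with hd | hd
    · subst hd
      rw [zero_mul, zero_mul, coeff_X_mul_zero, coeff_X_mul_zero, v.ld_zero]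
      exact ⟨v.zero _, rfl⟩
    · obtain ⟨n, hn⟩ : ∃ n, d * (e - a₁) = n + 1 :=
        ⟨d * (e - a₁) - 1, by have := Nat.mul_pos hd (Nat.sub_pos_of_lt ha₁); omega⟩
      have hn' : d * e = d * a₁ + n + 1 := by
        have : d * e = d * a₁ + d * (e - a₁) := by
          rw [← mul_add, Nat.add_sub_cancel' ha₁.le]
        omega
      have hnu : d * ν - σ₁ = σ₁ * ((d * a₁ + n : ℕ) : ℤ) + d * c₁ := by
        have h1 : (d : ℤ) * e = ((d * a₁ + n : ℕ) : ℤ) + 1 := by exact_mod_cast hn'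
        rw [hν]
        linear_combination σ₁ * h1
      rw [hn, hn', coeff_X_mul, coeff_X_mul, hψ₁c d x hx n, hnu]
      exact ⟨hst₁.le.all v hS hgen U hx _, rfl⟩
  have hval : ρ.val e U = cInf e U ρ.m ρ.b := hnrm ρ hρ
  have hterm : ∀ i, v.W (ρ.m * ν - σ₁) (cInf e U (ρ.k i) (ρ.a i) * vInf e U (ρ.l i) (ρ.c i)) := by
    intro i
    obtain ⟨h1, h2, h3⟩ := hρ.1.2 i
    have h4 := v.mul (hcW _ _ h1) (hvW _ _ h2).1
    have h5 : (ρ.m : ℤ) * ν - σ₁ = ρ.k i * ν + (ρ.l i * ν - σ₁) := by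
      rw [← h3]
      push_cast
      ring
    rw [h5]
    exact h4
  have hWb : v.W (ρ.m * ν - σ₁) (cInf e U ρ.m ρ.b) := by
    rw [← hval, Rep.val]
    exact v.sum _ fun i _ => hterm i
  have hpb : pe ρ.b = v.ld (ρ.m * ν) (cInf e U ρ.m ρ.b) := by
    rw [hpe _ _ hρ.1.1]
    rfl
  have hσ₁ : 0 ≤ σ₁ := by
    by_contra hneg
    push Not at hneg
    apply hρb
    rw [hpb]
    exact (v.ld_eq_zero (hcW _ _ hρ.1.1)).2 (v.mono (by omega) hWb)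
  have hσ₁a : σ₁ = 0 → a₁ = 0 := by
    intro hσ
    by_contra ha0
    have h1 := null_val hft hgen1 hP hψ₁ hp₁nv hpenv hpeJ (by omega) hρ
    apply hρb
    rw [hpb, ← hval, Rep.val, v.ld_sum]
    · rw [Rep.val] at h1
      rw [← h1]
      refine Finset.sum_congr rfl fun i _ => ?_
      obtain ⟨h2, h3, h4⟩ := hρ.1.2 i
      have h5 : (ρ.m : ℤ) * ν = ρ.k i * ν + (ρ.l i * ν - σ₁) := by
        rw [← h4, hσ]
        push_cast
        ring
      rw [h5, cInf, vInf, v.ld_mul (hcW _ _ h2) (hvW _ _ h3).1, (hvW _ _ h3).2, cInf, vInf]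
      congr 1
      rw [hψ₁.fin _ _ h2, hpe _ _ h2]
    · intro i _
      have := hterm i
      rwa [hσ, sub_zero] at this
  -- the tangent spaces
  have hTF := TF.good (𝒜 := 𝒜) hP.homogeneous hpeJ
  have hTFd := bound_TF (𝒜 := 𝒜) hft hgen1 hP.dim hpenv hpeJ
  obtain ⟨T₁, hT₁, hT₁le, hT₁s, hT₁q, hT₁p⟩ := exists_step 𝒜 hft hgen1 hr hB hψ₁ (by omega)
    hp₁nv hpenv (hHB a₁ e σ₁ c₁ ψ₁ ha₁ hQe hst₁ hgt₁
      (by rw [show σ₁ * (e : ℤ) + c₁ = σ₀ * e + c₀ from hc₁]; exact hst₀.eq) hψ₁c) hTF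
  have ha₁pos : 0 < a₁ := by
    rcases Nat.eq_zero_or_pos a₁ with h1 | h1
    · exfalso
      subst h1
      have hc := hst₁.zero hS hgen hp₀ hnv hint
      subst hc
      apply hW0
      refine v.mono ?_ (hst₁.le.all v hS hgen U hx₁ 1)
      push_cast
      linarith
    · exact h1
  -- the second edge
  obtain ⟨a₂, ha₂, σ₂, hσ₂, c₂, hc₂, hst₂, hgt₂⟩ := hst₁.next v U ha₁pos h0 hdiv
    fun j hj hja => hQe j hj (by omega)
  obtain ⟨p₂, hp₂⟩ := hst₂.exists_pt v hS hgen U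
  have hp₂nv := hst₂.nv v hS U hp₂
  obtain ⟨ψ₂, hψ₂, hψ₂c⟩ := hst₂.exists_piece v hS hgen U ha₂.le hgt₂ hp₂ (by rwa [hc₂])
  obtain ⟨T₂, hT₂, hT₂le, hT₂s, hT₂q, hT₂p⟩ := exists_step 𝒜 hft hgen1 hr hB hψ₂ (by omega)
    hp₂nv hp₁nv (hHB a₂ a₁ σ₂ c₂ ψ₂ ha₂ (fun j hj hja => hQe j hj (by omega)) hst₂ hgt₂
      (by rw [hc₂]; exact hst₁.eq) hψ₂c) hT₁
  have hkd : ∀ x, res x = 0 ↔ ϖ ∣ x := fun x => res_eq_zero hϖ res hker
  have hrank : ∀ T₀ : Submodule κ (R →ₗ[ℂ] κ), Good 𝒜 p₀ T₀ → N ≤ finrank κ T₀ + 1 :=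
    fun T₀ hT₀ => rank_good (𝒜 := 𝒜) res hkd hsurj ι hD hind hT₀
  have hcast1 : ((e - a₁ : ℕ) : ℚ) = e - a₁ := Nat.cast_sub ha₁.le
  have hcast2 : ((a₁ - a₂ : ℕ) : ℚ) = a₁ - a₂ := Nat.cast_sub ha₂.le
  have hTFq : (finrank κ (TF J pe) : ℚ) ≤ d₀ + 1 := by exact_mod_cast hTFd
  rw [hcast1] at hT₁le hT₁s hT₁q
  rw [hcast2] at hT₂le hT₂s hT₂q
  have ha₂0 : a₂ = 0 := by
    by_contra hne
    obtain ⟨T₀, hT₀, hT₀le⟩ := chain hS hgen hp₀ hnv hint hft hgen1 hr hB hHB hdiv h0 a₂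
      (fun j hj hja => hQe j hj (by omega)) σ₂ c₂ hst₂ p₂ hp₂ T₂ hT₂
    rw [if_pos (Nat.pos_of_ne_zero hne)] at hT₀le
    have h1 := hrank T₀ hT₀
    have h2 : (N : ℚ) ≤ finrank κ T₀ + 1 := by exact_mod_cast h1
    nlinarith
  subst ha₂0
  have hc₂0 : c₂ = 0 := hst₂.zero hS hgen hp₀ hnv hint
  subst hc₂0
  have hpp : p₂ = p₀ := Vx.unique v U hp₂ (by simpa using hp₀)
  subst hpp
  have hN1 : (N : ℚ) ≤ finrank κ T₂ + 1 := by exact_mod_cast hrank T₂ hT₂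
  simp only [Nat.cast_zero, sub_zero] at hT₂le hT₂s hT₂q
  have hstrong1 : Strong 𝒜 (e - a₁) ψ₁ := by
    by_contra hns
    have := hT₁s hns
    nlinarith
  have hstrong2 : Strong 𝒜 (a₁ - 0) ψ₂ := by
    by_contra hns
    have := hT₂s hns
    nlinarith
  -- the slopes are integral
  have hQν₁ : Q ∣ σ₁ * a₁ + c₁ := by
    obtain ⟨s, hs, hne⟩ := hst₁.eq
    exact hdiv _ _ fun h1 => hne ((v.ld_eq_zero (hst₁.le s hs a₁)).1 h1)
  have hQσ₁ : Q ∣ σ₁ := by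
    by_contra hndvd
    obtain ⟨q, hq, hqi⟩ := exists_mult (Nat.factorial_pos e) hndvd
    have := hT₁q q hq fun d x hx i hi => by
      rw [hψ₁c d x hx i] at hi
      have h1 := hdiv _ _ hi
      apply hqi
      have h2 : σ₁ * (i : ℤ) = σ₁ * ((d * a₁ + i : ℕ) : ℤ) + d * c₁ - d * (σ₁ * a₁ + c₁) := by
        push_cast
        ring
      rw [h2]
      exact dvd_sub h1 (dvd_mul_of_dvd_right hQν₁ _)
    nlinarith
  have hQσ₂ : Q ∣ σ₂ := by
    by_contra hndvd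
    obtain ⟨q, hq, hqi⟩ := exists_mult (Nat.factorial_pos e) hndvd
    have := hT₂q q hq fun d x hx i hi => by
      rw [hψ₂c d x hx i] at hi
      have h1 := hdiv _ _ hi
      apply hqi
      have h2 : σ₂ * (i : ℤ) = σ₂ * ((d * 0 + i : ℕ) : ℤ) + d * 0 := by
        push_cast
        ring
      rw [h2]
      exact h1
    nlinarith
  obtain ⟨s₁, hs₁⟩ := hQσ₁
  obtain ⟨s₂, hs₂⟩ := hQσ₂
  have hs₁pos : 1 ≤ s₁ := by
    have h1 : σ₁ ≠ 0 := fun h1 => ha₁pos.ne' (hσ₁a h1)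
    have h2 : 0 < Q * s₁ := by
      rw [← hs₁]
      omega
    exact (pos_iff_pos_of_mul_pos h2).1 hQ
  have hs₂neg : s₂ ≤ -1 := by
    by_contra hcon
    push Not at hcon
    apply hW0
    refine v.mono ?_ (hst₂.le.all v hS hgen U hx₁ 1)
    have h1 : 0 ≤ Q * s₂ := mul_nonneg hQ.le (by omega)
    rw [← hs₂] at h1
    push_cast
    linarith
  obtain ⟨t₁, ht₁⟩ : Q ∣ c₁ := by
    have h1 : c₁ = (σ₁ * a₁ + c₁) - Q * (s₁ * a₁) := by
      rw [hs₁]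
      ring
    rw [h1]
    exact dvd_sub hQν₁ (dvd_mul_right _ _)
  have hs12 : s₂ * a₁ = s₁ * a₁ + t₁ := by
    have h1 : Q * (s₂ * a₁) = Q * (s₁ * a₁ + t₁) := by
      have h2 := hc₂
      rw [hs₁, hs₂, ht₁] at h2
      linear_combination h2
    exact mul_left_cancel₀ hQ.ne' h1
  -- the lines in terms of the discrete valuation
  have hline₁ : ∀ d, ∀ x ∈ 𝒜 d, ∀ i : ℕ, V K ϖ (s₁ * i + d * t₁) ((U x).coeff i) := by
    intro d x hx i
    have h1 := hst₁.le.all v hS hgen U hx i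
    have h2 : σ₁ * i + d * c₁ = Q * (s₁ * i + d * t₁) := by
      rw [hs₁, ht₁]
      ring
    rw [h2] at h1
    exact (lvOf_W hϖ res hker hQ).1 h1
  have hline₂ : ∀ d, ∀ x ∈ 𝒜 d, ∀ i : ℕ, V K ϖ (s₂ * i + d * 0) ((U x).coeff i) := by
    intro d x hx i
    have h1 := hst₂.le.all v hS hgen U hx i
    have h2 : σ₂ * i + d * 0 = Q * (s₂ * i + d * 0) := by
      rw [hs₂]
      ring
    rw [h2] at h1
    exact (lvOf_W hϖ res hker hQ).1 h1
  have hψ₁r : ∀ d, ∀ x ∈ 𝒜 d, ∀ i : ℕ, (ψ₁ x).coeff i =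
      res (un K ϖ (s₁ * ((d * a₁ + i : ℕ) : ℤ) + d * t₁) ((U x).coeff (d * a₁ + i))) := by
    intro d x hx i
    rw [hψ₁c d x hx i]
    have h2 : σ₁ * ((d * a₁ + i : ℕ) : ℤ) + d * c₁ =
        Q * (s₁ * ((d * a₁ + i : ℕ) : ℤ) + d * t₁) := by
      rw [hs₁, ht₁]
      ring
    rw [h2]
    exact lvOf_ld hϖ res hker hQ
  have hψ₂r : ∀ d, ∀ x ∈ 𝒜 d, ∀ i : ℕ, (ψ₂ x).coeff i =
      res (un K ϖ (s₂ * ((d * 0 + i : ℕ) : ℤ) + d * 0) ((U x).coeff (d * 0 + i))) := by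
    intro d x hx i
    rw [hψ₂c d x hx i]
    have h2 : σ₂ * ((d * 0 + i : ℕ) : ℤ) + d * 0 =
        Q * (s₂ * ((d * 0 + i : ℕ) : ℤ) + d * 0) := by
      rw [hs₂]
      ring
    rw [h2]
    exact lvOf_ld hϖ res hker hQ
  -- all derivations act
  have hall : ∀ j, (D j).comp ι.toLinearMap ∈ T₂ := by
    intro j
    obtain ⟨η₁, hη₁, hη₁c⟩ := exists_pfield hϖ res hker (hD j) hline₁ (fun d x hx i hi => by
      refine V_of_le hϖ ?_ (hline₂ d x hx i)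
      have h1 : (i : ℤ) + 1 ≤ d * a₁ := by exact_mod_cast hi
      have h2 : (2 : ℤ) ≤ s₁ - s₂ := by omega
      nlinarith) hψ₁r
    obtain ⟨η₂, hη₂, hη₂c⟩ := exists_pfield hϖ res hker (hD j) hline₂ (fun d x hx i hi => by
      omega) hψ₂r
    have hη₁V : η₁ ∈ Vf 𝒜 (e - a₁) ψ₁ := by
      refine ⟨hη₁, fun d x hx => ?_⟩
      rw [natDegree_le_iff_coeff_eq_zero]
      intro i hi
      have h1 : d * e = d * a₁ + d * (e - a₁) := by
        rw [← mul_add, Nat.add_sub_cancel' ha₁.le]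
      rw [hη₁c d x hx i, coeff_eq_zero_of_natDegree_lt (lt_of_le_of_lt (hU.deg d x hx)
        (by omega)), un_zero hϖ, map_zero]
    have hη₂V : η₂ ∈ Vf 𝒜 (a₁ - 0) ψ₂ := by
      refine ⟨hη₂, fun d x hx => ?_⟩
      rw [natDegree_le_iff_coeff_eq_zero]
      intro i hi
      rw [Nat.sub_zero] at hi
      rw [hη₂c d x hx i]
      refine dl_eq_zero hϖ res hker (hD j) ?_
      refine V_of_le hϖ ?_ (hline₁ d x hx _)
      have h1 : (d : ℤ) * a₁ + 1 ≤ i := by exact_mod_cast hi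
      have h2 : (2 : ℤ) ≤ s₁ - s₂ := by omega
      push_cast
      nlinarith
    rw [hT₂p hstrong2, hT₁p hstrong1]
    refine ⟨η₂, ⟨hη₂V, ?_⟩, ?_⟩
    · change evE 𝒜 (a₁ - 0) η₂ ∈ prev 𝒜 (e - a₁) ψ₁ (TF J pe)
      refine ⟨η₁, ⟨hη₁V, ?_⟩, ?_⟩
      · change evE 𝒜 (e - a₁) η₁ ∈ TF J pe
        refine ⟨evE_mem 𝒜 hψ₁.deg hη₁V hψ₁.fin, fun x hx => ?_⟩
        obtain ⟨d, hd⟩ := hP.homogeneous x hx
        have h1 : d * a₁ + d * (e - a₁) = d * e := by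
          rw [← mul_add, Nat.add_sub_cancel' ha₁.le]
        have h2 := hU.mem d x hx hd
        rw [cInf] at h2
        rw [evE_apply 𝒜 hd, hη₁c d x hd, h1, h2, un_zero hϖ, map_zero]
      · refine lin_ext 𝒜 fun d x hx => ?_
        rw [ev0_apply, evE_apply 𝒜 hx, hη₁c d x hx, hη₂c d x hx]
        have h1 : d * 0 + d * (a₁ - 0) = d * a₁ + 0 := by
          rw [Nat.sub_zero]
          ring
        rw [h1]
        congr 2
        push_cast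
        linear_combination (-(d : ℤ)) * hs12
    · refine lin_ext 𝒜 fun d x hx => ?_
      rw [ev0_apply, hη₂c d x hx]
      have h1 : d * 0 + 0 = 0 := by ring
      rw [h1, hU0]
      have h2 : s₂ * ((0 : ℕ) : ℤ) + d * 0 = 0 := by
        push_cast
        ring
      rw [h2, un_algebraMap hϖ]
      rfl
  have hfinal : (N : ℚ) ≤ finrank κ T₂ := by exact_mod_cast rank_all ι hind hT₂ hall
  nlinarith

end main

end Vale.Agent.P280.H475
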