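import Mathlib

/-! P280, R3: a normal noetherian domain is the intersection of its localizations which are
discrete valuation rings. -/

namespace Vale.Agent.P280.H475

/-- (M-DVR) -/
theorem exists_dvr {R : Type} [CommRing R] [IsDomain R] [IsNoetherianRing R] [IsIntegrallyClosed R]
    {K : Type} [Field K] [Algebra R K] [IsFractionRing R K] {a : K}
    (ha : a ∉ Set.range (algebraMap R K)) :
    ∃ (P : Ideal R) (_ : P.IsPrime), IsDiscreteValuationRing (Localization.AtPrime P) ∧
      ∀ (r s : R), s ∉ P → a * algebraMap R K s ≠ algebraMap R K r := by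
  classical
  let N : Submodule R K := LinearMap.range (Algebra.linearMap R K)
  have hN : ∀ z : K, z ∈ N ↔ z ∈ Set.range (algebraMap R K) := fun z => Iff.rfl
  have hx : N.mkQ a ≠ 0 := by
    intro h
    rw [Submodule.mkQ_apply, Submodule.Quotient.mk_eq_zero, hN] at h
    exact ha h
  obtain ⟨P, hP, hle⟩ := exists_le_isAssociatedPrime_of_isNoetherianRing R (N.mkQ a) hx
  rw [isAssociatedPrime_iff] at hP
  obtain ⟨hPp, y, hy⟩ := hP
  obtain ⟨b, rfl⟩ := N.mkQ_surjective y
  have hPb : ∀ r : R, r ∈ P ↔ r • b ∈ Set.range (algebraMap R K) := fun r => by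
    rw [hy, Submodule.mem_colon_singleton, ← map_smul, Submodule.mem_bot, Submodule.mkQ_apply,
      Submodule.Quotient.mk_eq_zero, hN]
  refine ⟨P, hPp, ?_, fun r s hs h => hs (hle ?_)⟩
  swap
  · rw [Submodule.mem_colon_singleton, ← map_smul, Submodule.mem_bot, Submodule.mkQ_apply,
      Submodule.Quotient.mk_eq_zero, hN]
    exact ⟨r, by rw [← h, Algebra.smul_def, mul_comm]⟩
  let O := Localization.AtPrime P
  have hM : P.primeCompl ≤ nonZeroDivisors R := P.primeCompl_le_nonZeroDivisors
  have hu : ∀ s : P.primeCompl, IsUnit (algebraMap R K s) := fun s => by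
    rw [isUnit_iff_ne_zero]
    intro h
    exact nonZeroDivisors.ne_zero (hM s.2) ((IsFractionRing.injective R K) (by rw [h, map_zero]))
  let φ : O →+* K := IsLocalization.lift (M := P.primeCompl) (S := O) (g := algebraMap R K) hu
  let _ : Algebra O K := φ.toAlgebra
  have hφ : ∀ r : R, algebraMap O K (algebraMap R O r) = algebraMap R K r := fun r =>
    IsLocalization.lift_eq hu r
  have : IsScalarTower R O K := IsScalarTower.of_algebraMap_eq fun r => (hφ r).symm
  have : IsFractionRing O K :=
    IsFractionRing.isFractionRing_of_isDomain_of_isLocalization P.primeCompl O K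
  have : IsIntegrallyClosed O := isIntegrallyClosed_of_isLocalization O P.primeCompl hM
  have : IsNoetherianRing O := IsLocalization.isNoetherianRing P.primeCompl O inferInstance
  have hinj : Function.Injective (algebraMap O K) := IsFractionRing.injective O K
  -- `b` is not in `O`
  have hb : ∀ z : O, algebraMap O K z ≠ b := by
    intro z hz
    obtain ⟨r, s, hrs⟩ := IsLocalization.exists_mk'_eq P.primeCompl z
    apply s.2
    change (s : R) ∈ P
    rw [hPb]
    refine ⟨r, ?_⟩
    have h1 : z * algebraMap R O s = algebraMap R O r := by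
      rw [← hrs]
      exact IsLocalization.mk'_spec _ _ _
    rw [Algebra.smul_def, ← hz, ← hφ, ← hφ, ← map_mul, mul_comm, h1]
  -- `m b` is contained in `O`
  have hm : ∀ u ∈ IsLocalRing.maximalIdeal O, ∃ z : O, algebraMap O K z = algebraMap O K u * b := by
    intro u hu'
    obtain ⟨p, s, hps⟩ := IsLocalization.exists_mk'_eq P.primeCompl u
    have h1 : u * algebraMap R O s = algebraMap R O p := by
      rw [← hps]
      exact IsLocalization.mk'_spec _ _ _
    have hp : p ∈ P := by
      rw [← IsLocalization.AtPrime.to_map_mem_maximal_iff O P p, ← h1]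
      exact Ideal.mul_mem_right _ _ hu'
    obtain ⟨r, hr⟩ := (hPb p).1 hp
    refine ⟨IsLocalization.mk' O r s, ?_⟩
    have h2 : IsLocalization.mk' O r s * algebraMap R O s = algebraMap R O r :=
      IsLocalization.mk'_spec _ _ _
    have h3 : algebraMap R K s ≠ 0 := (hu s).ne_zero
    apply mul_right_cancel₀ h3
    rw [← hφ, ← map_mul, h2, hφ, hr, Algebra.smul_def, ← hφ, ← h1, map_mul]
    ring
  have hfield : IsLocalRing.maximalIdeal O ≠ ⊥ := by
    intro h
    obtain ⟨n, d, hd, hnd⟩ := IsFractionRing.div_surjective (A := O) b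
    have hd' : d ∉ IsLocalRing.maximalIdeal O := by
      rw [h, Ideal.mem_bot]
      exact nonZeroDivisors.ne_zero hd
    obtain ⟨e, he⟩ : ∃ e, d * e = 1 := by
      have h1 : IsUnit d := by
        by_contra h1
        exact hd' ((IsLocalRing.mem_maximalIdeal d).2 h1)
      exact h1.exists_right_inv
    have h2 : algebraMap O K d ≠ 0 := by
      intro h3
      exact nonZeroDivisors.ne_zero hd (hinj (by rw [h3, map_zero]))
    refine hb (n * e) ?_
    rw [← hnd, eq_div_iff h2, ← map_mul, mul_assoc, mul_comm e d, he, mul_one]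
  obtain ⟨u, hum, z, hzu, hz⟩ : ∃ u ∈ IsLocalRing.maximalIdeal O, ∃ z : O,
      algebraMap O K z = algebraMap O K u * b ∧ IsUnit z := by
    by_contra hcon
    push Not at hcon
    have h1 : ∀ u ∈ IsLocalRing.maximalIdeal O, ∃ z ∈ IsLocalRing.maximalIdeal O,
        algebraMap O K z = algebraMap O K u * b := by
      intro u hu'
      obtain ⟨z, hz⟩ := hm u hu'
      exact ⟨z, (IsLocalRing.mem_maximalIdeal z).2 (hcon u hu' z hz), hz⟩
    have h2 : IsIntegral O b := by
      refine isIntegral_of_smul_mem_submodule
        (Submodule.map (Algebra.linearMap O K) (IsLocalRing.maximalIdeal O)) ?_ ?_ b ?_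
      · intro h3
        apply hfield
        rw [eq_bot_iff]
        intro w hw
        have h4 : Algebra.linearMap O K w ∈
            Submodule.map (Algebra.linearMap O K) (IsLocalRing.maximalIdeal O) := ⟨w, hw, rfl⟩
        rw [h3, Submodule.mem_bot] at h4
        exact hinj (by rw [map_zero]; exact h4)
      · exact Submodule.FG.map _ (IsNoetherian.noetherian _)
      · rintro _ ⟨w, hw, rfl⟩
        obtain ⟨z, hz, hzw⟩ := h1 w hw
        refine ⟨z, hz, ?_⟩
        change algebraMap O K z = b * algebraMap O K w
        rw [hzw, mul_comm]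
    obtain ⟨w, hw⟩ := IsIntegrallyClosed.algebraMap_eq_of_integral h2
    exact hb w hw
  obtain ⟨e, he⟩ := hz.exists_right_inv
  -- the uniformizer
  have hπ : algebraMap O K (u * e) * b = 1 := by
    rw [map_mul, mul_right_comm, ← hzu, ← map_mul, he, map_one]
  have hprin : Submodule.IsPrincipal (IsLocalRing.maximalIdeal O) := by
    refine ⟨u * e, le_antisymm (fun v hv => ?_) ?_⟩
    · obtain ⟨c, hc⟩ := hm v hv
      rw [Ideal.submodule_span_eq, Ideal.mem_span_singleton']
      refine ⟨c, hinj ?_⟩
      rw [map_mul, hc, mul_assoc, mul_comm b, hπ, mul_one]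
    · rw [Ideal.submodule_span_eq, Ideal.span_singleton_le_iff_mem]
      exact Ideal.mul_mem_right _ _ hum
  have hnf : ¬ IsField O := by
    intro h
    exact hfield (IsLocalRing.isField_iff_maximalIdeal_eq.1 h)
  exact ((IsDiscreteValuationRing.TFAE O hnf).out 0 4).2 hprin

end Vale.Agent.P280.H475
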