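import Vale.Agent.P280.S.Defs

/-!
P280, Theorem F (unipotent version): definitions. `R = ⊕_d R_d` is the section ring of a
projectively normal projective manifold `X`; curves are graded algebra homomorphisms.
-/

open Polynomial

namespace Vale.Agent.P280.H475

open Vale.Agent.P280.S

section statement

variable {R : Type} [CommRing R] [Algebra ℂ R]

/-- The velocity of the curve `φ` at the parameter `a`, in the direction of the `i`-th
coordinate: a tangent vector of the cone at the point `pt φ a`. -/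
noncomputable def vel (φ : R →ₐ[ℂ] MvPolynomial (Fin 2) ℂ) (a : Fin 2 → ℂ) (i : Fin 2) :
    R →ₗ[ℂ] ℂ :=
  (MvPolynomial.aeval a).toLinearMap ∘ₗ
    ((MvPolynomial.pderiv i : Derivation ℂ (MvPolynomial (Fin 2) ℂ) (MvPolynomial (Fin 2) ℂ)) :
      MvPolynomial (Fin 2) ℂ →ₗ[ℂ] MvPolynomial (Fin 2) ℂ) ∘ₗ φ.toLinearMap

/-- The space `H⁰(ℙ¹, f^* T_X(-1))` for the curve `f` given by `φ`, of degree `e`: the vector
fields along `φ` which vanish at `(1 : 0)`. -/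
def fieldsZero (𝒜 : ℕ → Submodule ℂ R) (e : ℕ) (φ : R →ₐ[ℂ] MvPolynomial (Fin 2) ℂ) :
    Submodule ℂ (R →ₗ[ℂ] MvPolynomial (Fin 2) ℂ) where
  carrier := {δ | (∀ x y : R, δ (x * y) = φ x * δ y + φ y * δ x) ∧
    (∀ d : ℕ, ∀ h ∈ 𝒜 d, (δ h).IsHomogeneous (d * e)) ∧
    ∀ h : R, MvPolynomial.aeval ![(1 : ℂ), 0] (δ h) = 0}
  add_mem' := by
    rintro a b ⟨h1, h2, h3⟩ ⟨h1', h2', h3'⟩
    refine ⟨fun x y => ?_, fun d h hh => (h2 d h hh).add (h2' d h hh), fun h => ?_⟩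
    · rw [LinearMap.add_apply, LinearMap.add_apply, LinearMap.add_apply, h1, h1']
      ring
    · rw [LinearMap.add_apply, map_add, h3, h3', add_zero]
  zero_mem' := ⟨fun x y => by simp, fun d h _ => by
    rw [LinearMap.zero_apply]
    exact MvPolynomial.isHomogeneous_zero _ _ _, fun h => by simp⟩
  smul_mem' := by
    rintro c a ⟨h1, h2, h3⟩
    refine ⟨fun x y => ?_, fun d h hh => ?_, fun h => ?_⟩
    · rw [LinearMap.smul_apply, LinearMap.smul_apply, LinearMap.smul_apply, h1, smul_add,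
        mul_smul_comm, mul_smul_comm]
    · rw [LinearMap.smul_apply, MvPolynomial.smul_eq_C_mul]
      have := (MvPolynomial.isHomogeneous_C (Fin 2) c).mul (h2 d h hh)
      rwa [zero_add] at this
    · rw [LinearMap.smul_apply, map_smul, h3, smul_zero]

/-- `h⁰(ℙ¹, f^* T_X(-1)) = r · deg f` for all `f : ℙ¹ → X`. If the tangent bundle is nef, this
number is `- K_X · f`. -/
def HasIndex (𝒜 : ℕ → Submodule ℂ R) (r : ℚ) : Prop :=
  ∀ (e : ℕ) (φ : R →ₐ[ℂ] MvPolynomial (Fin 2) ℂ), IsCurve 𝒜 e φ →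
    (Module.finrank ℂ (fieldsZero 𝒜 e φ) : ℚ) = r * e

/-- `y` is a point of the closed subscheme `F` of `X` with equations `J`. -/
def OnF (𝒜 : ℕ → Submodule ℂ R) (J : Set R) (y : R →ₐ[ℂ] ℂ) : Prop :=
  ¬ IsVertex 𝒜 y ∧ ∀ h ∈ J, y h = 0

/-- The tangent space at the point `y` of the cone over the closed subscheme with equations
`J`. -/
def tangentSpace (J : Set R) (y : R →ₐ[ℂ] ℂ) : Submodule ℂ (R →ₗ[ℂ] ℂ) where
  carrier := {v | IsTangent y v ∧ ∀ h ∈ J, v h = 0}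
  add_mem' := by
    rintro a b ⟨h1, h2⟩ ⟨h1', h2'⟩
    refine ⟨fun x y => ?_, fun h hh => ?_⟩
    · rw [LinearMap.add_apply, LinearMap.add_apply, LinearMap.add_apply, h1, h1']
      ring
    · rw [LinearMap.add_apply, h2 h hh, h2' h hh, add_zero]
  zero_mem' := ⟨fun x y => by simp, fun h _ => rfl⟩
  smul_mem' := by
    rintro c a ⟨h1, h2⟩
    refine ⟨fun x y => ?_, fun h hh => ?_⟩
    · rw [LinearMap.smul_apply, LinearMap.smul_apply, LinearMap.smul_apply, h1, smul_add,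
        smul_eq_mul, smul_eq_mul, smul_eq_mul, smul_eq_mul]
      ring
    · rw [LinearMap.smul_apply, h2 h hh, smul_zero]

/-- A local expression `(∑ a_i dc_i) / b` for a covector field. -/
structure Rep (R : Type) where
  /-- number of summands -/
  n : ℕ
  /-- degree of the denominator -/
  m : ℕ
  /-- denominator -/
  b : R
  /-- degrees of the coefficients -/
  k : Fin n → ℕ
  /-- coefficients -/
  a : Fin n → R
  /-- degrees of the functions -/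
  l : Fin n → ℕ
  /-- functions -/
  c : Fin n → R

/-- The expression is homogeneous of degree zero. -/
def Rep.IsHom (𝒜 : ℕ → Submodule ℂ R) (ρ : Rep R) : Prop :=
  ρ.b ∈ 𝒜 ρ.m ∧ ∀ i, ρ.a i ∈ 𝒜 (ρ.k i) ∧ ρ.c i ∈ 𝒜 (ρ.l i) ∧ ρ.k i + ρ.l i = ρ.m

/-- The expression is valid for `θ` on `F`. -/
def Rep.IsValid (𝒜 : ℕ → Submodule ℂ R) (J : Set R) (θ : (R →ₐ[ℂ] ℂ) → (R →ₗ[ℂ] ℂ) → ℂ)
    (ρ : Rep R) : Prop :=
  ρ.IsHom 𝒜 ∧ ∀ y : R →ₐ[ℂ] ℂ, OnF 𝒜 J y → ∀ v : R →ₗ[ℂ] ℂ, IsTangent y v →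
    y ρ.b * θ y v = ∑ i, y (ρ.a i) * v (ρ.c i)

/-- `θ` is a section of `Ω_X` over `F`: at each point `y` of `F` it has a local expression with a
denominator which does not vanish at `y`, and it vanishes on the Euler vectors. -/
structure IsCovectorField (𝒜 : ℕ → Submodule ℂ R) (J : Set R)
    (θ : (R →ₐ[ℂ] ℂ) → (R →ₗ[ℂ] ℂ) → ℂ) : Prop where
  /-- local expressions -/
  regular : ∀ y : R →ₐ[ℂ] ℂ, OnF 𝒜 J y → ∃ ρ : Rep R, ρ.IsValid 𝒜 J θ ∧ y ρ.b ≠ 0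
  /-- it is a covector field on `X` and not only on the cone -/
  euler : ∀ y : R →ₐ[ℂ] ℂ, OnF 𝒜 J y → ∀ v : R →ₗ[ℂ] ℂ,
    (∀ d : ℕ, ∀ h ∈ 𝒜 d, v h = d * y h) → θ y v = 0

/-- `φ` is a rational curve `f` of degree `e` with `f(0) = z`, `f(∞) ∈ F` and
`θ(f'(∞)) = 1`. -/
def IsArc (𝒜 : ℕ → Submodule ℂ R) (J : Set R) (θ : (R →ₐ[ℂ] ℂ) → (R →ₗ[ℂ] ℂ) → ℂ) (e : ℕ)
    (z : R →ₐ[ℂ] ℂ) (φ : R →ₐ[ℂ] MvPolynomial (Fin 2) ℂ) : Prop :=
  IsCurve 𝒜 e φ ∧ pt φ ![0, 1] = z ∧ (∀ h ∈ J, pt φ ![1, 0] h = 0) ∧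
    θ (pt φ ![1, 0]) (vel φ ![1, 0] 1) = 1

/-- `(F, θ)` is a null pair of degree `e`: `F` is the closed subscheme with equations `J`, its
tangent spaces have dimension at most `d₀`, `θ` is a covector field along `F`, the rational curves
of degree less than `e` through points of `F` are `θ`-null, and for all `z` with `z g ≠ 0` there is
exactly one rational curve `f` of degree `e` with `f(0) = z`, `f(∞) ∈ F` and `θ(f'(∞)) = 1`. -/
structure IsNullPair (𝒜 : ℕ → Submodule ℂ R) (J : Set R)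
    (θ : (R →ₐ[ℂ] ℂ) → (R →ₗ[ℂ] ℂ) → ℂ) (e d₀ : ℕ) (g : R) : Prop where
  /-- `F` is a closed subscheme of `X`. -/
  homogeneous : ∀ h ∈ J, ∃ d : ℕ, h ∈ 𝒜 d
  /-- The dimension of the tangent spaces of `F` is at most `d₀`. -/
  dim : ∀ y : R →ₐ[ℂ] ℂ, OnF 𝒜 J y → Module.finrank ℂ (tangentSpace J y) ≤ d₀ + 1
  /-- `θ` is a covector field along `F`. -/
  covector : IsCovectorField 𝒜 J θ
  /-- The curves of degree less than `e` are null. -/
  null : ∀ (e' : ℕ) (φ : R →ₐ[ℂ] MvPolynomial (Fin 2) ℂ), e' < e → IsCurve 𝒜 e' φ →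
    (∀ h ∈ J, pt φ ![1, 0] h = 0) → θ (pt φ ![1, 0]) (vel φ ![1, 0] 1) = 0
  /-- There is exactly one curve of degree `e` through the general point. -/
  unique : ∀ z : R →ₐ[ℂ] ℂ, z g ≠ 0 → ∃! φ : R →ₐ[ℂ] MvPolynomial (Fin 2) ℂ, IsArc 𝒜 J θ e z φ

end statement

section weak

variable {R : Type} [CommRing R] [Algebra ℂ R]

/-- The coefficient at infinity of the curve. -/
noncomputable def cInf {k : Type} [Field k] [Algebra ℂ k] (e : ℕ) (ψ : R →ₐ[ℂ] k[X]) (d : ℕ)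
    (h : R) : k := (ψ h).coeff (d * e)

/-- The velocity at infinity of the curve. -/
noncomputable def vInf {k : Type} [Field k] [Algebra ℂ k] (e : ℕ) (ψ : R →ₐ[ℂ] k[X]) (d : ℕ)
    (h : R) : k := (X * ψ h).coeff (d * e)

/-- A weak curve of degree `e` over `k` which starts at `z`, ends in `F`, not at the vertex. -/
structure WSol (𝒜 : ℕ → Submodule ℂ R) (J : Set R) (e : ℕ) {k : Type} [Field k]
    [Algebra ℂ k] (z : R →ₐ[ℂ] k) (ψ : R →ₐ[ℂ] k[X]) : Prop where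
  deg : Deg 𝒜 e ψ
  start : ∀ h : R, (ψ h).coeff 0 = z h
  nv : ∃ h ∈ 𝒜 1, cInf e ψ 1 h ≠ 0
  mem : ∀ d : ℕ, ∀ h ∈ J, h ∈ 𝒜 d → cInf e ψ d h = 0

/-- The value of the local expression on the velocity at infinity. -/
noncomputable def Rep.val {k : Type} [Field k] [Algebra ℂ k] (ρ : Rep R) (e : ℕ)
    (ψ : R →ₐ[ℂ] k[X]) : k :=
  ∑ i, cInf e ψ (ρ.k i) (ρ.a i) * vInf e ψ (ρ.l i) (ρ.c i)

end weak

end Vale.Agent.P280.H475
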