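import Vale.Agent.P280.H60.DerA

/-! P280, R3: derivations of a local domain with values in a field containing its residue
field. -/

open TensorProduct

namespace Vale.Agent.P280.H475

open Vale.Agent.P280.H60

theorem exists_derivations_local {O : Type} [CommRing O] [IsDomain O] [IsLocalRing O]
    [Algebra ℂ O] [Module.Finite O Ω[O⁄ℂ]] {N : ℕ} {x : Fin N → O}
    (hx : AlgebraicIndependent ℂ x) {κ : Type} [Field κ] [Algebra ℂ κ] (res : O →ₐ[ℂ] κ)
    (hres : RingHom.ker res = IsLocalRing.maximalIdeal O) :
    ∃ D : Fin N → (O →ₗ[ℂ] κ), (∀ i x y, D i (x * y) = res x * D i y + res y * D i x) ∧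
      ∀ c : Fin N → κ, (∀ x, ∑ i, c i * D i x = 0) → ∀ i, c i = 0 := by
  classical
  let k := IsLocalRing.ResidueField O
  let b := Module.finBasis k (k ⊗[O] Ω[O⁄ℂ])
  have h1 : ∀ i, ∃ m : Ω[O⁄ℂ], (1 : k) ⊗ₜ[O] m = b i := fun i => by
    obtain ⟨m, hm⟩ := TensorProduct.mk_surjective O Ω[O⁄ℂ] k Ideal.Quotient.mk_surjective (b i)
    exact ⟨m, hm⟩
  choose f hf using h1
  have h2 := IsLocalRing.span_eq_top_of_tmul_eq_basis f b hf
  have h3 : N ≤ Fintype.card (Fin (Module.finrank k (k ⊗[O] Ω[O⁄ℂ]))) := le_card_of_span hx f h2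
  rw [Fintype.card_fin] at h3
  let e : Fin N → Fin (Module.finrank k (k ⊗[O] Ω[O⁄ℂ])) := Fin.castLE h3
  have he : Function.Injective e := Fin.castLE_injective h3
  -- the coordinates
  let l : Fin N → (Ω[O⁄ℂ] →ₗ[O] k) := fun i =>
    ((b.coord (e i)).restrictScalars O).comp (TensorProduct.mk O k Ω[O⁄ℂ] 1)
  have hl : ∀ i j, l i (f (e j)) = if i = j then 1 else 0 := fun i j => by
    change b.coord (e i) ((1 : k) ⊗ₜ[O] f (e j)) = _
    rw [hf, Module.Basis.coord_apply, Module.Basis.repr_self, Finsupp.single_apply]
    by_cases hij : i = j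
    · rw [if_pos hij, if_pos (by rw [hij])]
    · rw [if_neg hij, if_neg (fun h => hij (he h).symm)]
  let σ : k →+* κ := Ideal.Quotient.lift (IsLocalRing.maximalIdeal O) (res : O →+* κ)
    (fun a ha => by rw [← hres] at ha; exact ha)
  have hσ : ∀ a : O, σ (algebraMap O k a) = res a := fun a => rfl
  have hσ' : ∀ (a : O) (y : k), σ (a • y) = res a * σ y := fun a y => by
    rw [Algebra.smul_def, map_mul, hσ]
  have hres0 : ∀ c : ℂ, res (algebraMap ℂ O c) = algebraMap ℂ κ c := fun c => res.commutes c
  refine ⟨fun i =>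
    { toFun := fun a => σ (l i (KaehlerDifferential.D ℂ O a))
      map_add' := fun a b => by rw [map_add, map_add, map_add]
      map_smul' := fun c a => by
        rw [Derivation.map_smul, ← algebraMap_smul O c (KaehlerDifferential.D ℂ O a), map_smul,
          hσ', hres0, RingHom.id_apply, Algebra.smul_def] }, fun i x y => ?_, fun c hc j => ?_⟩
  · change σ (l i (KaehlerDifferential.D ℂ O (x * y))) =
      res x * σ (l i (KaehlerDifferential.D ℂ O y)) + res y * σ (l i (KaehlerDifferential.D ℂ O x))
    rw [Derivation.leibniz, map_add, map_add, (l i).map_smul x, (l i).map_smul y, hσ', hσ']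
  · have h4 : ∀ m : Ω[O⁄ℂ], ∑ i, c i * σ (l i m) = 0 := by
      intro m
      have hm : m ∈ Submodule.span O (Set.range (KaehlerDifferential.D ℂ O)) := by
        rw [KaehlerDifferential.span_range_derivation]
        exact Submodule.mem_top
      induction hm using Submodule.span_induction with
      | mem m hm =>
        obtain ⟨a, rfl⟩ := hm
        exact hc a
      | zero => simp
      | add a b _ _ ha hb =>
        simp only [map_add, mul_add, Finset.sum_add_distrib]
        rw [ha, hb, add_zero]
      | smul r a _ ha =>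
        have h5 : ∀ i, c i * σ (l i (r • a)) = res r * (c i * σ (l i a)) := fun i => by
          rw [map_smul, hσ']
          ring
        simp only [h5]
        rw [← Finset.mul_sum, ha, mul_zero]
    have h6 := h4 (f (e j))
    simp only [hl] at h6
    rw [Finset.sum_eq_single j] at h6
    · rwa [if_pos rfl, map_one, mul_one] at h6
    · intro i _ hij
      rw [if_neg hij, map_zero, mul_zero]
    · intro h7
      exact absurd (Finset.mem_univ j) h7

/-- (M-DER). -/
theorem exists_derivations {R : Type} [CommRing R] [IsDomain R] [Algebra ℂ R]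
    [Algebra.FiniteType ℂ R] {N : ℕ} (hN : (N : Cardinal) ≤ Algebra.trdeg ℂ R)
    (P : Ideal R) [P.IsPrime] [IsDiscreteValuationRing (Localization.AtPrime P)]
    {κ : Type} [Field κ] [Algebra ℂ κ] (res : Localization.AtPrime P →ₐ[ℂ] κ)
    (hres : RingHom.ker res = IsLocalRing.maximalIdeal (Localization.AtPrime P))
    (hsurj : Function.Surjective res) :
    ∃ D : Fin N → (Localization.AtPrime P →ₗ[ℂ] κ),
      (∀ i x y, D i (x * y) = res x * D i y + res y * D i x) ∧
      LinearIndependent κ fun i : Fin N =>
        (D i).comp (Algebra.linearMap R (Localization.AtPrime P) |>.restrictScalars ℂ) := by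
  obtain ⟨x, hx⟩ := exists_alg_family hN
  have hE : Algebra.EssFiniteType ℂ (Localization.AtPrime P) := by
    have h1 : Algebra.EssFiniteType R (Localization.AtPrime P) :=
      Algebra.EssFiniteType.of_isLocalization _ P.primeCompl
    exact Algebra.EssFiniteType.comp ℂ R _
  have hinj : Function.Injective (algebraMap R (Localization.AtPrime P)) :=
    IsLocalization.injective _ P.primeCompl_le_nonZeroDivisors
  let j : R →ₐ[ℂ] Localization.AtPrime P := IsScalarTower.toAlgHom ℂ R _
  have hx' : AlgebraicIndependent ℂ (j ∘ x) := hx.map' (f := j) hinj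
  obtain ⟨D, hD, hD'⟩ := exists_derivations_local hx' res hres
  refine ⟨D, hD, ?_⟩
  rw [Fintype.linearIndependent_iff]
  intro c hc
  apply hD'
  intro y
  have h0 : ∀ r : R, ∑ i, c i * D i (algebraMap R (Localization.AtPrime P) r) = 0 := fun r => by
    have h1 := LinearMap.congr_fun hc r
    rw [LinearMap.sum_apply] at h1
    exact h1
  obtain ⟨r, s, hrs⟩ := IsLocalization.exists_mk'_eq P.primeCompl y
  have h1 : y * algebraMap R (Localization.AtPrime P) s = algebraMap R _ r := by
    rw [← hrs]
    exact IsLocalization.mk'_spec _ _ _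
  have h2 := h0 r
  rw [← h1] at h2
  have h3 : ∀ i, c i * D i (y * algebraMap R (Localization.AtPrime P) s) =
      res y * (c i * D i (algebraMap R (Localization.AtPrime P) s)) +
        res (algebraMap R (Localization.AtPrime P) s) * (c i * D i y) := fun i => by
    rw [hD]
    ring
  simp only [h3] at h2
  rw [Finset.sum_add_distrib, ← Finset.mul_sum, ← Finset.mul_sum, h0, mul_zero, zero_add] at h2
  rcases mul_eq_zero.mp h2 with h4 | h4
  · exfalso
    have h5 : algebraMap R (Localization.AtPrime P) s ∈
        IsLocalRing.maximalIdeal (Localization.AtPrime P) := by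
      rw [← hres]
      exact h4
    have h6 : IsUnit (algebraMap R (Localization.AtPrime P) s) := IsLocalization.map_units _ s
    exact (IsLocalRing.mem_maximalIdeal _).mp h5 h6
  · exact h4

end Vale.Agent.P280.H475
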