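import Vale.Agent.P280.H475.Lin

/-! P280, Theorem F: the values of vector fields at the two ends of a weak curve. -/

open DirectSum Polynomial

namespace Vale.Agent.P280.H475

open Vale.Agent.P280.S

section
variable {R : Type} [CommRing R] [Algebra ℂ R] (𝒜 : ℕ → Submodule ℂ R) [GradedAlgebra 𝒜]
  {k : Type} [Field k] [Algebra ℂ k]

/-- The value at the start. -/
noncomputable def ev0 : (R →ₗ[ℂ] k[X]) →ₗ[k] (R →ₗ[ℂ] k) where
  toFun η := ((lcoeff k 0).restrictScalars ℂ).comp η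
  map_add' _ _ := LinearMap.ext fun _ => coeff_add _ _ _
  map_smul' c η := LinearMap.ext fun h => coeff_smul c (η h) 0

theorem ev0_apply (η : R →ₗ[ℂ] k[X]) (h : R) : ev0 η h = (η h).coeff 0 := rfl

/-- The value at infinity. -/
noncomputable def evE (e : ℕ) : (R →ₗ[ℂ] k[X]) →ₗ[k] (R →ₗ[ℂ] k) where
  toFun η := mkLin 𝒜 fun d => ((lcoeff k (d * e)).restrictScalars ℂ).comp η
  map_add' η η' := lin_ext 𝒜 fun d h hh => by
    rw [mkLin_apply 𝒜 hh, LinearMap.add_apply, mkLin_apply 𝒜 hh, mkLin_apply 𝒜 hh]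
    exact coeff_add _ _ _
  map_smul' c η := lin_ext 𝒜 fun d h hh => by
    rw [RingHom.id_apply, LinearMap.smul_apply, mkLin_apply 𝒜 hh, mkLin_apply 𝒜 hh]
    exact coeff_smul c (η h) _

theorem evE_apply {e : ℕ} {η : R →ₗ[ℂ] k[X]} {d : ℕ} {h : R} (hh : h ∈ 𝒜 d) :
    evE 𝒜 e η h = (η h).coeff (d * e) := mkLin_apply 𝒜 hh

omit [GradedAlgebra 𝒜] in
theorem ev0_mem {e : ℕ} {ψ : R →ₐ[ℂ] k[X]} {η : R →ₗ[ℂ] k[X]} (hη : η ∈ Vf 𝒜 e ψ)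
    {p : R →ₐ[ℂ] k} (hp : ∀ h, (ψ h).coeff 0 = p h) : ev0 η ∈ Tan p := by
  intro x y
  rw [ev0_apply, ev0_apply, ev0_apply, hη.1, coeff_add, mul_coeff_zero, mul_coeff_zero, hp, hp]

theorem evE_mem {e : ℕ} {ψ : R →ₐ[ℂ] k[X]} (hd : Deg 𝒜 e ψ) {η : R →ₗ[ℂ] k[X]}
    (hη : η ∈ Vf 𝒜 e ψ) {p : R →ₐ[ℂ] k} (hp : ∀ d, ∀ h ∈ 𝒜 d, (ψ h).coeff (d * e) = p h) :
    evE 𝒜 e η ∈ Tan p :=
  leibniz_of_hom 𝒜 fun i j a ha b hb => by
    rw [evE_apply 𝒜 (SetLike.mul_mem_graded ha hb), evE_apply 𝒜 ha, evE_apply 𝒜 hb, hη.1,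
      coeff_add, add_mul, coeff_mul_add_eq_of_natDegree_le (hd i a ha) (hη.2 j b hb),
      add_comm (i * e), coeff_mul_add_eq_of_natDegree_le (hd j b hb) (hη.2 i a ha), hp i a ha,
      hp j b hb]

/-- The Euler field along `ψ`. -/
noncomputable def fE (ψ : R →ₐ[ℂ] k[X]) : R →ₗ[ℂ] k[X] :=
  mkLin 𝒜 fun d => (d : k) • ψ.toLinearMap

theorem fE_apply {ψ : R →ₐ[ℂ] k[X]} {d : ℕ} {h : R} (hh : h ∈ 𝒜 d) :
    fE 𝒜 ψ h = (d : k) • ψ h := mkLin_apply 𝒜 hh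

theorem fE_mem {e : ℕ} {ψ : R →ₐ[ℂ] k[X]} (hd : Deg 𝒜 e ψ) : fE 𝒜 ψ ∈ Vf 𝒜 e ψ := by
  refine ⟨leibniz_of_hom 𝒜 fun i j a ha b hb => ?_, fun d h hh => ?_⟩
  · rw [fE_apply 𝒜 (SetLike.mul_mem_graded ha hb), fE_apply 𝒜 ha, fE_apply 𝒜 hb, map_mul,
      mul_smul_comm, mul_smul_comm, mul_comm (ψ b), ← add_smul, add_comm (j : k)]
    push_cast
    rfl
  · rw [fE_apply 𝒜 hh]
    exact (natDegree_smul_le _ _).trans (hd d h hh)

theorem ev0_fE {ψ : R →ₐ[ℂ] k[X]} {p : R →ₐ[ℂ] k} (hp : ∀ h, (ψ h).coeff 0 = p h) :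
    ev0 (fE 𝒜 ψ) = eu 𝒜 p := lin_ext 𝒜 fun d h hh => by
  rw [ev0_apply, fE_apply 𝒜 hh, eu_apply 𝒜 hh, coeff_smul, hp, smul_eq_mul]

theorem evE_fE {e : ℕ} {ψ : R →ₐ[ℂ] k[X]} {p : R →ₐ[ℂ] k}
    (hp : ∀ d, ∀ h ∈ 𝒜 d, (ψ h).coeff (d * e) = p h) : evE 𝒜 e (fE 𝒜 ψ) = eu 𝒜 p :=
  lin_ext 𝒜 fun d h hh => by
    rw [evE_apply 𝒜 hh, fE_apply 𝒜 hh, eu_apply 𝒜 hh, coeff_smul, hp d h hh, smul_eq_mul]

/-- The field `t d/dt` along `ψ`. -/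
noncomputable def fX (ψ : R →ₐ[ℂ] k[X]) : R →ₗ[ℂ] k[X] where
  toFun h := X * derivative (ψ h)
  map_add' x y := by rw [map_add, map_add, mul_add]
  map_smul' c x := by
    rw [map_smul, RingHom.id_apply, derivative_smul, mul_smul_comm]

omit [GradedAlgebra 𝒜] in
theorem fX_apply (ψ : R →ₐ[ℂ] k[X]) (h : R) : fX ψ h = X * derivative (ψ h) := rfl

omit [Algebra ℂ k] in
theorem coeff_X_derivative (p : k[X]) (n : ℕ) : (X * derivative p).coeff n = n * p.coeff n := by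
  cases n with
  | zero => simp
  | succ n =>
    rw [coeff_X_mul, coeff_derivative]
    push_cast
    ring

omit [Algebra ℂ k] in
theorem natDegree_X_derivative (p : k[X]) : (X * derivative p).natDegree ≤ p.natDegree := by
  refine natDegree_le_iff_coeff_eq_zero.2 fun n hn => ?_
  rw [coeff_X_derivative, coeff_eq_zero_of_natDegree_lt hn, mul_zero]

omit [GradedAlgebra 𝒜] in
theorem fX_mem {e : ℕ} {ψ : R →ₐ[ℂ] k[X]} (hd : Deg 𝒜 e ψ) : fX ψ ∈ Vf 𝒜 e ψ := by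
  refine ⟨fun x y => ?_, fun d h hh => ?_⟩
  · rw [fX_apply, fX_apply, fX_apply, map_mul, derivative_mul]
    ring
  · exact (natDegree_X_derivative _).trans (hd d h hh)

omit [GradedAlgebra 𝒜] in
theorem ev0_fX (ψ : R →ₐ[ℂ] k[X]) : ev0 (fX ψ) = 0 := LinearMap.ext fun h => by
  rw [ev0_apply, fX_apply, coeff_X_derivative, Nat.cast_zero, zero_mul, LinearMap.zero_apply]

theorem evE_fX {e : ℕ} {ψ : R →ₐ[ℂ] k[X]} {p : R →ₐ[ℂ] k}
    (hp : ∀ d, ∀ h ∈ 𝒜 d, (ψ h).coeff (d * e) = p h) :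
    evE 𝒜 e (fX ψ) = (e : k) • eu 𝒜 p := lin_ext 𝒜 fun d h hh => by
  rw [evE_apply 𝒜 hh, fX_apply, coeff_X_derivative, LinearMap.smul_apply, eu_apply 𝒜 hh,
    hp d h hh, smul_eq_mul]
  push_cast
  ring

/-- The field `t (t d/dt - e E)` along `ψ`. -/
noncomputable def fY (e : ℕ) (ψ : R →ₐ[ℂ] k[X]) : R →ₗ[ℂ] k[X] where
  toFun h := X * (fX ψ h - (e : k) • fE 𝒜 ψ h)
  map_add' x y := by rw [map_add, map_add, smul_add]; ring
  map_smul' c x := by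
    rw [map_smul, map_smul, RingHom.id_apply, smul_comm, ← smul_sub, mul_smul_comm]

theorem fY_apply {e : ℕ} {ψ : R →ₐ[ℂ] k[X]} {d : ℕ} {h : R} (hh : h ∈ 𝒜 d) :
    fY 𝒜 e ψ h = X * (X * derivative (ψ h) - ((d * e : ℕ) : k) • ψ h) := by
  change X * (fX ψ h - (e : k) • fE 𝒜 ψ h) = _
  rw [fX_apply, fE_apply 𝒜 hh, smul_smul]
  push_cast
  rw [mul_comm (e : k)]

theorem coeff_fY {e : ℕ} {ψ : R →ₐ[ℂ] k[X]} {d : ℕ} {h : R} (hh : h ∈ 𝒜 d) (n : ℕ) :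
    (fY 𝒜 e ψ h).coeff (n + 1) = ((n : k) - ((d * e : ℕ) : k)) * (ψ h).coeff n := by
  rw [fY_apply 𝒜 hh, coeff_X_mul, coeff_sub, coeff_X_derivative, coeff_smul, smul_eq_mul, sub_mul]

theorem coeff_fY_zero {e : ℕ} {ψ : R →ₐ[ℂ] k[X]} (h : R) :
    (fY 𝒜 e ψ h).coeff 0 = 0 := by
  change (X * (fX ψ h - (e : k) • fE 𝒜 ψ h)).coeff 0 = 0
  rw [coeff_X_mul_zero]

theorem fY_mem {e : ℕ} {ψ : R →ₐ[ℂ] k[X]} (hd : Deg 𝒜 e ψ) : fY 𝒜 e ψ ∈ Vf 𝒜 e ψ := by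
  refine ⟨fun x y => ?_, fun d h hh => ?_⟩
  · change X * (fX ψ (x * y) - (e : k) • fE 𝒜 ψ (x * y)) =
      ψ x * (X * (fX ψ y - (e : k) • fE 𝒜 ψ y)) + ψ y * (X * (fX ψ x - (e : k) • fE 𝒜 ψ x))
    rw [(fX_mem 𝒜 hd).1, (fE_mem 𝒜 hd).1]
    simp only [smul_eq_C_mul]
    ring
  · refine natDegree_le_iff_coeff_eq_zero.2 fun n hn => ?_
    obtain ⟨m, rfl⟩ : ∃ m, n = m + 1 := ⟨n - 1, by omega⟩
    rw [coeff_fY 𝒜 hh]
    rcases (Nat.lt_succ_iff.1 hn).eq_or_lt with h1 | h1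
    · rw [h1, sub_self, zero_mul]
    · rw [coeff_eq_zero_of_natDegree_lt (lt_of_le_of_lt (hd d h hh) h1), mul_zero]

theorem ev0_fY {e : ℕ} (ψ : R →ₐ[ℂ] k[X]) : ev0 (fY 𝒜 e ψ) = 0 := LinearMap.ext fun h => by
  rw [ev0_apply, coeff_fY_zero, LinearMap.zero_apply]

/-- The derivation of the constants, applied to the coefficients. -/
noncomputable def mapD (D : Derivation ℂ k k) (p : k[X]) : k[X] :=
  ∑ n ∈ p.support, monomial n (D (p.coeff n))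

theorem coeff_mapD (D : Derivation ℂ k k) (p : k[X]) (n : ℕ) :
    (mapD D p).coeff n = D (p.coeff n) := by
  rw [mapD, finsetSum_coeff]
  simp only [coeff_monomial]
  rw [Finset.sum_ite_eq']
  split_ifs with h
  · rfl
  · rw [notMem_support_iff.1 h, map_zero]

/-- The field along `ψ` given by a derivation of the constants. -/
noncomputable def fD (D : Derivation ℂ k k) (ψ : R →ₐ[ℂ] k[X]) : R →ₗ[ℂ] k[X] where
  toFun h := mapD D (ψ h)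
  map_add' x y := Polynomial.ext fun n => by
    rw [coeff_add, coeff_mapD, coeff_mapD, coeff_mapD, map_add, coeff_add, map_add]
  map_smul' c x := Polynomial.ext fun n => by
    rw [RingHom.id_apply, coeff_smul, coeff_mapD, coeff_mapD, map_smul, coeff_smul, D.map_smul]

theorem coeff_fD (D : Derivation ℂ k k) (ψ : R →ₐ[ℂ] k[X]) (h : R) (n : ℕ) :
    (fD D ψ h).coeff n = D ((ψ h).coeff n) := coeff_mapD D _ n

omit [GradedAlgebra 𝒜] in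
theorem fD_mem (D : Derivation ℂ k k) {e : ℕ} {ψ : R →ₐ[ℂ] k[X]} (hd : Deg 𝒜 e ψ) :
    fD D ψ ∈ Vf 𝒜 e ψ := by
  refine ⟨fun x y => Polynomial.ext fun n => ?_, fun d h hh => ?_⟩
  · rw [coeff_fD, map_mul, coeff_add, coeff_mul, coeff_mul, coeff_mul, map_sum,
      ← Finset.Nat.sum_antidiagonal_swap (f := fun q => (ψ y).coeff q.1 * (fD D ψ x).coeff q.2),
      ← Finset.sum_add_distrib]
    refine Finset.sum_congr rfl fun q _ => ?_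
    rw [Derivation.leibniz, coeff_fD, coeff_fD]
    rfl
  · refine natDegree_le_iff_coeff_eq_zero.2 fun n hn => ?_
    rw [coeff_fD, coeff_eq_zero_of_natDegree_lt (lt_of_le_of_lt (hd d h hh) hn), map_zero]

/-- The velocity of a moving point. -/
noncomputable def dP (D : Derivation ℂ k k) (p : R →ₐ[ℂ] k) : R →ₗ[ℂ] k :=
  (D : k →ₗ[ℂ] k).comp p.toLinearMap

theorem dP_apply (D : Derivation ℂ k k) (p : R →ₐ[ℂ] k) (h : R) : dP D p h = D (p h) := rfl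

theorem ev0_fD (D : Derivation ℂ k k) {ψ : R →ₐ[ℂ] k[X]} {p : R →ₐ[ℂ] k}
    (hp : ∀ h, (ψ h).coeff 0 = p h) : ev0 (fD D ψ) = dP D p := LinearMap.ext fun h => by
  rw [ev0_apply, coeff_fD, hp, dP_apply]

theorem evE_fD (D : Derivation ℂ k k) {e : ℕ} {ψ : R →ₐ[ℂ] k[X]} {p : R →ₐ[ℂ] k}
    (hp : ∀ d, ∀ h ∈ 𝒜 d, (ψ h).coeff (d * e) = p h) : evE 𝒜 e (fD D ψ) = dP D p :=
  lin_ext 𝒜 fun d h hh => by
    rw [evE_apply 𝒜 hh, coeff_fD, hp d h hh, dP_apply]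

/-- The velocity of a rescaled moving point. -/
theorem dP_twist (D : Derivation ℂ k k) (p : R →ₐ[ℂ] k) {c : k} (hc : c ≠ 0) :
    dP D (twist 𝒜 c p) = twL 𝒜 c (dP D p + (D c / c) • eu 𝒜 p) := lin_ext 𝒜 fun d h hh => by
  rw [dP_apply, twist_apply 𝒜 hh, twL_apply 𝒜 hh, LinearMap.add_apply, dP_apply,
    LinearMap.smul_apply, eu_apply 𝒜 hh, Derivation.leibniz, Derivation.leibniz_pow]
  simp only [smul_eq_mul, nsmul_eq_mul]
  cases d with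
  | zero => simp
  | succ d =>
    rw [Nat.add_sub_cancel, pow_succ]
    field_simp

end

end Vale.Agent.P280.H475
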