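import Vale.Agent.P280.H475.SpecB
import Vale.Agent.P280.S.H145.Generic

/-! P280, Theorem F: the curve through the generic point. -/

open Polynomial Module

namespace Vale.Agent.P280.H475

open Vale.Agent.P280.S

section

set_option linter.unusedSectionVars false

variable {R : Type} [CommRing R] [Algebra ℂ R] {𝒜 : ℕ → Submodule ℂ R} [GradedAlgebra 𝒜]
  {J : Set R} {e : ℕ} {L : Set (Rep R)}

/-- The value of a local expression over a ring. -/
noncomputable def valB {B : Type} [CommRing B] [Algebra ℂ B] (ρ : Rep R) (e : ℕ)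
    (Ψ : R →ₐ[ℂ] B[X]) : B :=
  ∑ i, (Ψ (ρ.a i)).coeff (ρ.k i * e) * (X * Ψ (ρ.c i)).coeff (ρ.l i * e)

theorem val_of_coeff {B : Type} [CommRing B] [Algebra ℂ B] {k : Type} [Field k] [Algebra ℂ k]
    (F : B →+* k) {Ψ : R →ₐ[ℂ] B[X]} {ψ : R →ₐ[ℂ] k[X]}
    (h : ∀ r i, (ψ r).coeff i = F ((Ψ r).coeff i)) (ρ : Rep R) :
    ρ.val e ψ = F (valB ρ e Ψ) := by
  have h1 : ∀ (z : R) (i : ℕ), (X * ψ z).coeff i = F ((X * Ψ z).coeff i) := by
    intro z i
    cases i with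
    | zero => rw [coeff_X_mul_zero, coeff_X_mul_zero, map_zero]
    | succ i => rw [coeff_X_mul, coeff_X_mul, h]
  rw [Rep.val, valB, map_sum]
  refine Finset.sum_congr rfl fun i _ => ?_
  rw [cInf, vInf, h, h1, map_mul]

theorem valB_of_coeff {B C : Type} [CommRing B] [Algebra ℂ B] [CommRing C] [Algebra ℂ C]
    (F : B →+* C) {Ψ : R →ₐ[ℂ] B[X]} {Φ : R →ₐ[ℂ] C[X]}
    (h : ∀ r i, (Φ r).coeff i = F ((Ψ r).coeff i)) (ρ : Rep R) :
    valB ρ e Φ = F (valB ρ e Ψ) := by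
  have h1 : ∀ (z : R) (i : ℕ), (X * Φ z).coeff i = F ((X * Ψ z).coeff i) := by
    intro z i
    cases i with
    | zero => rw [coeff_X_mul_zero, coeff_X_mul_zero, map_zero]
    | succ i => rw [coeff_X_mul, coeff_X_mul, h]
  rw [valB, valB, map_sum]
  refine Finset.sum_congr rfl fun i _ => ?_
  rw [h, h1, map_mul]

/-- Specialization of solutions. -/
theorem wsol_wx {k K' : Type} [Field k] [Algebra ℂ k] [Field K'] [Algebra ℂ K']
    {A : Subalgebra ℂ k} (w : A →ₐ[ℂ] K') {θ : R →ₐ[ℂ] k} {ψ : R →ₐ[ℂ] k[X]}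
    (h : WSol 𝒜 J e θ ψ) (hN : Nrm L e ψ) (hψA : ∀ r i, (ψ r).coeff i ∈ A) {x : R}
    (hx : x ∈ 𝒜 1) (hne : wx w ((ψ x).coeff (1 * e)) ≠ 0) {θ' : R →ₐ[ℂ] K'}
    {ψ' : R →ₐ[ℂ] K'[X]} (hθ' : ∀ r, θ' r = wx w (θ r))
    (hψ' : ∀ r i, (ψ' r).coeff i = wx w ((ψ r).coeff i)) :
    WSol 𝒜 J e θ' ψ' ∧ Nrm L e ψ' := by
  refine ⟨⟨fun d z hz => ?_, fun z => ?_, ⟨x, hx, ?_⟩, fun d z hz hd => ?_⟩, fun ρ hρ => ?_⟩
  · refine natDegree_le_iff_coeff_eq_zero.2 fun i hi => ?_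
    rw [hψ', coeff_eq_zero_of_natDegree_lt (lt_of_le_of_lt (h.deg d z hz) hi), wx_zero]
  · rw [hψ', h.start, hθ']
  · rw [cInf, hψ']
    exact hne
  · have h1 := h.mem d z hz hd
    rw [cInf] at h1
    rw [cInf, hψ', h1, wx_zero]
  · have h4 : ∀ (z : R) (i : ℕ), (X * ψ z).coeff i ∈ A := by
      intro z i
      cases i with
      | zero => rw [coeff_X_mul_zero]; exact A.zero_mem
      | succ i => rw [coeff_X_mul]; exact hψA z i
    have h5 : ∀ (z : R) (i : ℕ), (X * ψ' z).coeff i = wx w ((X * ψ z).coeff i) := by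
      intro z i
      cases i with
      | zero => rw [coeff_X_mul_zero, coeff_X_mul_zero, wx_zero]
      | succ i => rw [coeff_X_mul, coeff_X_mul, hψ']
    have h6 : ρ.val e ψ' = wx w (ρ.val e ψ) := by
      rw [Rep.val, Rep.val, wx_sum w Finset.univ
        (f := fun i => cInf e ψ (ρ.k i) (ρ.a i) * vInf e ψ (ρ.l i) (ρ.c i))
        fun i _ => A.mul_mem (hψA _ _) (h4 _ _)]
      refine Finset.sum_congr rfl fun i _ => ?_
      rw [cInf, cInf, vInf, vInf, hψ', h5, wx_mul w (hψA _ _) (h4 _ _)]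
    rw [h6, hN ρ hρ, cInf, cInf, hψ']

/-- Uniqueness over any field. -/
theorem wsol_unique (hft : Algebra.FiniteType ℂ R)
    (hgen : Algebra.adjoin ℂ {h : R | h ∈ 𝒜 1} = ⊤) {g : R}
    (huniq : ∀ z : R →ₐ[ℂ] ℂ, z g ≠ 0 → ∃! ψ : R →ₐ[ℂ] ℂ[X], WSol 𝒜 J e z ψ ∧ Nrm L e ψ)
    {k : Type} [Field k] [Algebra ℂ k] {θ : R →ₐ[ℂ] k} (hθ : θ g ≠ 0) {ψ ψ' : R →ₐ[ℂ] k[X]}
    (h : WSol 𝒜 J e θ ψ) (hN : Nrm L e ψ) (h' : WSol 𝒜 J e θ ψ') (hN' : Nrm L e ψ') :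
    ψ = ψ' := by
  classical
  by_contra hne
  obtain ⟨r, i, hri⟩ : ∃ r i, (ψ r).coeff i ≠ (ψ' r).coeff i := by
    by_contra hcon
    push Not at hcon
    exact hne (AlgHom.ext fun r => Polynomial.ext (hcon r))
  obtain ⟨T, -, hT⟩ := exists_gen1 hft hgen
  obtain ⟨x, hx, hxe⟩ := h.nv
  obtain ⟨x', hx', hxe'⟩ := h'.nv
  obtain ⟨A, hSA, hNA, w, hw⟩ := exists_spec_finset (cfs T ψ ∪ cfs T ψ' ∪ T.image θ)
    {(ψ x).coeff (1 * e), (ψ' x').coeff (1 * e), (ψ r).coeff i - (ψ' r).coeff i, θ g} (by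
      intro s hs
      simp only [Finset.mem_insert, Finset.mem_singleton] at hs
      rcases hs with rfl | rfl | rfl | rfl
      · exact hxe
      · exact hxe'
      · exact sub_ne_zero.2 hri
      · exact hθ)
  have hψA := mem_hom hT ψ (A := A) fun t ht i =>
    mem_of_cfs (fun a ha => hSA a (by simp only [Finset.mem_union]; tauto)) ht i
  have hψA' := mem_hom hT ψ' (A := A) fun t ht i =>
    mem_of_cfs (fun a ha => hSA a (by simp only [Finset.mem_union]; tauto)) ht i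
  have hθA := mem_pt hT θ (A := A) fun t ht => hSA _ (by
    simp only [Finset.mem_union]
    exact Or.inr (Finset.mem_image_of_mem _ ht))
  obtain ⟨ψ₀, hψ₀⟩ := exists_wxH w ψ hψA
  obtain ⟨ψ₀', hψ₀'⟩ := exists_wxH w ψ' hψA'
  obtain ⟨θ₀, hθ₀⟩ := exists_wxP w θ hθA
  have h1 := wsol_wx w h hN hψA hx (by
    rw [wx_mem w (hψA _ _)]
    exact hw _ (by simp)) hθ₀ hψ₀
  have h1' := wsol_wx w h' hN' hψA' hx' (by
    rw [wx_mem w (hψA' _ _)]
    exact hw _ (by simp)) hθ₀ hψ₀'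
  have hg : θ₀ g ≠ 0 := by
    rw [hθ₀, wx_mem w (hθA g)]
    exact hw _ (by simp)
  have h2 := (huniq θ₀ hg).unique h1 h1'
  have h3 : wx w ((ψ r).coeff i) = wx w ((ψ' r).coeff i) := by
    rw [← hψ₀, ← hψ₀', h2]
  have h4 := hw ((ψ r).coeff i - (ψ' r).coeff i) (by simp)
  rw [← wx_mem w (A.sub_mem (hψA r i) (hψA' r i)), sub_eq_add_neg,
    wx_add w (hψA r i) (A.neg_mem (hψA' r i))] at h4
  apply h4
  have h5 : wx w (-(ψ' r).coeff i) = - wx w ((ψ' r).coeff i) := by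
    rw [wx_mem w (hψA' r i), wx_mem w (A.neg_mem (hψA' r i)), ← map_neg]
    rfl
  rw [h5, h3, add_neg_cancel]

/-- A solution over a field which contains `R`, from a dense family of solutions over `ℂ`. -/
theorem exists_big [IsDomain R] (hft : Algebra.FiniteType ℂ R)
    (hgen : Algebra.adjoin ℂ {h : R | h ∈ 𝒜 1} = ⊤) {I : Type} (pz : I → R →ₐ[ℂ] ℂ)
    (hdense : ∀ r : R, r ≠ 0 → ∃ i, pz i r ≠ 0) (ψz : I → R →ₐ[ℂ] ℂ[X])
    (hψ : ∀ i, WSol 𝒜 J e (pz i) (ψz i) ∧ Nrm L e (ψz i)) :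
    ∃ (K : Type) (_ : Field K) (_ : Algebra ℂ K) (κ : (I → ℂ) →ₐ[ℂ] K) (ψ : R →ₐ[ℂ] K[X]),
      (∀ a : I → ℂ, (∀ i, a i ≠ 0) → κ a ≠ 0) ∧ (∀ r : R, r ≠ 0 → κ (fun i => pz i r) ≠ 0) ∧
      (∀ r n, (ψ r).coeff n = κ (fun i => (ψz i r).coeff n)) ∧
      WSol 𝒜 J e (κ.comp (AlgHom.pi pz)) ψ ∧ Nrm L e ψ := by
  classical
  obtain ⟨Ψ, hΨ⟩ := exists_family (𝒜 := 𝒜) ψz fun z => (hψ z).1.deg
  let ev : R →ₐ[ℂ] (I → ℂ) := AlgHom.pi pz
  -- the prime ideal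
  let Sg : Submonoid (I → ℂ) := (nonZeroDivisors R).map ev
  obtain ⟨M, hM, -, hdisj⟩ := Ideal.exists_le_prime_disjoint (⊥ : Ideal (I → ℂ)) Sg (by
    rw [Set.disjoint_left]
    rintro _ h0 ⟨r, hr, rfl⟩
    have hr0 : r ≠ 0 := nonZeroDivisors.ne_zero hr
    obtain ⟨z, hz⟩ := hdense r hr0
    have h1 : ev r = 0 := h0
    exact hz (congrFun h1 z))
  let κ : (I → ℂ) →ₐ[ℂ] FractionRing ((I → ℂ) ⧸ M) :=
    (IsScalarTower.toAlgHom ℂ ((I → ℂ) ⧸ M) (FractionRing ((I → ℂ) ⧸ M))).comp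
      (Ideal.Quotient.mkₐ ℂ M)
  have hκ : ∀ a, κ a = 0 ↔ a ∈ M := by
    intro a
    rw [← Ideal.Quotient.eq_zero_iff_mem]
    constructor
    · intro h
      exact IsFractionRing.injective ((I → ℂ) ⧸ M) (FractionRing ((I → ℂ) ⧸ M))
        (by rw [map_zero]; exact h)
    · intro h
      change algebraMap ((I → ℂ) ⧸ M) (FractionRing ((I → ℂ) ⧸ M)) (Ideal.Quotient.mk M a) = 0
      rw [h, map_zero]
  have hunit : ∀ a : I → ℂ, (∀ z, a z ≠ 0) → κ a ≠ 0 := by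
    intro a ha h0
    have h1 : κ (a * fun z => (a z)⁻¹) = 0 := by rw [map_mul, h0, zero_mul]
    have h2 : (a * fun z => (a z)⁻¹) = 1 := funext fun z => mul_inv_cancel₀ (ha z)
    rw [h2, map_one] at h1
    exact one_ne_zero h1
  have hcoef : ∀ r i, (((mapAlgHom κ).comp Ψ) r).coeff i = κ ((Ψ r).coeff i) := by
    intro r i
    change (mapAlgHom κ (Ψ r)).coeff i = _
    rw [coe_mapAlgHom, coeff_map]
    rfl
  refine ⟨FractionRing ((I → ℂ) ⧸ M), inferInstance, inferInstance, κ,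
    (mapAlgHom κ).comp Ψ, hunit, fun r hr h0 => ?_, fun r n => ?_, ⟨fun d r hr => ?_,
      fun r => ?_, ?_, fun d r hr hd => ?_⟩, fun ρ hρ => ?_⟩
  · exact Set.disjoint_left.1 hdisj ((hκ _).1 h0) ⟨r, mem_nonZeroDivisors_of_ne_zero hr, rfl⟩
  · rw [hcoef]
    congr 1
    funext z
    exact hΨ r n z
  · refine natDegree_le_iff_coeff_eq_zero.2 fun i hi => ?_
    have h1 : (Ψ r).coeff i = 0 := by
      funext z
      rw [hΨ, coeff_eq_zero_of_natDegree_lt (lt_of_le_of_lt ((hψ z).1.deg d r hr) hi)]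
      rfl
    rw [hcoef, h1, map_zero]
  · have h1 : (Ψ r).coeff 0 = ev r := by
      funext z
      rw [hΨ, (hψ z).1.start]
      rfl
    rw [hcoef, h1]
    rfl
  · -- not the vertex
    obtain ⟨T, hT1, hT⟩ := exists_gen1 hft hgen
    by_contra hcon
    have h1 : ∀ t ∈ T, (Ψ t).coeff (1 * e) ∈ M := by
      intro t ht
      by_contra hne
      exact hcon ⟨t, hT1 t ht, fun h0 => hne ((hκ _).1 (by rw [← hcoef]; exact h0))⟩
    have h2 : (∑ t ∈ T, (fun z => (starRingEnd ℂ) ((ψz z t).coeff (1 * e))) *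
        (Ψ t).coeff (1 * e)) ∈ M :=
      Ideal.sum_mem _ fun t ht => M.mul_mem_left _ (h1 t ht)
    refine hunit _ (fun z h0 => ?_) ((hκ _).2 h2)
    rw [Finset.sum_apply] at h0
    have h3 : ∑ t ∈ T, Complex.normSq ((ψz z t).coeff (1 * e)) = 0 := by
      have h4 : ((∑ t ∈ T, Complex.normSq ((ψz z t).coeff (1 * e)) : ℝ) : ℂ) = 0 := by
        rw [Complex.ofReal_sum, ← h0]
        refine Finset.sum_congr rfl fun t _ => ?_
        rw [Pi.mul_apply, hΨ, ← Complex.mul_conj]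
        exact mul_comm _ _
      exact_mod_cast h4
    have h4 : ∀ t ∈ T, (ψz z t).coeff (1 * e) = 0 := fun t ht =>
      Complex.normSq_eq_zero.1 ((Finset.sum_eq_zero_iff_of_nonneg
        fun t _ => Complex.normSq_nonneg _).1 h3 t ht)
    obtain ⟨p, hp⟩ := exists_end (hψ z).1.deg
    obtain ⟨u, hu, hyu⟩ := (hψ z).1.nv
    obtain ⟨s, hs, hs0⟩ := H348.nv_gens (𝒜 := 𝒜) hT1 hT (q := p)
      ⟨u, hu, by rw [← hp 1 u hu]; exact hyu⟩
    exact hs0 (by rw [← hp 1 s (hT1 s hs)]; exact h4 s hs)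
  · have h1 : (Ψ r).coeff (d * e) = 0 := funext fun z => by
      rw [hΨ]
      exact (hψ z).1.mem d r hr hd
    rw [cInf, hcoef, h1, map_zero]
  · have h1 : valB ρ e Ψ = (Ψ ρ.b).coeff (ρ.m * e) := by
      funext z
      have h2 := (hψ z).2 ρ hρ
      have h3 := val_of_coeff (e := e) (Pi.evalRingHom (fun _ : I => ℂ) z) (Ψ := Ψ) (ψ := ψz z)
        (fun r i => (hΨ r i z).symm) ρ
      rw [h3, cInf, ← hΨ] at h2
      exact h2
    rw [val_of_coeff (κ : (I → ℂ) →+* _) hcoef, h1, cInf, hcoef]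
    rfl

/-- A solution over a field which contains `R`. -/
theorem exists_wsol_big [IsDomain R] (hft : Algebra.FiniteType ℂ R)
    (hgen : Algebra.adjoin ℂ {h : R | h ∈ 𝒜 1} = ⊤) {g : R} (hg : g ≠ 0)
    (hex : ∀ z : R →ₐ[ℂ] ℂ, z g ≠ 0 → ∃ ψ : R →ₐ[ℂ] ℂ[X], WSol 𝒜 J e z ψ ∧ Nrm L e ψ) :
    ∃ (K : Type) (_ : Field K) (_ : Algebra ℂ K) (θ : R →ₐ[ℂ] K) (ψ : R →ₐ[ℂ] K[X]),
      (∀ r, r ≠ 0 → θ r ≠ 0) ∧ WSol 𝒜 J e θ ψ ∧ Nrm L e ψ := by
  have hex' : ∀ z : {z : R →ₐ[ℂ] ℂ // z g ≠ 0}, ∃ ψ : R →ₐ[ℂ] ℂ[X],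
      WSol 𝒜 J e z.1 ψ ∧ Nrm L e ψ := fun z => hex z.1 z.2
  choose ψz hψ using hex'
  obtain ⟨K, _, _, κ, ψ, -, h2, -, h4, h5⟩ := exists_big (𝒜 := 𝒜) (J := J) (e := e) (L := L)
    hft hgen (I := {z : R →ₐ[ℂ] ℂ // z g ≠ 0}) (fun z => z.1) (fun r hr => by
      obtain ⟨z, hz⟩ := exists_point (mul_ne_zero hr hg)
      rw [map_mul] at hz
      exact ⟨⟨z, right_ne_zero_of_mul hz⟩, left_ne_zero_of_mul hz⟩) ψz hψ
  exact ⟨K, inferInstance, inferInstance, κ.comp (AlgHom.pi fun z => z.1), ψ, h2, h4, h5⟩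

/-- **The curve through the generic point.** -/
theorem exists_generic [IsDomain R] (hft : Algebra.FiniteType ℂ R)
    (hgen : Algebra.adjoin ℂ {h : R | h ∈ 𝒜 1} = ⊤) {g : R} (hg : g ≠ 0)
    (huniq : ∀ z : R →ₐ[ℂ] ℂ, z g ≠ 0 → ∃! ψ : R →ₐ[ℂ] ℂ[X], WSol 𝒜 J e z ψ ∧ Nrm L e ψ)
    (F : Type) [Field F] [Algebra ℂ F] [Algebra R F] [IsScalarTower ℂ R F] [IsFractionRing R F] :
    ∃ U : R →ₐ[ℂ] F[X], WSol 𝒜 J e (IsScalarTower.toAlgHom ℂ R F) U ∧ Nrm L e U := by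
  classical
  obtain ⟨K, _, _, θ, ψ, hθ, hsol, hN⟩ := exists_wsol_big hft hgen hg
    fun z hz => (huniq z hz).exists
  obtain ⟨T, -, hT⟩ := exists_gen1 hft hgen
  have hinj : Function.Injective θ.toRingHom := by
    rw [injective_iff_map_eq_zero]
    intro r hr
    by_contra hne
    exact hθ r hne hr
  have hι : ∀ r, IsFractionRing.lift hinj (algebraMap R F r) = θ r :=
    fun r => IsFractionRing.lift_algebraMap hinj r
  let _ : Algebra F K := (IsFractionRing.lift hinj : F →+* K).toAlgebra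
  have hιalg : ∀ r, θ r = algebraMap F K (algebraMap R F r) := fun r => (hι r).symm
  have htow : IsScalarTower ℂ F K := IsScalarTower.of_algebraMap_eq fun a => by
    rw [IsScalarTower.algebraMap_apply ℂ R F, ← hιalg, AlgHom.commutes]
  -- specialize to the algebraic closure
  obtain ⟨x, hx, hxe⟩ := hsol.nv
  obtain ⟨B, hBfg, hSB, hcB, hcB'⟩ : ∃ B : Subalgebra F K, B.FG ∧ (∀ s ∈ cfs T ψ, s ∈ B) ∧
      (ψ x).coeff (1 * e) ∈ B ∧ ((ψ x).coeff (1 * e))⁻¹ ∈ B := by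
    refine ⟨Algebra.adjoin F ((cfs T ψ ∪ {(ψ x).coeff (1 * e), ((ψ x).coeff (1 * e))⁻¹} :
      Finset K) : Set K), Subalgebra.fg_adjoin_finset _,
      fun s hs => Algebra.subset_adjoin (by simp [hs]), Algebra.subset_adjoin (by simp),
      Algebra.subset_adjoin (by simp)⟩
  have hftB : Algebra.FiniteType F B := (Subalgebra.fg_iff_finiteType B).1 hBfg
  obtain ⟨w⟩ := exists_hom_closure F B
  have hw0 : w ⟨_, hcB⟩ ≠ 0 := by
    intro h0
    have h3 : (⟨_, hcB⟩ : B) * ⟨_, hcB'⟩ = 1 := Subtype.ext (mul_inv_cancel₀ hxe)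
    have h4 := congrArg w h3
    rw [map_mul, map_one, h0, zero_mul] at h4
    exact zero_ne_one h4
  let A : Subalgebra ℂ K := B.restrictScalars ℂ
  let w' : A →ₐ[ℂ] AlgebraicClosure F := w.restrictScalars ℂ
  have hψA := mem_hom hT ψ (A := A) fun t ht i => mem_of_cfs (fun a ha => hSB a ha) ht i
  have hθA : ∀ r, θ r ∈ A := fun r => by
    rw [hιalg]
    exact B.algebraMap_mem _
  obtain ⟨ψ₀, hψ₀⟩ := exists_wxH w' ψ hψA
  obtain ⟨θ₀, hθ₀⟩ := exists_wxP w' θ hθA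
  have h1 := wsol_wx w' hsol hN hψA hx (by
    rw [wx_mem w' (hψA _ _)]
    exact hw0) hθ₀ hψ₀
  have hθ₀' : ∀ r, θ₀ r = algebraMap F (AlgebraicClosure F) (algebraMap R F r) := fun r => by
    rw [hθ₀, wx_mem w' (hθA r)]
    have h3 : (⟨θ r, hθA r⟩ : B) = algebraMap F B (algebraMap R F r) := Subtype.ext (hιalg r)
    change w ⟨θ r, hθA r⟩ = _
    rw [h3]
    exact w.commutes _
  -- descent
  have hainj : Function.Injective (algebraMap F (AlgebraicClosure F)) :=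
    (algebraMap F (AlgebraicClosure F)).injective
  have hθg : θ₀ g ≠ 0 := by
    rw [hθ₀']
    exact fun h => hg (IsFractionRing.injective R F (by
      rw [map_zero]; exact hainj (by rw [h, map_zero])))
  have hchar : CharZero F := charZero_of_injective_algebraMap (algebraMap ℂ F).injective
  have hgal : IsGalois F (AlgebraicClosure F) := ⟨⟩
  have hmem : ∀ r i, (ψ₀ r).coeff i ∈ Set.range (algebraMap F (AlgebraicClosure F)) := by
    intro r i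
    rw [InfiniteGalois.mem_range_algebraMap_iff_fixed]
    intro σ
    let s : AlgebraicClosure F →ₐ[ℂ] AlgebraicClosure F := σ.toAlgHom.restrictScalars ℂ
    let s' : (⊤ : Subalgebra ℂ (AlgebraicClosure F)) →ₐ[ℂ] AlgebraicClosure F :=
      s.comp (Subalgebra.val _)
    have hs' : ∀ a, wx s' a = s a := fun a => wx_mem s' (Algebra.mem_top)
    obtain ⟨ψ₁, hψ₁⟩ := exists_wxH s' ψ₀ fun _ _ => Algebra.mem_top
    obtain ⟨y, hy, hye⟩ := h1.1.nv
    have h2 := wsol_wx s' h1.1 h1.2 (fun _ _ => Algebra.mem_top) hy (by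
      rw [hs']
      exact fun h0 => hye ((map_eq_zero_iff s s.injective).1 h0)) (θ' := θ₀) (fun r => by
      rw [hs', hθ₀']
      exact (σ.commutes _).symm) hψ₁
    have h3 := wsol_unique hft hgen huniq hθg h1.1 h1.2 h2.1 h2.2
    have h4 : (ψ₀ r).coeff i = (ψ₁ r).coeff i := by rw [← h3]
    rw [hψ₁, hs'] at h4
    exact h4.symm
  let wF : F →ₐ[ℂ] AlgebraicClosure F := IsScalarTower.toAlgHom ℂ F (AlgebraicClosure F)
  have hwinj : Function.Injective (mapAlgHom wF) := by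
    rw [coe_mapAlgHom]
    exact Polynomial.map_injective _ hainj
  have h2 : ∀ r, ∃ P : F[X], mapAlgHom wF P = ψ₀ r := by
    intro r
    have h2 : ψ₀ r ∈ lifts (wF : F →+* AlgebraicClosure F) := by
      rw [lifts_iff_coeff_lifts]
      intro n
      exact hmem r n
    obtain ⟨P, hP⟩ := (mem_lifts _).1 h2
    exact ⟨P, hP⟩
  choose f hf using h2
  let U : R →ₐ[ℂ] F[X] :=
    { toFun := f
      map_one' := hwinj (by rw [hf, map_one, map_one])
      map_mul' := fun a b => hwinj (by rw [hf, map_mul, map_mul, hf, hf])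
      map_zero' := hwinj (by rw [hf, map_zero, map_zero])
      map_add' := fun a b => hwinj (by rw [hf, map_add, map_add, hf, hf])
      commutes' := fun a => hwinj (by rw [hf, AlgHom.commutes, AlgHom.commutes]) }
  have hU : ∀ r i, (ψ₀ r).coeff i = algebraMap F (AlgebraicClosure F) ((U r).coeff i) := by
    intro r i
    have h3 : mapAlgHom wF (U r) = ψ₀ r := hf r
    rw [← h3, coe_mapAlgHom, coeff_map]
    rfl
  refine ⟨U, ⟨fun d r hr => ?_, fun r => hainj ?_, ?_, fun d r hr hd => hainj ?_⟩,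
    fun ρ hρ => hainj ?_⟩
  · refine natDegree_le_iff_coeff_eq_zero.2 fun i hi => hainj ?_
    rw [← hU, coeff_eq_zero_of_natDegree_lt (lt_of_le_of_lt (h1.1.deg d r hr) hi), map_zero]
  · rw [← hU, h1.1.start, hθ₀']
    rfl
  · obtain ⟨y, hy, hye⟩ := h1.1.nv
    refine ⟨y, hy, fun h0 => hye ?_⟩
    rw [cInf] at h0
    rw [cInf, hU, h0, map_zero]
  · rw [cInf, ← hU, map_zero]
    exact h1.1.mem d r hr hd
  · rw [cInf, ← hU]
    have h3 := val_of_coeff (e := e) (algebraMap F (AlgebraicClosure F)) (Ψ := U) (ψ := ψ₀) hU ρ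
    have h4 := val_of_coeff (e := e) (RingHom.id F) (Ψ := U) (ψ := U) (fun _ _ => rfl) ρ
    rw [h4, RingHom.id_apply, ← h3]
    exact h1.2 ρ hρ

end

end Vale.Agent.P280.H475
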