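import Vale.Agent.P280.H475.SpecB
import Vale.Agent.P280.H475.GenF

/-! P280, Theorem F: curves which solve the problem have no base points, over any field. -/

open DirectSum Polynomial Module

namespace Vale.Agent.P280.H475

open Vale.Agent.P280.S

section

set_option linter.unusedSectionVars false

variable {R : Type} [CommRing R] [Algebra ℂ R] {𝒜 : ℕ → Submodule ℂ R} [GradedAlgebra 𝒜]
  {J : Set R} {e : ℕ} {L : Set (Rep R)}

/-- The relation of a local expression with the Euler vector. -/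
theorem euler_rel (hft : Algebra.FiniteType ℂ R)
    (hgen : Algebra.adjoin ℂ {h : R | h ∈ 𝒜 1} = ⊤)
    {θ : (R →ₐ[ℂ] ℂ) → (R →ₗ[ℂ] ℂ) → ℂ} (hθ : IsCovectorField 𝒜 J θ) {ρ : Rep R}
    (hρ : ρ.IsValid 𝒜 J θ) {k : Type} [Field k] [Algebra ℂ k] {p : R →ₐ[ℂ] k}
    (hp : NV 𝒜 p) (hpJ : ∀ h ∈ J, p h = 0) :
    ∑ i, (ρ.l i : k) * (p (ρ.a i) * p (ρ.c i)) = 0 := by
  classical
  have h0 : ∑ i, (ρ.l i : k) * (p (ρ.a i) * p (ρ.c i)) = p (∑ i, (ρ.l i : R) *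
      (ρ.a i * ρ.c i)) := by
    rw [map_sum]
    refine Finset.sum_congr rfl fun i _ => ?_
    rw [map_mul, map_mul, map_natCast]
  rw [h0]
  by_contra hne
  obtain ⟨T, hT1, hT⟩ := exists_gen1 hft hgen
  obtain ⟨x, hx, hx0⟩ := hp
  obtain ⟨A, hSA, hNA, w, hw⟩ := exists_spec_finset (T.image p)
    {p x, p (∑ i, (ρ.l i : R) * (ρ.a i * ρ.c i))} (by
      intro s hs
      simp only [Finset.mem_insert, Finset.mem_singleton] at hs
      rcases hs with rfl | rfl <;> assumption)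
  have hpA := mem_pt hT p (A := A) fun t ht => hSA _ (Finset.mem_image_of_mem _ ht)
  obtain ⟨y, hy⟩ := exists_wxP w p hpA
  have hF : OnF 𝒜 J y := ⟨(nv_iff hgen y).2 ⟨x, hx, by
    rw [hy, wx_mem w (hpA x)]
    exact hw _ (by simp)⟩, fun z hz => by rw [hy, hpJ z hz, wx_zero]⟩
  have h1 := hθ.euler y hF (eu 𝒜 y) fun d x hx => eu_apply 𝒜 hx
  have h2 := hρ.2 y hF _ (eu_mem_tan 𝒜 y)
  rw [h1, mul_zero] at h2
  have h3 : y (∑ i, (ρ.l i : R) * (ρ.a i * ρ.c i)) = 0 := by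
    rw [map_sum, h2]
    refine Finset.sum_congr rfl fun i _ => ?_
    rw [eu_apply 𝒜 (hρ.1.2 i).2.1, map_mul, map_mul, map_natCast]
    ring
  rw [hy, wx_mem w (hpA _)] at h3
  exact hw _ (by simp) h3


/-- The value of a local expression for a curve with base points. -/
theorem val_mul {k : Type} [Field k] [Algebra ℂ k] {ψ ψ₁ : R →ₐ[ℂ] k[X]} {g : k[X]} (hg : g ≠ 0)
    (hbe : g.natDegree ≤ e) (hdeg : Deg 𝒜 (e - g.natDegree) ψ₁)
    (hmul : ∀ d, ∀ x ∈ 𝒜 d, ψ x = g ^ d * ψ₁ x) {ρ : Rep R} (hρ : ρ.IsHom 𝒜) :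
    ρ.val e ψ = g.leadingCoeff ^ ρ.m * (ρ.val (e - g.natDegree) ψ₁ +
      (X * g).coeff g.natDegree / g.leadingCoeff * ∑ i, (ρ.l i : k) *
        (cInf (e - g.natDegree) ψ₁ (ρ.k i) (ρ.a i) *
          cInf (e - g.natDegree) ψ₁ (ρ.l i) (ρ.c i))) := by
  set b := g.natDegree with hb
  set γ := (X * g).coeff b / g.leadingCoeff with hγ
  have hsplit : ∀ d : ℕ, d * e = d * b + d * (e - b) := fun d => by
    rw [← mul_add, Nat.add_sub_cancel' hbe]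
  have hc1 : ∀ d, ∀ x ∈ 𝒜 d, cInf e ψ d x = g.leadingCoeff ^ d * cInf (e - b) ψ₁ d x := by
    intro d x hx
    have h2 : (g ^ d * ψ₁ x).coeff (d * b + d * (e - b)) =
        (g ^ d).coeff (d * b) * (ψ₁ x).coeff (d * (e - b)) :=
      coeff_mul_add_eq_of_natDegree_le natDegree_pow_le (hdeg d x hx)
    rw [cInf, cInf, hmul d x hx, hsplit d, h2, hb, coeff_pow_mul_natDegree]
  have hv1 : ∀ d, ∀ x ∈ 𝒜 d, vInf e ψ d x = g.leadingCoeff ^ d *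
      (vInf (e - b) ψ₁ d x + d * γ * cInf (e - b) ψ₁ d x) := by
    intro d x hx
    have h2 : (X * (g ^ d * ψ₁ x)).coeff (d * b + d * (e - b)) =
        (X * g ^ d).coeff (d * b) * (ψ₁ x).coeff (d * (e - b)) +
        (g ^ d).coeff (d * b) * (X * ψ₁ x).coeff (d * (e - b)) :=
      coeff_X_mul_mul natDegree_pow_le (hdeg d x hx)
    rw [vInf, vInf, cInf, hmul d x hx, hsplit d, h2, hb, coeff_pow_mul_natDegree,
      coeff_X_mul_pow hg]
    ring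
  rw [Rep.val, Rep.val, mul_add, Finset.mul_sum, Finset.mul_sum, Finset.mul_sum,
    ← Finset.sum_add_distrib]
  refine Finset.sum_congr rfl fun i _ => ?_
  obtain ⟨h2, h3, h4⟩ := hρ.2 i
  rw [hc1 _ _ h2, hv1 _ _ h3, ← h4, pow_add]
  ring

/-- The solutions have no base points. -/
theorem strong_of_sol (hft : Algebra.FiniteType ℂ R)
    (hgen : Algebra.adjoin ℂ {h : R | h ∈ 𝒜 1} = ⊤)
    {θ : (R →ₐ[ℂ] ℂ) → (R →ₗ[ℂ] ℂ) → ℂ} {d₀ : ℕ} {g₀ : R}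
    (hP : IsNullPair 𝒜 J θ e d₀ g₀) {k : Type} [Field k] [Algebra ℂ k] {z : R →ₐ[ℂ] k}
    (hz : NV 𝒜 z) {ψ : R →ₐ[ℂ] k[X]} (h : WSol 𝒜 J e z ψ)
    (hN : Nrm {ρ | ρ.IsValid 𝒜 J θ} e ψ) : Strong 𝒜 e ψ := by
  by_contra hns
  obtain ⟨p, hp⟩ := exists_end h.deg
  have hpc : Piece 𝒜 e ψ z p := ⟨h.deg, fun d x _ => h.start x, hp⟩
  have hpnv : NV 𝒜 p := by
    obtain ⟨x, hx, hne⟩ := h.nv
    refine ⟨x, hx, ?_⟩
    rw [← hp 1 x hx]
    exact hne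
  have hpJ : ∀ x ∈ J, p x = 0 := by
    intro x hx
    obtain ⟨d, hd⟩ := hP.homogeneous x hx
    rw [← hp d x hd]
    exact h.mem d x hx hd
  obtain ⟨ρ, hρ, hρb⟩ := exists_rep hft hgen hP.covector hpnv hpJ
  obtain ⟨g, c', ψ₁, hg0, hbe, hc', h1, hs1, hmul, hb⟩ := hpc.exists_strong hgen hz hpnv
  have hb' := hb hns
  have hlc : g.leadingCoeff⁻¹ ≠ 0 := inv_ne_zero (leadingCoeff_ne_zero.2 hg0)
  have h2 := null_val hft hgen hP h1 (nv_twist 𝒜 hc' hz) (nv_twist 𝒜 hlc hpnv) (fun x hx => by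
    obtain ⟨d, hd⟩ := hP.homogeneous x hx
    rw [twist_apply 𝒜 hd, hpJ x hx, mul_zero]) (by omega) hρ
  have h3 := euler_rel hft hgen hP.covector hρ (nv_twist 𝒜 hlc hpnv) (fun x hx => by
    obtain ⟨d, hd⟩ := hP.homogeneous x hx
    rw [twist_apply 𝒜 hd, hpJ x hx, mul_zero])
  have h4 := val_mul hg0 hbe h1.deg hmul hρ.1
  have h5 : ∑ i, (ρ.l i : k) * (cInf (e - g.natDegree) ψ₁ (ρ.k i) (ρ.a i) *
      cInf (e - g.natDegree) ψ₁ (ρ.l i) (ρ.c i)) = 0 := by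
    rw [← h3]
    refine Finset.sum_congr rfl fun i _ => ?_
    obtain ⟨h6, h7, -⟩ := hρ.1.2 i
    rw [cInf, cInf, h1.fin _ _ h6, h1.fin _ _ h7]
  rw [h2, h5, mul_zero, add_zero, mul_zero, hN ρ hρ, cInf, hp _ _ hρ.1.1] at h4
  exact hρb h4

end

end Vale.Agent.P280.H475
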