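import Vale.Agent.P280.H475.Weak
import Vale.Agent.P280.S.H348.Core

/-! P280, Theorem F: graded homomorphisms from functions on the graded pieces. -/

open DirectSum Polynomial Module

namespace Vale.Agent.P280.H475

open Vale.Agent.P280.S

section
variable {R : Type} [CommRing R] [Algebra ℂ R] (𝒜 : ℕ → Submodule ℂ R) [GradedAlgebra 𝒜]
  {B : Type} [CommRing B] [Algebra ℂ B]

/-- A linear map from functions on the graded pieces. -/
theorem exists_graded_lin (f : ℕ → R → B)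
    (hadd : ∀ d, ∀ a ∈ 𝒜 d, ∀ b ∈ 𝒜 d, f d (a + b) = f d a + f d b)
    (hsmul : ∀ d (c : ℂ), ∀ a ∈ 𝒜 d, f d (c • a) = c • f d a) :
    ∃ L : R →ₗ[ℂ] B, ∀ d, ∀ h ∈ 𝒜 d, L h = f d h := by
  let L : ∀ d : ℕ, 𝒜 d →ₗ[ℂ] B := fun d =>
    { toFun := fun x => f d x
      map_add' := fun x y => hadd d x x.2 y y.2
      map_smul' := fun c x => hsmul d c x x.2 }
  refine ⟨(DirectSum.toModule ℂ ℕ B L).comp (decomposeLinearEquiv 𝒜).toLinearMap,
    fun d h hh => ?_⟩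
  change DirectSum.toModule ℂ ℕ B L (decompose 𝒜 h) = _
  lift h to 𝒜 d using hh
  rw [decompose_coe]
  exact DirectSum.toModule_lof ℂ (M := fun i => 𝒜 i) d h

/-- A homomorphism from functions on the graded pieces. -/
theorem exists_graded_hom (f : ℕ → R → B) (h1 : f 0 1 = 1)
    (hadd : ∀ d, ∀ a ∈ 𝒜 d, ∀ b ∈ 𝒜 d, f d (a + b) = f d a + f d b)
    (hsmul : ∀ d (c : ℂ), ∀ a ∈ 𝒜 d, f d (c • a) = c • f d a)
    (hmul : ∀ i j, ∀ a ∈ 𝒜 i, ∀ b ∈ 𝒜 j, f (i + j) (a * b) = f i a * f j b) :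
    ∃ φ : R →ₐ[ℂ] B, ∀ d, ∀ h ∈ 𝒜 d, φ h = f d h := by
  obtain ⟨L, hL⟩ := exists_graded_lin 𝒜 f hadd hsmul
  refine ⟨mkHom 𝒜 (fun _ => L) ?_ ?_, fun d h hh => ?_⟩
  · rw [hL 0 1 SetLike.GradedOne.one_mem, h1]
  · intro i j a ha b hb
    rw [hL _ _ (SetLike.mul_mem_graded ha hb), hL i a ha, hL j b hb, hmul i j a ha b hb]
  · rw [mkHom_apply 𝒜 hh, hL d h hh]

end

section mapc
variable {K κ : Type} [Field K] [Field κ]

/-- A polynomial with coefficients `F i (p_i)`. -/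
noncomputable def mapc (F : ℕ → K → κ) (p : K[X]) : κ[X] :=
  ∑ n ∈ p.support, monomial n (F n (p.coeff n))

theorem coeff_mapc {F : ℕ → K → κ} (hF : ∀ i, F i 0 = 0) (p : K[X]) (n : ℕ) :
    (mapc F p).coeff n = F n (p.coeff n) := by
  rw [mapc, finsetSum_coeff]
  simp only [coeff_monomial]
  rw [Finset.sum_ite_eq']
  split_ifs with h
  · rfl
  · rw [notMem_support_iff.1 h, hF]

end mapc

end Vale.Agent.P280.H475
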