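import Vale.Agent.P280.H475.Defs
import Vale.Agent.P280.S.H847.Div
import Vale.Agent.P280.S.H145.Uniq

/-! P280, Theorem F: linear maps from graded pieces, tangent spaces over fields. -/

open DirectSum Polynomial

namespace Vale.Agent.P280.H475

open Vale.Agent.P280.S

section mk
variable {R : Type} [CommRing R] [Algebra ℂ R] (𝒜 : ℕ → Submodule ℂ R) [GradedAlgebra 𝒜]

/-- The linear map which is `f d` on the component of degree `d`. -/
noncomputable def mkLin {B : Type*} [AddCommGroup B] [Module ℂ B] (f : ℕ → R →ₗ[ℂ] B) :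
    R →ₗ[ℂ] B :=
  (DirectSum.toModule ℂ ℕ B (fun i => (f i).comp (𝒜 i).subtype)).comp
    (decomposeLinearEquiv 𝒜).toLinearMap

theorem mkLin_apply {B : Type*} [AddCommGroup B] [Module ℂ B] {f : ℕ → R →ₗ[ℂ] B} {d : ℕ} {h : R}
    (hh : h ∈ 𝒜 d) : mkLin 𝒜 f h = f d h := by
  change DirectSum.toModule ℂ ℕ B (fun i => (f i).comp (𝒜 i).subtype) (decompose 𝒜 h) = _
  lift h to 𝒜 d using hh
  rw [decompose_coe]
  exact DirectSum.toModule_lof ℂ (M := fun i => 𝒜 i) d h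

/-- Additive maps which agree on homogeneous elements are equal. -/
theorem lin_ext {B : Type*} [AddCommGroup B] [Module ℂ B] {f g : R →ₗ[ℂ] B}
    (h : ∀ d, ∀ a ∈ 𝒜 d, f a = g a) : f = g := by
  refine LinearMap.ext fun r => ?_
  induction r using DirectSum.Decomposition.inductionOn 𝒜 with
  | zero => rw [map_zero, map_zero]
  | @homogeneous j x => exact h j x x.2
  | add x y hx hy => rw [map_add, map_add, hx, hy]

/-- The Leibniz rule holds if it holds for homogeneous elements. -/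
theorem leibniz_of_hom {B : Type*} [CommRing B] [Algebra ℂ B] {p : R →ₐ[ℂ] B} {v : R →ₗ[ℂ] B}
    (h : ∀ i j, ∀ a ∈ 𝒜 i, ∀ b ∈ 𝒜 j, v (a * b) = p a * v b + p b * v a) (x y : R) :
    v (x * y) = p x * v y + p y * v x := by
  induction x using DirectSum.Decomposition.inductionOn 𝒜 with
  | zero => simp
  | add a b ha hb =>
    rw [add_mul, map_add, ha, hb, map_add, map_add]
    ring
  | @homogeneous i a =>
    induction y using DirectSum.Decomposition.inductionOn 𝒜 with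
    | zero => simp
    | add b c hb hc =>
      rw [mul_add, map_add, hb, hc, map_add, map_add]
      ring
    | @homogeneous j b => exact h i j a a.2 b b.2

variable {𝒜} in
/-- The Leibniz rule holds if it holds for homogeneous elements. -/
theorem leibniz_of_hom' {B : Type*} [CommRing B] [Algebra ℂ B] {p : R →ₐ[ℂ] B} {v : R →ₗ[ℂ] B}
    (h : ∀ i j, ∀ a ∈ 𝒜 i, ∀ b ∈ 𝒜 j, v (a * b) = p a * v b + p b * v a) (x y : R) :
    v (x * y) = p x * v y + p y * v x := leibniz_of_hom 𝒜 h x y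

end mk

section tan
variable {R : Type} [CommRing R] [Algebra ℂ R] {k : Type} [Field k] [Algebra ℂ k]

/-- The tangent space of the cone at the point `p` over the field `k`. -/
def Tan (p : R →ₐ[ℂ] k) : Submodule k (R →ₗ[ℂ] k) where
  carrier := {v | ∀ x y : R, v (x * y) = p x * v y + p y * v x}
  add_mem' := by
    intro a b h1 h1' x y
    rw [LinearMap.add_apply, LinearMap.add_apply, LinearMap.add_apply, h1, h1']
    ring
  zero_mem' := fun x y => by simp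
  smul_mem' := by
    intro c a h1 x y
    rw [LinearMap.smul_apply, LinearMap.smul_apply, LinearMap.smul_apply, h1, smul_eq_mul,
      smul_eq_mul, smul_eq_mul]
    ring

theorem mem_tan {p : R →ₐ[ℂ] k} {v : R →ₗ[ℂ] k} :
    v ∈ Tan p ↔ ∀ x y : R, v (x * y) = p x * v y + p y * v x := Iff.rfl

theorem tan_one {p : R →ₐ[ℂ] k} {v : R →ₗ[ℂ] k} (hv : v ∈ Tan p) (c : ℂ) :
    v (algebraMap ℂ R c) = 0 := by
  have h1 := hv 1 1
  rw [mul_one, map_one p, one_mul] at h1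
  have h2 : v 1 = 0 := by linear_combination -h1
  rw [Algebra.algebraMap_eq_smul_one, map_smul, h2, smul_zero]

/-- A tangent vector is determined by its values at generators. -/
theorem tan_ext {p : R →ₐ[ℂ] k} {v w : R →ₗ[ℂ] k} (hv : v ∈ Tan p) (hw : w ∈ Tan p) {T : Set R}
    (hT : Algebra.adjoin ℂ T = ⊤) (h : ∀ t ∈ T, v t = w t) : v = w := by
  refine LinearMap.ext fun r => ?_
  have hr : r ∈ Algebra.adjoin ℂ T := by rw [hT]; trivial
  induction hr using Algebra.adjoin_induction with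
  | mem x hx => exact h x hx
  | algebraMap c => rw [tan_one hv, tan_one hw]
  | add x y _ _ hx hy => rw [map_add, map_add, hx, hy]
  | mul x y _ _ hx hy => rw [hv, hw, hx, hy]

/-- Values at generators. -/
def valT (T : Finset R) : (R →ₗ[ℂ] k) →ₗ[k] (T → k) where
  toFun v t := v t
  map_add' _ _ := rfl
  map_smul' _ _ := rfl

theorem finite_tan [Algebra.FiniteType ℂ R] (p : R →ₐ[ℂ] k) : FiniteDimensional k (Tan p) := by
  obtain ⟨T, hT⟩ := Algebra.FiniteType.out (R := ℂ) (A := R)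
  have hinj : Function.Injective ((valT T).comp (Tan p).subtype) := by
    intro v w h
    exact Subtype.ext (tan_ext v.2 w.2 hT fun t ht => congrFun h ⟨t, ht⟩)
  exact FiniteDimensional.of_injective _ hinj

theorem finite_le_tan [Algebra.FiniteType ℂ R] {p : R →ₐ[ℂ] k} {W : Submodule k (R →ₗ[ℂ] k)}
    (hW : W ≤ Tan p) : FiniteDimensional k W := by
  have := finite_tan (k := k) p
  exact Submodule.finiteDimensional_of_le hW

end tan

section tw
variable {R : Type} [CommRing R] [Algebra ℂ R] (𝒜 : ℕ → Submodule ℂ R) [GradedAlgebra 𝒜]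
  {k : Type} [Field k] [Algebra ℂ k]

/-- `v ↦ λ^d v` on the component of degree `d`. -/
noncomputable def twL (c : k) : (R →ₗ[ℂ] k) →ₗ[k] (R →ₗ[ℂ] k) where
  toFun v := mkLin 𝒜 fun d => c ^ d • v
  map_add' v w := lin_ext 𝒜 fun d h hh => by
    rw [mkLin_apply 𝒜 hh, LinearMap.add_apply, mkLin_apply 𝒜 hh, mkLin_apply 𝒜 hh, smul_add]
    rfl
  map_smul' a v := lin_ext 𝒜 fun d h hh => by
    rw [RingHom.id_apply, LinearMap.smul_apply, mkLin_apply 𝒜 hh, mkLin_apply 𝒜 hh,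
      LinearMap.smul_apply, LinearMap.smul_apply, LinearMap.smul_apply, smul_comm]

theorem twL_apply {c : k} {v : R →ₗ[ℂ] k} {d : ℕ} {h : R} (hh : h ∈ 𝒜 d) :
    twL 𝒜 c v h = c ^ d * v h := mkLin_apply 𝒜 hh

theorem twL_twL {c c' : k} {v : R →ₗ[ℂ] k} : twL 𝒜 c (twL 𝒜 c' v) = twL 𝒜 (c * c') v :=
  lin_ext 𝒜 fun d h hh => by
    rw [twL_apply 𝒜 hh, twL_apply 𝒜 hh, twL_apply 𝒜 hh, mul_pow, mul_assoc]

theorem twL_one {v : R →ₗ[ℂ] k} : twL 𝒜 1 v = v :=
  lin_ext 𝒜 fun d h hh => by rw [twL_apply 𝒜 hh, one_pow, one_mul]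

theorem twL_injective {c : k} (hc : c ≠ 0) : Function.Injective (twL 𝒜 c) := by
  intro v w h
  have h1 := congrArg (twL 𝒜 c⁻¹) h
  rwa [twL_twL, twL_twL, inv_mul_cancel₀ hc, twL_one, twL_one] at h1

theorem twL_mem_tan {c : k} {p : R →ₐ[ℂ] k} {v : R →ₗ[ℂ] k} (hv : v ∈ Tan p) :
    twL 𝒜 c v ∈ Tan (twist 𝒜 c p) :=
  leibniz_of_hom 𝒜 fun i j a ha b hb => by
    rw [twL_apply 𝒜 (SetLike.mul_mem_graded ha hb), twL_apply 𝒜 ha, twL_apply 𝒜 hb,
      twist_apply 𝒜 ha, twist_apply 𝒜 hb, hv, pow_add]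
    ring

/-- The Euler vector at `p`. -/
noncomputable def eu (p : R →ₐ[ℂ] k) : R →ₗ[ℂ] k := mkLin 𝒜 fun d => (d : k) • p.toLinearMap

theorem eu_apply {p : R →ₐ[ℂ] k} {d : ℕ} {h : R} (hh : h ∈ 𝒜 d) : eu 𝒜 p h = d * p h :=
  mkLin_apply 𝒜 hh

theorem eu_mem_tan (p : R →ₐ[ℂ] k) : eu 𝒜 p ∈ Tan p :=
  leibniz_of_hom 𝒜 fun i j a ha b hb => by
    rw [eu_apply 𝒜 (SetLike.mul_mem_graded ha hb), eu_apply 𝒜 ha, eu_apply 𝒜 hb, map_mul]
    push_cast
    ring

theorem twL_eu {c : k} {p : R →ₐ[ℂ] k} : twL 𝒜 c (eu 𝒜 p) = eu 𝒜 (twist 𝒜 c p) :=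
  lin_ext 𝒜 fun d h hh => by
    rw [twL_apply 𝒜 hh, eu_apply 𝒜 hh, eu_apply 𝒜 hh, twist_apply 𝒜 hh]
    ring

end tw

section vf
variable {R : Type} [CommRing R] [Algebra ℂ R] (𝒜 : ℕ → Submodule ℂ R)
  {k : Type} [Field k] [Algebra ℂ k]

/-- Vector fields along the weak curve `ψ` of degree `e`. -/
def Vf (e : ℕ) (ψ : R →ₐ[ℂ] k[X]) : Submodule k (R →ₗ[ℂ] k[X]) where
  carrier := {η | (∀ x y : R, η (x * y) = ψ x * η y + ψ y * η x) ∧
    ∀ d : ℕ, ∀ h ∈ 𝒜 d, (η h).natDegree ≤ d * e}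
  add_mem' := by
    rintro a b ⟨h1, h2⟩ ⟨h1', h2'⟩
    refine ⟨fun x y => ?_, fun d h hh => ?_⟩
    · rw [LinearMap.add_apply, LinearMap.add_apply, LinearMap.add_apply, h1, h1']
      ring
    · rw [LinearMap.add_apply]
      exact (natDegree_add_le _ _).trans (max_le (h2 d h hh) (h2' d h hh))
  zero_mem' := ⟨fun x y => by simp, fun d h _ => by simp⟩
  smul_mem' := by
    rintro c a ⟨h1, h2⟩
    refine ⟨fun x y => ?_, fun d h hh => ?_⟩
    · rw [LinearMap.smul_apply, LinearMap.smul_apply, LinearMap.smul_apply, h1, smul_add,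
        mul_smul_comm, mul_smul_comm]
    · rw [LinearMap.smul_apply]
      exact (natDegree_smul_le _ _).trans (h2 d h hh)

/-- Vector fields along `ψ` which vanish at infinity. -/
def Vf0 (e : ℕ) (ψ : R →ₐ[ℂ] k[X]) : Submodule k (R →ₗ[ℂ] k[X]) where
  carrier := {η | η ∈ Vf 𝒜 e ψ ∧ ∀ d : ℕ, ∀ h ∈ 𝒜 d, (η h).coeff (d * e) = 0}
  add_mem' := by
    rintro a b ⟨h1, h2⟩ ⟨h1', h2'⟩
    refine ⟨add_mem h1 h1', fun d h hh => ?_⟩
    rw [LinearMap.add_apply, coeff_add, h2 d h hh, h2' d h hh, add_zero]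
  zero_mem' := ⟨zero_mem _, fun d h _ => by simp⟩
  smul_mem' := by
    rintro c a ⟨h1, h2⟩
    refine ⟨Submodule.smul_mem _ _ h1, fun d h hh => ?_⟩
    rw [LinearMap.smul_apply, coeff_smul, h2 d h hh, smul_zero]

theorem vf_one {e : ℕ} {ψ : R →ₐ[ℂ] k[X]} {η : R →ₗ[ℂ] k[X]} (hη : η ∈ Vf 𝒜 e ψ) (c : ℂ) :
    η (algebraMap ℂ R c) = 0 := by
  have h1 := hη.1 1 1
  rw [mul_one, map_one ψ, one_mul] at h1
  have h2 : η 1 = 0 := by linear_combination -h1
  rw [Algebra.algebraMap_eq_smul_one, map_smul, h2, smul_zero]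

theorem vf_ext {e : ℕ} {ψ : R →ₐ[ℂ] k[X]} {η η' : R →ₗ[ℂ] k[X]} (hη : η ∈ Vf 𝒜 e ψ)
    (hη' : η' ∈ Vf 𝒜 e ψ) {T : Set R} (hT : Algebra.adjoin ℂ T = ⊤) (h : ∀ t ∈ T, η t = η' t) :
    η = η' := by
  refine LinearMap.ext fun r => ?_
  have hr : r ∈ Algebra.adjoin ℂ T := by rw [hT]; trivial
  induction hr using Algebra.adjoin_induction with
  | mem x hx => exact h x hx
  | algebraMap c => rw [vf_one 𝒜 hη, vf_one 𝒜 hη']
  | add x y _ _ hx hy => rw [map_add, map_add, hx, hy]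
  | mul x y _ _ hx hy => rw [hη.1, hη'.1, hx, hy]

/-- Coefficients of the values at generators. -/
noncomputable def valV (T : Finset R) (e : ℕ) : (R →ₗ[ℂ] k[X]) →ₗ[k] (T × Fin (e + 1) → k) where
  toFun v t := (v t.1).coeff t.2
  map_add' v w := by
    funext t
    rw [LinearMap.add_apply, coeff_add]
    rfl
  map_smul' c v := by
    funext t
    rw [LinearMap.smul_apply, coeff_smul]
    rfl

theorem valV_injective {T : Finset R} (hT1 : ∀ t ∈ T, t ∈ 𝒜 1)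
    (hT : Algebra.adjoin ℂ (T : Set R) = ⊤) (e : ℕ) (ψ : R →ₐ[ℂ] k[X]) :
    Function.Injective ((valV (k := k) T e).comp (Vf 𝒜 e ψ).subtype) := by
  intro v w h
  refine Subtype.ext (vf_ext 𝒜 v.2 w.2 hT fun t ht => Polynomial.ext fun i => ?_)
  by_cases hi : i < e + 1
  · exact congrFun h (⟨t, ht⟩, ⟨i, hi⟩)
  · have h1 := v.2.2 1 t (hT1 t ht)
    have h2 := w.2.2 1 t (hT1 t ht)
    rw [coeff_eq_zero_of_natDegree_lt (by omega), coeff_eq_zero_of_natDegree_lt (by omega)]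

theorem finite_vf (hft : Algebra.FiniteType ℂ R) (hgen : Algebra.adjoin ℂ {h : R | h ∈ 𝒜 1} = ⊤)
    (e : ℕ) (ψ : R →ₐ[ℂ] k[X]) : FiniteDimensional k (Vf 𝒜 e ψ) := by
  obtain ⟨T, hT1, hT⟩ := exists_gen1 hft hgen
  exact FiniteDimensional.of_injective _ (valV_injective 𝒜 hT1 hT e ψ)

theorem finite_of_vf (hft : Algebra.FiniteType ℂ R)
    (hgen : Algebra.adjoin ℂ {h : R | h ∈ 𝒜 1} = ⊤) {e : ℕ} {ψ : R →ₐ[ℂ] k[X]} {W : Type*}
    [AddCommGroup W] [Module k W] (L : W →ₗ[k] (R →ₗ[ℂ] k[X])) (hL : Function.Injective L)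
    (hW : ∀ w, L w ∈ Vf 𝒜 e ψ) : FiniteDimensional k W := by
  have := finite_vf 𝒜 hft hgen e ψ
  have hinj : Function.Injective (L.codRestrict (Vf 𝒜 e ψ) hW) := fun w w' h => by
    have h1 : L w = L w' := congrArg (fun x : Vf 𝒜 e ψ => (x : R →ₗ[ℂ] k[X])) h
    exact hL h1
  exact FiniteDimensional.of_injective (V₂ := Vf 𝒜 e ψ) _ hinj

theorem vf0_le (e : ℕ) (ψ : R →ₐ[ℂ] k[X]) : Vf0 𝒜 e ψ ≤ Vf 𝒜 e ψ := fun _ h => h.1

/-- The curve `ψ` of degree `e` has no base points. -/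
def Strong (e : ℕ) (ψ : R →ₐ[ℂ] k[X]) : Prop :=
  Deg 𝒜 e ψ ∧ (∃ h ∈ 𝒜 1, (ψ h).coeff e ≠ 0) ∧ Ideal.span (ψ '' {h : R | h ∈ 𝒜 1}) = ⊤

end vf

end Vale.Agent.P280.H475
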