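import Vale.Agent.P280.H475.Nilp

/-! P280, Theorem F: the orbits through the general points, and homogeneity. -/

open DirectSum Polynomial Module

namespace Vale.Agent.P280.H475

open Vale.Agent.P280.S

section statement

variable {R : Type} [CommRing R] [Algebra ℂ R]

/-- `φ` is the curve `c ↦ exp(c D) z`. -/
def IsOrbit (D : Derivation ℂ R R) (z : R →ₐ[ℂ] ℂ) (φ : R →ₐ[ℂ] MvPolynomial (Fin 2) ℂ) : Prop :=
  ∀ (h : R) (m : ℕ), (⇑D)^[m] h = 0 → ∀ c : ℂ,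
    pt φ ![c, 1] h = ∑ n ∈ Finset.range m, c ^ n / n.factorial * z ((⇑D)^[n] h)

/-- `v` is the velocity at `z` of the arc through `z` of a null pair `(F, θ)` of degree `e` with
`r e + d₀ ≤ N`, for which the velocity at `z'` of the arc through `z'` depends regularly on
`z' ∈ {g ≠ 0}`. -/
def IsArcVelocity (𝒜 : ℕ → Submodule ℂ R) (r : ℚ) (N : ℕ) (z : R →ₐ[ℂ] ℂ) (v : R →ₗ[ℂ] ℂ) :
    Prop :=
  ∃ (J : Set R) (θ : (R →ₐ[ℂ] ℂ) → (R →ₗ[ℂ] ℂ) → ℂ) (e d₀ : ℕ) (g : R),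
    IsNullPair 𝒜 J θ e d₀ g ∧ r * e + d₀ ≤ N ∧
    (∀ h : R, ∃ (a : R) (m : ℕ), ∀ z' : R →ₐ[ℂ] ℂ, z' g ≠ 0 →
      ∀ φ, IsArc 𝒜 J θ e z' φ → vel φ ![0, 1] 0 h * z' g ^ m = z' a) ∧
    z g ≠ 0 ∧ ∃ φ, IsArc 𝒜 J θ e z φ ∧ v = vel φ ![0, 1] 0

end statement

section

set_option linter.unusedSectionVars false

variable {R : Type} [CommRing R] [Algebra ℂ R] {𝒜 : ℕ → Submodule ℂ R} [GradedAlgebra 𝒜]
  {J : Set R} {e : ℕ} {L : Set (Rep R)}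

/-- Through the general point the solution is the orbit. -/
theorem general_sol [IsDomain R] (hft : Algebra.FiniteType ℂ R)
    (hgen : Algebra.adjoin ℂ {h : R | h ∈ 𝒜 1} = ⊤) {g : R} (hg : g ≠ 0) {E : R →ₐ[ℂ] R[X]}
    (hEd : ∀ d : ℕ, ∀ h ∈ 𝒜 d, (E h).natDegree ≤ d * e)
    (hE : ∀ (k : Type) [Field k] [Algebra ℂ k] (χ : R →ₐ[ℂ] k) (ψ : R →ₐ[ℂ] k[X]),
      Function.Injective χ → WSol 𝒜 J e χ ψ → Nrm L e ψ → ψ = (mapAlgHom χ).comp E) :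
    ∃ g' : R, g' ≠ 0 ∧ ∀ z : R →ₐ[ℂ] ℂ, z g' ≠ 0 → z g ≠ 0 ∧ ∀ ψ : R →ₐ[ℂ] ℂ[X],
      WSol 𝒜 J e z ψ → Nrm L e ψ → ψ = (mapAlgHom z).comp E := by
  classical
  by_contra hcon
  push Not at hcon
  let I := {z : R →ₐ[ℂ] ℂ // ∃ ψ : R →ₐ[ℂ] ℂ[X], WSol 𝒜 J e z ψ ∧ Nrm L e ψ ∧
    ψ ≠ (mapAlgHom z).comp E}
  choose ψz h1 h2 h3 using fun z : I => z.2
  obtain ⟨K, _, _, κ, ψ, hu, hinj, hcoef, hsol, hN⟩ := exists_big (𝒜 := 𝒜) (J := J) (e := e)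
    (L := L) hft hgen (I := I) (fun z => z.1) (fun r hr => by
      obtain ⟨z, hz, hz2⟩ := hcon (r * g) (mul_ne_zero hr hg)
      rw [map_mul] at hz
      obtain ⟨ψ, h4, h5, h6⟩ := hz2 (right_ne_zero_of_mul hz)
      exact ⟨⟨z, ψ, h4, h5, h6⟩, left_ne_zero_of_mul hz⟩) ψz (fun z => ⟨h1 z, h2 z⟩)
  have hχ : ∀ r, κ.comp (AlgHom.pi fun z : I => z.1) r = κ (fun z => z.1 r) := fun r => rfl
  have h4 := hE K _ ψ (by
    rw [injective_iff_map_eq_zero]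
    intro r hr
    by_contra hne
    exact hinj r hne hr) hsol hN
  obtain ⟨T, hT1, hT⟩ := exists_gen1 hft hgen
  let q : R → ℕ → I → ℂ := fun t n z => (ψz z t).coeff n - z.1 ((E t).coeff n)
  have hq : ∀ t n, κ (q t n) = 0 := by
    intro t n
    have h5 : κ (q t n) = κ (fun z => (ψz z t).coeff n) - κ (fun z => z.1 ((E t).coeff n)) :=
      map_sub κ _ _
    rw [h5, ← hcoef, ← hχ, sub_eq_zero, h4]
    change (mapAlgHom _ (E t)).coeff n = _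
    rw [coe_mapAlgHom, coeff_map]
    rfl
  refine hu (∑ t ∈ T, ∑ n ∈ Finset.range (e + 1), (fun z => (starRingEnd ℂ) (q t n z)) * q t n)
    (fun z h0 => ?_) ?_
  · simp only [Finset.sum_apply, Pi.mul_apply] at h0
    have h5 : ∑ t ∈ T, ∑ n ∈ Finset.range (e + 1), Complex.normSq (q t n z) = 0 := by
      have h6 : ((∑ t ∈ T, ∑ n ∈ Finset.range (e + 1), Complex.normSq (q t n z) : ℝ) : ℂ) = 0 := by
        rw [Complex.ofReal_sum, ← h0]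
        refine Finset.sum_congr rfl fun t _ => ?_
        rw [Complex.ofReal_sum]
        refine Finset.sum_congr rfl fun n _ => ?_
        rw [← Complex.mul_conj]
        exact mul_comm _ _
      exact_mod_cast h6
    apply h3 z
    refine AlgHom.ext_of_adjoin_eq_top hT fun t ht => ?_
    ext n
    change _ = (mapAlgHom z.1 (E t)).coeff n
    rw [coe_mapAlgHom, coeff_map]
    change _ = z.1 ((E t).coeff n)
    rcases Nat.lt_or_ge n (e + 1) with hn | hn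
    · have h6 := (Finset.sum_eq_zero_iff_of_nonneg fun t _ =>
        Finset.sum_nonneg fun n _ => Complex.normSq_nonneg _).1 h5 t ht
      have h7 := (Finset.sum_eq_zero_iff_of_nonneg
        fun n _ => Complex.normSq_nonneg _).1 h6 n (Finset.mem_range.2 hn)
      exact sub_eq_zero.1 (Complex.normSq_eq_zero.1 h7)
    · have h6 := (h1 z).deg 1 t (hT1 t ht)
      have h7 := hEd 1 t (hT1 t ht)
      rw [coeff_eq_zero_of_natDegree_lt (by omega), coeff_eq_zero_of_natDegree_lt (by omega),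
        map_zero]
  · rw [map_sum]
    refine Finset.sum_eq_zero fun t _ => ?_
    rw [map_sum]
    refine Finset.sum_eq_zero fun n _ => ?_
    rw [map_mul, hq, mul_zero]

theorem eval_eq_sum_iter {D : Derivation ℂ R R} {E : R →ₐ[ℂ] R[X]}
    (hE : ∀ h n, (E h).coeff n = ((n.factorial : ℂ))⁻¹ • (⇑D)^[n] h) (z : R →ₐ[ℂ] ℂ) {h : R}
    {m : ℕ} (hm : (⇑D)^[m] h = 0) (c : ℂ) :
    (mapAlgHom z (E h)).eval c = ∑ n ∈ Finset.range m, c ^ n / n.factorial * z ((⇑D)^[n] h) := by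
  have hco : ∀ n, (mapAlgHom z (E h)).coeff n = ((n.factorial : ℂ))⁻¹ * z ((⇑D)^[n] h) := by
    intro n
    rw [coe_mapAlgHom, coeff_map]
    change z ((E h).coeff n) = _
    rw [hE, map_smul, smul_eq_mul]
  rcases Nat.eq_zero_or_pos m with rfl | hm0
  · have h0 : h = 0 := hm
    rw [h0, map_zero, map_zero, eval_zero, Finset.range_zero, Finset.sum_empty]
  · have hnd : (mapAlgHom z (E h)).natDegree ≤ m - 1 :=
      natDegree_le_iff_coeff_eq_zero.2 fun i hi => by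
        rw [hco, iterate_zero_of_le hm (by omega), map_zero, mul_zero]
    rw [eval_eq_sum_range' (n := m) (by omega)]
    refine Finset.sum_congr rfl fun n _ => ?_
    rw [hco]
    ring

theorem eval_dehom (φ : R →ₐ[ℂ] MvPolynomial (Fin 2) ℂ) (c : ℂ) (h : R) :
    (dehom φ h).eval c = pt φ ![c, 1] h := by
  have h1 : (aeval c : ℂ[X] →ₐ[ℂ] ℂ).comp (MvPolynomial.aeval ![(X : ℂ[X]), 1]) =
      MvPolynomial.aeval ![c, 1] := by
    refine MvPolynomial.algHom_ext fun i => ?_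
    fin_cases i
    · simp
    · simp
  exact AlgHom.congr_fun h1 (φ h)

theorem vel_eq {φ : R →ₐ[ℂ] MvPolynomial (Fin 2) ℂ} (hφ : IsCurve 𝒜 e φ) (h : R) :
    vel φ ![0, 1] 0 h = (dehom φ h).coeff 1 := by
  have h1 : vel φ ![0, 1] 0 = (lcoeff ℂ 1) ∘ₗ (dehom φ).toLinearMap :=
    lin_ext 𝒜 fun d x hx => vel_zero hφ.1 hx
  exact LinearMap.congr_fun h1 h

theorem vel_orbit {D : Derivation ℂ R R} {E : R →ₐ[ℂ] R[X]}
    (hE : ∀ h n, (E h).coeff n = ((n.factorial : ℂ))⁻¹ • (⇑D)^[n] h) {z : R →ₐ[ℂ] ℂ}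
    {φ : R →ₐ[ℂ] MvPolynomial (Fin 2) ℂ} (hφ : IsCurve 𝒜 e φ)
    (h1 : dehom φ = (mapAlgHom z).comp E) (h : R) : vel φ ![0, 1] 0 h = z (D h) := by
  rw [vel_eq hφ, h1]
  change (mapAlgHom z (E h)).coeff 1 = _
  rw [coe_mapAlgHom, coeff_map]
  change z ((E h).coeff 1) = _
  rw [hE]
  simp

end

section

variable {R : Type} [CommRing R] [Algebra ℂ R] {𝒜 : ℕ → Submodule ℂ R} [GradedAlgebra 𝒜]

/-- **The vector field of a null pair**, final form. -/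
theorem null_pair_field (hX : IsProjectiveManifold 𝒜) {r : ℚ} (hr : 0 < r) (hI : HasIndex 𝒜 r)
    {N : ℕ} (hN : (N : Cardinal) ≤ Algebra.trdeg ℂ R) {J : Set R}
    {θ : (R →ₐ[ℂ] ℂ) → (R →ₗ[ℂ] ℂ) → ℂ} {e d₀ : ℕ} {g : R} (hg : g ≠ 0)
    (hP : IsNullPair 𝒜 J θ e d₀ g) (hc : r * e + d₀ ≤ N) :
    ∃ D : Derivation ℂ R R, (∀ d : ℕ, ∀ h ∈ 𝒜 d, D h ∈ 𝒜 d) ∧ (∀ h, ∃ n : ℕ, (⇑D)^[n] h = 0) ∧
      (∃ g' : R, g' ≠ 0 ∧ ∀ z : R →ₐ[ℂ] ℂ, z g' ≠ 0 → z g ≠ 0 ∧ ∀ φ, IsArc 𝒜 J θ e z φ →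
        IsOrbit D z φ ∧ ∀ h, vel φ ![0, 1] 0 h = z (D h)) := by
  have := hX.domain
  obtain ⟨D, hD1, hD2, E, hE, hEd, hkey⟩ := exists_nfield hX hr hI hg hP hN hc
  refine ⟨D, hD1, hD2, ?_⟩
  obtain ⟨g', hg', h1⟩ := general_sol hX.finiteType hX.gen hg hEd hkey
  refine ⟨g', hg', fun z hz => ⟨(h1 z hz).1, fun φ hφ => ?_⟩⟩
  obtain ⟨h2, h3⟩ := weak_of_arc hX.gen hφ
  have h4 := (h1 z hz).2 _ h2 h3
  refine ⟨fun h m hm c => ?_, vel_orbit hE hφ.1 h4⟩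
  rw [← eval_dehom, h4]
  exact eval_eq_sum_iter hE z hm c

/-- The velocities of the arcs are values of nilpotent fields. -/
theorem velocity_field (hX : IsProjectiveManifold 𝒜) {r : ℚ} (hr : 0 < r) (hI : HasIndex 𝒜 r)
    {N : ℕ} (hN : (N : Cardinal) ≤ Algebra.trdeg ℂ R) {z : R →ₐ[ℂ] ℂ} {v : R →ₗ[ℂ] ℂ}
    (hv : IsArcVelocity 𝒜 r N z v) :
    ∃ D : Derivation ℂ R R, ((∀ d : ℕ, ∀ h ∈ 𝒜 d, D h ∈ 𝒜 d) ∧ ∀ h, ∃ n : ℕ, (⇑D)^[n] h = 0) ∧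
      ∀ h, v h = z (D h) := by
  have := hX.domain
  have := hX.finiteType
  obtain ⟨J, θ, e, d₀, g, hP, hc, hreg, hz, φ, hφ, rfl⟩ := hv
  have hg : g ≠ 0 := fun h => hz (by rw [h, map_zero])
  obtain ⟨D, hD1, hD2, g', hg', h1⟩ := null_pair_field hX hr hI hN hg hP hc
  refine ⟨D, ⟨hD1, hD2⟩, fun h => ?_⟩
  obtain ⟨a, m, ha⟩ := hreg h
  have h2 : D h * g ^ m = a := by
    by_contra hne
    obtain ⟨y, hy⟩ := Vale.Agent.P292.VF.exists_point_ne_zero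
      (mul_ne_zero hg' (sub_ne_zero.2 hne))
    rw [map_mul] at hy
    obtain ⟨h3, h4⟩ := h1 y (left_ne_zero_of_mul hy)
    obtain ⟨φ', hφ', -⟩ := hP.unique y h3
    apply right_ne_zero_of_mul hy
    rw [map_sub, ← ha y h3 φ' hφ', (h4 φ' hφ').2, map_mul, map_pow, sub_self]
  have h3 := ha z hz φ hφ
  rw [← h2, map_mul, map_pow] at h3
  exact mul_right_cancel₀ (pow_ne_zero m hz) h3

/-- **Homogeneity.** -/
theorem homogeneous_of_velocities (hX : IsProjectiveManifold 𝒜) {r : ℚ} (hr : 0 < r)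
    (hI : HasIndex 𝒜 r) {N : ℕ} (hN : (N : Cardinal) ≤ Algebra.trdeg ℂ R)
    (hspan : ∀ z : R →ₐ[ℂ] ℂ, ¬ IsVertex 𝒜 z → ∀ v : R →ₗ[ℂ] ℂ, IsTangent z v →
      ∃ c : ℂ, ∃ w ∈ Submodule.span ℂ {w : R →ₗ[ℂ] ℂ | IsArcVelocity 𝒜 r N z w},
        ∀ d : ℕ, ∀ h ∈ 𝒜 d, v h = w h + c * (d * z h)) :
    IsHomogeneousManifold 𝒜 ∧ IsTransitive 𝒜 := by
  refine transitive_of_nilpotent hX {D | (∀ d : ℕ, ∀ h ∈ 𝒜 d, D h ∈ 𝒜 d) ∧
    ∀ h, ∃ n : ℕ, (⇑D)^[n] h = 0} (fun D hD => hD) fun z hz v hv => ?_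
  obtain ⟨c, w, hw, hvw⟩ := hspan z hz v hv
  refine ⟨c, w, Submodule.span_mono ?_ hw, hvw⟩
  rintro w' hw'
  exact velocity_field hX hr hI hN hw'

end

end Vale.Agent.P280.H475
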