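import Vale.Agent.P280.H475.Reg
import Vale.Agent.P280.H475.Trans

/-! P280, Theorem F: the vector field of a null pair. -/

open DirectSum Polynomial Module

namespace Vale.Agent.P280.H475

open Vale.Agent.P280.S

section taylor
variable {k : Type*} [Field k]

theorem taylor_top {f : k[X]} {n : ℕ} (hf : f.natDegree ≤ n) (r : k) :
    (taylor r f).coeff n = f.coeff n := by
  have h1 : hasseDeriv n f = C (f.coeff n) := by
    ext j
    rw [hasseDeriv_coeff, coeff_C]
    split_ifs with hj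
    · subst hj
      rw [zero_add, Nat.choose_self, Nat.cast_one, one_mul]
    · rw [coeff_eq_zero_of_natDegree_lt (by omega), mul_zero]
  rw [taylor_coeff, h1, eval_C]

theorem taylor_top1 {f : k[X]} {n : ℕ} (hf : f.natDegree ≤ n) (r : k) :
    (X * taylor r f).coeff n = (X * f).coeff n + n * r * f.coeff n := by
  cases n with
  | zero => simp
  | succ n =>
    have h1 : hasseDeriv n f = C (f.coeff n) + C ((n + 1) * f.coeff (n + 1)) * X := by
      ext j
      rw [hasseDeriv_coeff, coeff_add, coeff_C, coeff_C_mul, coeff_X]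
      rcases j with _ | _ | j
      · simp
      · rw [zero_add, if_neg one_ne_zero, if_pos rfl, zero_add, mul_one, add_comm 1 n,
          Nat.choose_symm_of_eq_add (show n + 1 = n + 1 from rfl), Nat.choose_one_right]
        push_cast
        rfl
      · rw [if_neg (by omega), if_neg (by omega), coeff_eq_zero_of_natDegree_lt (by omega)]
        ring
    rw [coeff_X_mul, coeff_X_mul, taylor_coeff, h1, eval_add, eval_C, eval_mul, eval_C, eval_X]
    push_cast
    ring

end taylor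

section

set_option linter.unusedSectionVars false

variable {R : Type} [CommRing R] [Algebra ℂ R] {𝒜 : ℕ → Submodule ℂ R} [GradedAlgebra 𝒜]
  {J : Set R} {e : ℕ} {L : Set (Rep R)}

/-- Field extensions. -/
theorem wsol_map {k k' : Type} [Field k] [Algebra ℂ k] [Field k'] [Algebra ℂ k']
    (σ : k →ₐ[ℂ] k') {θ : R →ₐ[ℂ] k} {ψ : R →ₐ[ℂ] k[X]} (h : WSol 𝒜 J e θ ψ)
    (hN : Nrm L e ψ) : WSol 𝒜 J e (σ.comp θ) ((mapAlgHom σ).comp ψ) ∧
      Nrm L e ((mapAlgHom σ).comp ψ) := by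
  have hc : ∀ r i, (((mapAlgHom σ).comp ψ) r).coeff i = σ ((ψ r).coeff i) := by
    intro r i
    change (mapAlgHom σ (ψ r)).coeff i = _
    rw [coe_mapAlgHom, coeff_map]
    rfl
  refine ⟨⟨fun d z hz => ?_, fun z => ?_, ?_, fun d z hz hd => ?_⟩, fun ρ hρ => ?_⟩
  · refine natDegree_le_iff_coeff_eq_zero.2 fun i hi => ?_
    rw [hc, coeff_eq_zero_of_natDegree_lt (lt_of_le_of_lt (h.deg d z hz) hi), map_zero]
  · rw [hc, h.start]
    rfl
  · obtain ⟨x, hx, hne⟩ := h.nv
    refine ⟨x, hx, fun h0 => hne ?_⟩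
    rw [cInf, hc] at h0
    exact (map_eq_zero_iff σ σ.injective).1 h0
  · have h1 := h.mem d z hz hd
    rw [cInf] at h1
    rw [cInf, hc, h1, map_zero]
  · have h3 := val_of_coeff (e := e) (σ : k →+* k') (Ψ := ψ) (ψ := (mapAlgHom σ).comp ψ) hc ρ
    have h4 := val_of_coeff (e := e) (RingHom.id k) (Ψ := ψ) (ψ := ψ) (fun _ _ => rfl) ρ
    rw [RingHom.id_apply] at h4
    rw [h3, ← h4, hN ρ hρ, cInf, cInf, hc]
    rfl

/-- Rescaling. -/
theorem wsol_twist {k : Type} [Field k] [Algebra ℂ k] {c : k} (hc : c ≠ 0) {θ : R →ₐ[ℂ] k}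
    {ψ : R →ₐ[ℂ] k[X]} (hL : ∀ ρ ∈ L, ρ.IsHom 𝒜) (h : WSol 𝒜 J e θ ψ)
    (hN : Nrm L e ψ) : WSol 𝒜 J e (twist 𝒜 c θ) (twist 𝒜 (C c) ψ) ∧
      Nrm L e (twist 𝒜 (C c) ψ) := by
  have hcf : ∀ d, ∀ x ∈ 𝒜 d, ∀ i, (twist 𝒜 (C c) ψ x).coeff i = c ^ d * (ψ x).coeff i := by
    intro d x hx i
    rw [twist_apply 𝒜 hx, ← C_pow, coeff_C_mul]
  have hcf1 : ∀ d, ∀ x ∈ 𝒜 d, ∀ i, (X * twist 𝒜 (C c) ψ x).coeff i =
      c ^ d * (X * ψ x).coeff i := by
    intro d x hx i
    cases i with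
    | zero => rw [coeff_X_mul_zero, coeff_X_mul_zero, mul_zero]
    | succ i => rw [coeff_X_mul, coeff_X_mul, hcf d x hx]
  refine ⟨⟨fun d z hz => ?_, fun z => ?_, ?_, fun d z hz hd => ?_⟩, fun ρ hρ => ?_⟩
  · refine natDegree_le_iff_coeff_eq_zero.2 fun i hi => ?_
    rw [hcf d z hz, coeff_eq_zero_of_natDegree_lt (lt_of_le_of_lt (h.deg d z hz) hi), mul_zero]
  · have h1 : cz.comp (twist 𝒜 (C c) ψ) = twist 𝒜 c θ := hom_ext_hom 𝒜 fun d y hy => by
      rw [AlgHom.comp_apply, cz_apply, hcf d y hy, h.start, twist_apply 𝒜 hy]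
    rw [← h1, AlgHom.comp_apply, cz_apply]
  · obtain ⟨x, hx, hne⟩ := h.nv
    refine ⟨x, hx, ?_⟩
    rw [cInf, hcf 1 x hx]
    exact mul_ne_zero (pow_ne_zero _ hc) hne
  · have h1 := h.mem d z hz hd
    rw [cInf] at h1
    rw [cInf, hcf d z hd, h1, mul_zero]
  · obtain ⟨h1, h2⟩ := hL ρ hρ
    have h3 := hN ρ hρ
    rw [cInf] at h3
    rw [cInf, hcf _ _ h1, ← h3, Rep.val, Rep.val, Finset.mul_sum]
    refine Finset.sum_congr rfl fun i _ => ?_
    obtain ⟨h4, h5, h6⟩ := h2 i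
    rw [cInf, cInf, vInf, vInf, hcf _ _ h4, hcf1 _ _ h5, ← h6, pow_add]
    ring

/-- **The vector field of a null pair.** -/
theorem exists_nfield (hX : IsProjectiveManifold 𝒜) {r : ℚ} (hr : 0 < r) (hI : HasIndex 𝒜 r)
    {θ : (R →ₐ[ℂ] ℂ) → (R →ₗ[ℂ] ℂ) → ℂ} {d₀ : ℕ} {g : R} (hg : g ≠ 0)
    (hP : IsNullPair 𝒜 J θ e d₀ g) {N : ℕ} (hN : (N : Cardinal) ≤ Algebra.trdeg ℂ R)
    (hc : r * e + d₀ ≤ N) :
    ∃ D : Derivation ℂ R R, (∀ d : ℕ, ∀ h ∈ 𝒜 d, D h ∈ 𝒜 d) ∧ (∀ h, ∃ n : ℕ, (⇑D)^[n] h = 0) ∧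
      ∃ E : R →ₐ[ℂ] R[X], (∀ h n, (E h).coeff n = ((n.factorial : ℂ))⁻¹ • (⇑D)^[n] h) ∧
        (∀ d : ℕ, ∀ h ∈ 𝒜 d, (E h).natDegree ≤ d * e) ∧
      ∀ (k : Type) [Field k] [Algebra ℂ k] (χ : R →ₐ[ℂ] k) (ψ : R →ₐ[ℂ] k[X]),
        Function.Injective χ → WSol 𝒜 J e χ ψ → Nrm {ρ | ρ.IsValid 𝒜 J θ} e ψ →
        ψ = (mapAlgHom χ).comp E := by
  have := hX.domain
  have hft := hX.finiteType
  have hgen := hX.gen
  have huniq : ∀ z : R →ₐ[ℂ] ℂ, z g ≠ 0 → ∃! ψ : R →ₐ[ℂ] ℂ[X], WSol 𝒜 J e z ψ ∧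
      Nrm {ρ | ρ.IsValid 𝒜 J θ} e ψ := fun z hz => unique_weak hgen hP hz
  let K := FractionRing R
  obtain ⟨U, hU, hUN⟩ := exists_generic (𝒜 := 𝒜) (J := J) (e := e)
    (L := {ρ | ρ.IsValid 𝒜 J θ}) hft hgen hg huniq K
  have hinjK : Function.Injective (algebraMap R K) := IsFractionRing.injective R K
  have hU0 : ∀ x, (U x).coeff 0 = algebraMap R K x := hU.start
  have hv1 : ∀ x y, (U (x * y)).coeff 1 = algebraMap R K x * (U y).coeff 1 +
      algebraMap R K y * (U x).coeff 1 := by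
    intro x y
    rw [map_mul, mul_coeff_one, hU0, hU0]
    ring
  have hconst : ∀ c : ℂ, (U (algebraMap ℂ R c)).coeff 1 = 0 := by
    intro c
    rw [AlgHom.commutes, Polynomial.algebraMap_apply, coeff_C, if_neg one_ne_zero]
  have hreg : ∀ x, (U x).coeff 1 ∈ Set.range (algebraMap R K) := by
    intro x
    have hx : x ∈ Algebra.adjoin ℂ {h : R | h ∈ 𝒜 1} := by rw [hgen]; trivial
    induction hx using Algebra.adjoin_induction with
    | mem x hx => exact regular hX hr hI hP hN hc hU hUN hx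
    | algebraMap c => exact ⟨0, by rw [hconst, map_zero]⟩
    | add x y _ _ hx hy =>
      obtain ⟨a, ha⟩ := hx
      obtain ⟨b, hb⟩ := hy
      exact ⟨a + b, by rw [map_add, ha, hb, map_add, coeff_add]⟩
    | mul x y _ _ hx hy =>
      obtain ⟨a, ha⟩ := hx
      obtain ⟨b, hb⟩ := hy
      exact ⟨x * b + y * a, by rw [map_add, map_mul, map_mul, ha, hb, hv1]⟩
  choose f hf using hreg
  let F : R →ₗ[ℂ] R :=
    { toFun := f
      map_add' := fun x y => hinjK (by rw [map_add, hf, hf, hf, map_add, coeff_add])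
      map_smul' := fun c x => hinjK (by
        rw [RingHom.id_apply, hf, map_smul, coeff_smul, Algebra.smul_def, Algebra.smul_def,
          map_mul, hf, ← IsScalarTower.algebraMap_apply]) }
  let D : Derivation ℂ R R := Derivation.mk' F fun x y => hinjK (by
    change algebraMap R K (f (x * y)) = algebraMap R K (x * f y + y * f x)
    rw [map_add, map_mul, map_mul, hf, hf, hf, hv1])
  have hDU : ∀ x, algebraMap R K (D x) = (U x).coeff 1 := hf
  -- the main property
  have hkey0 : ∀ (k : Type) [Field k] [Algebra ℂ k] (χ : R →ₐ[ℂ] k) (ψ : R →ₐ[ℂ] k[X]),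
      Function.Injective χ → WSol 𝒜 J e χ ψ → Nrm {ρ | ρ.IsValid 𝒜 J θ} e ψ →
      ∃ σ : K →ₐ[ℂ] k, (∀ r, σ (algebraMap R K r) = χ r) ∧
        ∀ h n, (ψ h).coeff n = σ ((U h).coeff n) := by
    intro k _ _ χ ψ hχ hψ hψN
    have hχ' : Function.Injective (χ : R →+* k) := hχ
    let σ₀ : K →+* k := IsFractionRing.lift hχ'
    have hσ₀ : ∀ r, σ₀ (algebraMap R K r) = χ r := fun r => IsFractionRing.lift_algebraMap hχ' r
    let σ : K →ₐ[ℂ] k := { σ₀ with
      commutes' := fun c => by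
        change σ₀ (algebraMap ℂ K c) = _
        rw [IsScalarTower.algebraMap_apply ℂ R K, hσ₀, AlgHom.commutes] }
    have hσ : ∀ r, σ (algebraMap R K r) = χ r := hσ₀
    have h1 := wsol_map σ hU hUN
    have h2 : σ.comp (IsScalarTower.toAlgHom ℂ R K) = χ := AlgHom.ext hσ
    rw [h2] at h1
    have hχg : χ g ≠ 0 := fun h0 => hg (hχ (by rw [h0, map_zero]))
    have h3 := wsol_unique hft hgen huniq hχg hψ hψN h1.1 h1.2
    refine ⟨σ, hσ, fun h n => ?_⟩
    rw [h3]
    change (mapAlgHom σ (U h)).coeff n = _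
    rw [coe_mapAlgHom, coeff_map]
    rfl
  have hkey : ∀ (k : Type) [Field k] [Algebra ℂ k] (χ : R →ₐ[ℂ] k) (ψ : R →ₐ[ℂ] k[X]),
      Function.Injective χ → WSol 𝒜 J e χ ψ → Nrm {ρ | ρ.IsValid 𝒜 J θ} e ψ →
      ∀ h, (ψ h).coeff 1 = χ (D h) := by
    intro k _ _ χ ψ hχ hψ hψN h
    obtain ⟨σ, hσ, h1⟩ := hkey0 k χ ψ hχ hψ hψN
    rw [h1, ← hDU, hσ]
  have hUp : ∃ p : R →ₐ[ℂ] K, ∀ d, ∀ h ∈ 𝒜 d, (U h).coeff (d * e) = p h := exists_end hU.deg
  obtain ⟨p, hp⟩ := hUp
  have hdeg0 : ∀ d : ℕ, ∀ h ∈ 𝒜 d, D h ∈ 𝒜 d := by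
    intro d h hh
    classical
    let τ : R →ₐ[ℂ] R := twist 𝒜 (algebraMap ℂ R 2) (AlgHom.id ℂ R)
    let τ' : R →ₐ[ℂ] R := twist 𝒜 (algebraMap ℂ R 2⁻¹) (AlgHom.id ℂ R)
    have hτ : ∀ d, ∀ x ∈ 𝒜 d, τ x = (2 : ℂ) ^ d • x := fun d x hx => by
      change twist 𝒜 (algebraMap ℂ R 2) (AlgHom.id ℂ R) x = _
      rw [twist_apply 𝒜 hx, ← map_pow, Algebra.smul_def]
      rfl
    have hτinj : Function.Injective τ := by
      have h1 : τ'.comp τ = AlgHom.id ℂ R := hom_ext_hom 𝒜 fun d x hx => by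
        rw [AlgHom.comp_apply, hτ d x hx, map_smul]
        change (2 : ℂ) ^ d • twist 𝒜 (algebraMap ℂ R 2⁻¹) (AlgHom.id ℂ R) x = _
        rw [twist_apply 𝒜 hx, ← map_pow, ← Algebra.smul_def, smul_smul, ← mul_pow]
        norm_num
      intro x y hxy
      have h2 := congrArg τ' hxy
      have h3 := AlgHom.congr_fun h1 x
      have h4 := AlgHom.congr_fun h1 y
      rw [AlgHom.comp_apply] at h3 h4
      rw [h3, h4] at h2
      exact h2
    have h2K : (algebraMap ℂ K 2) ≠ 0 := by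
      rw [Ne, map_eq_zero_iff _ (algebraMap ℂ K).injective]
      norm_num
    have hχ : twist 𝒜 (algebraMap ℂ K 2) (IsScalarTower.toAlgHom ℂ R K) =
        (IsScalarTower.toAlgHom ℂ R K).comp τ := hom_ext_hom 𝒜 fun d x hx => by
      rw [twist_apply 𝒜 hx, AlgHom.comp_apply, hτ d x hx, map_smul, Algebra.smul_def, map_pow]
    have h1 := wsol_twist h2K (fun ρ hρ => hρ.1) hU hUN
    have h2 := hkey K _ _ (by
      rw [hχ]
      exact hinjK.comp hτinj) h1.1 h1.2 h
    rw [twist_apply 𝒜 hh, ← C_pow, coeff_C_mul, ← hDU, hχ] at h2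
    have h3 : τ (D h) = (2 : ℂ) ^ d • D h := by
      apply hinjK
      have h4 : algebraMap R K (τ (D h)) = algebraMap ℂ K 2 ^ d * algebraMap R K (D h) := h2.symm
      rw [h4, Algebra.smul_def, map_mul, ← IsScalarTower.algebraMap_apply, map_pow]
    -- compare the components
    have h5 : ∀ j, j ≠ d → (DirectSum.decompose 𝒜 (D h) j : R) = 0 := by
      intro j hj
      have h6 : τ (D h) = ∑ i ∈ (DirectSum.decompose 𝒜 (D h)).support,
          (2 : ℂ) ^ i • (DirectSum.decompose 𝒜 (D h) i : R) := by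
        conv_lhs => rw [← DirectSum.sum_support_decompose 𝒜 (D h)]
        rw [map_sum]
        exact Finset.sum_congr rfl fun i _ => hτ i _ (SetLike.coe_mem _)
      have h7 : (DirectSum.decompose 𝒜 (τ (D h)) j : R) =
          (2 : ℂ) ^ j • (DirectSum.decompose 𝒜 (D h) j : R) := by
        rw [h6, DirectSum.decompose_sum, DFinsupp.finsetSum_apply, AddSubmonoidClass.coe_finsetSum]
        have h8 : ∀ i, (DirectSum.decompose 𝒜 ((2 : ℂ) ^ i •
            (DirectSum.decompose 𝒜 (D h) i : R)) j : R) =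
            if i = j then (2 : ℂ) ^ j • (DirectSum.decompose 𝒜 (D h) j : R) else 0 := by
          intro i
          have h9 : (2 : ℂ) ^ i • (DirectSum.decompose 𝒜 (D h) i : R) ∈ 𝒜 i :=
            Submodule.smul_mem _ _ (SetLike.coe_mem _)
          split_ifs with hij
          · subst hij
            rw [DirectSum.decompose_of_mem_same 𝒜 h9]
          · rw [DirectSum.decompose_of_mem_ne 𝒜 h9 hij]
        rw [Finset.sum_congr rfl fun i _ => h8 i, Finset.sum_ite_eq']
        split_ifs with hj'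
        · rfl
        · rw [DFinsupp.notMem_support_iff.1 hj']
          simp
      have h8 : (DirectSum.decompose 𝒜 (τ (D h)) j : R) =
          (2 : ℂ) ^ d • (DirectSum.decompose 𝒜 (D h) j : R) := by
        rw [h3, DirectSum.decompose_smul]
        rfl
      rw [h7, ← sub_eq_zero, ← sub_smul] at h8
      rcases smul_eq_zero.1 h8 with h9 | h9
      · exfalso
        apply hj
        have h10 : ((2 ^ j : ℕ) : ℂ) = ((2 ^ d : ℕ) : ℂ) := by
          push_cast
          exact sub_eq_zero.1 h9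
        exact Nat.pow_right_injective le_rfl (Nat.cast_injective h10)
      · exact h9
    have h6 : D h = (DirectSum.decompose 𝒜 (D h) d : R) := by
      conv_lhs => rw [← DirectSum.sum_support_decompose 𝒜 (D h)]
      by_cases hd : d ∈ (DirectSum.decompose 𝒜 (D h)).support
      · exact Finset.sum_eq_single_of_mem d hd fun j _ hj => h5 j hj
      · rw [DFinsupp.notMem_support_iff.1 hd]
        exact Finset.sum_eq_zero fun j hj => h5 j fun hjd => hd (hjd ▸ hj)
    rw [h6]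
    exact SetLike.coe_mem _
  have hcoefU : ∀ (n : ℕ) (x : R), (n.factorial : K) * (U x).coeff n =
        algebraMap R K ((⇑D)^[n] x) := by
    let M := FractionRing K[X]
    let t₀ : M := algebraMap K[X] M X
    let jK : K →ₐ[ℂ] M := (IsScalarTower.toAlgHom ℂ K[X] M).comp
      (IsScalarTower.toAlgHom ℂ K K[X])
    let χ : R →ₐ[ℂ] M := (IsScalarTower.toAlgHom ℂ K[X] M).comp U
    have hMinj : Function.Injective (algebraMap K[X] M) := IsFractionRing.injective K[X] M
    have hχinj : Function.Injective χ := by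
      intro x y hxy
      have h1 : U x = U y := hMinj hxy
      have h2 := congrArg (fun q : K[X] => q.coeff 0) h1
      simp only [hU0] at h2
      exact hinjK h2
    let ψ : R →ₐ[ℂ] M[X] := ((taylorAlgHom t₀).restrictScalars ℂ).comp ((mapAlgHom jK).comp U)
    have hψ : ∀ x, ψ x = taylor t₀ ((U x).map (jK : K →+* M)) := fun x => rfl
    have hmc : ∀ x i, ((U x).map (jK : K →+* M)).coeff i = jK ((U x).coeff i) := fun x i =>
      coeff_map _ _
    have hmd : ∀ d, ∀ x ∈ 𝒜 d, ((U x).map (jK : K →+* M)).natDegree ≤ d * e := fun d x hx =>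
      natDegree_map_le.trans (hU.deg d x hx)
    have hjinj : Function.Injective jK := jK.injective
    have heval : ∀ q : K[X], (q.map (jK : K →+* M)).eval t₀ = algebraMap K[X] M q := by
      intro q
      rw [eval_map]
      have h1 : eval₂ ((algebraMap K[X] M).comp C) (algebraMap K[X] M X) q =
          algebraMap K[X] M (eval₂ C X q) := (hom_eval₂ q C (algebraMap K[X] M) X).symm
      rw [eval₂_C_X] at h1
      rw [← h1]
      rfl
    have htop : ∀ d, ∀ x ∈ 𝒜 d, (ψ x).coeff (d * e) = jK ((U x).coeff (d * e)) := by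
      intro d x hx
      rw [hψ, taylor_top (hmd d x hx), hmc]
    have htop1 : ∀ d, ∀ x ∈ 𝒜 d, (X * ψ x).coeff (d * e) =
        jK ((X * U x).coeff (d * e)) + ((d * e : ℕ) : M) * t₀ * jK ((U x).coeff (d * e)) := by
      intro d x hx
      rw [hψ, taylor_top1 (hmd d x hx), hmc]
      congr 1
      cases d * e with
      | zero => rw [coeff_X_mul_zero, coeff_X_mul_zero, map_zero]
      | succ n => rw [coeff_X_mul, coeff_X_mul, hmc]
    have hψsol : WSol 𝒜 J e χ ψ := by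
      refine ⟨fun d x hx => ?_, fun x => ?_, ?_, fun d x hx hd => ?_⟩
      · rw [hψ, natDegree_taylor]
        exact hmd d x hx
      · rw [hψ, taylor_coeff_zero, heval]
        rfl
      · obtain ⟨x, hx, hne⟩ := hU.nv
        refine ⟨x, hx, fun h0 => hne ?_⟩
        rw [cInf, htop 1 x hx] at h0
        exact hjinj (by rw [map_zero]; exact h0)
      · have h1 := hU.mem d x hx hd
        rw [cInf] at h1
        rw [cInf, htop d x hd, h1, map_zero]
    have hpNV : NV 𝒜 p := by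
      obtain ⟨x, hx, hne⟩ := hU.nv
      exact ⟨x, hx, by rw [← hp 1 x hx]; exact hne⟩
    have hpJ : ∀ x ∈ J, p x = 0 := by
      intro x hx
      obtain ⟨d, hd⟩ := hP.homogeneous x hx
      rw [← hp d x hd]
      exact hU.mem d x hx hd
    have hψN : Nrm {ρ | ρ.IsValid 𝒜 J θ} e ψ := by
      intro ρ hρ
      have h1 := hUN ρ hρ
      have h2 := euler_rel hft hgen hP.covector hρ hpNV hpJ
      obtain ⟨hb, hi⟩ := hρ.1
      rw [cInf, htop _ _ hb]
      have h3 : jK ((U ρ.b).coeff (ρ.m * e)) = jK (ρ.val e U) := by rw [h1]; rfl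
      have h4 : ρ.val e ψ = jK (ρ.val e U) + e * t₀ *
          jK (∑ i, (ρ.l i : K) * (p (ρ.a i) * p (ρ.c i))) := by
        rw [Rep.val, Rep.val, map_sum, map_sum, Finset.mul_sum, ← Finset.sum_add_distrib]
        refine Finset.sum_congr rfl fun i _ => ?_
        obtain ⟨h5, h6, -⟩ := hi i
        rw [cInf, vInf, cInf, vInf, htop _ _ h5, htop1 _ _ h6, ← hp _ _ h5, ← hp _ _ h6, map_mul,
          map_mul, map_mul, map_natCast, Nat.cast_mul]
        ring
      rw [h3, h4, h2, map_zero, mul_zero, add_zero]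
    have hder : ∀ x, derivative (U x) = U (D x) := by
      intro x
      apply hMinj
      have h1 := hkey M χ ψ hχinj hψsol hψN x
      rw [hψ, taylor_coeff_one, derivative_map, heval] at h1
      exact h1
    intro n
    induction n with
    | zero =>
      intro x
      rw [Nat.factorial_zero, Nat.cast_one, one_mul, hU0]
      rfl
    | succ n ih =>
      intro x
      rw [Function.iterate_succ_apply, ← ih (D x), ← hder, coeff_derivative,
        Nat.factorial_succ, Nat.cast_mul, Nat.cast_succ]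
      ring
  have hnilp : ∀ h, ∃ n : ℕ, (⇑D)^[n] h = 0 := by
    intro x
    refine ⟨(U x).natDegree + 1, hinjK ?_⟩
    rw [← hcoefU, coeff_eq_zero_of_natDegree_lt (Nat.lt_succ_self _), mul_zero, map_zero]
  obtain ⟨E, hE⟩ := exists_expX D hnilp
  have hfac : ∀ n : ℕ, ((n.factorial : ℕ) : ℂ) ≠ 0 := fun n => by
    exact_mod_cast n.factorial_ne_zero
  have hUE : ∀ x n, (U x).coeff n = algebraMap R K ((E x).coeff n) := by
    intro x n
    rw [hE, Algebra.smul_def, map_mul, ← hcoefU, ← IsScalarTower.algebraMap_apply, map_inv₀,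
      map_natCast, inv_mul_cancel_left₀]
    have h1 : algebraMap ℂ K ((n.factorial : ℕ) : ℂ) ≠ 0 := by
      rw [Ne, map_eq_zero_iff _ (algebraMap ℂ K).injective]
      exact hfac n
    rwa [map_natCast] at h1
  refine ⟨D, hdeg0, hnilp, E, hE, fun d h hh => ?_, ?_⟩
  · refine natDegree_le_iff_coeff_eq_zero.2 fun i hi => hinjK ?_
    rw [← hUE, coeff_eq_zero_of_natDegree_lt (lt_of_le_of_lt (hU.deg d h hh) hi), map_zero]
  · intro k _ _ χ ψ hχ hψ hψN
    obtain ⟨σ, hσ, h1⟩ := hkey0 k χ ψ hχ hψ hψN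
    refine AlgHom.ext fun h => ?_
    ext n
    rw [h1, hUE, hσ]
    change _ = (mapAlgHom χ (E h)).coeff n
    rw [coe_mapAlgHom, coeff_map]
    rfl

end

end Vale.Agent.P280.H475
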