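import Vale.Agent.P280.H475.Val

/-! P280, Theorem F: the Newton polygon of a curve over a discretely valued field. -/

open DirectSum Polynomial Module

namespace Vale.Agent.P280.H475

open Vale.Agent.P280.S

section
variable {R : Type} [CommRing R] [Algebra ℂ R] {𝒜 : ℕ → Submodule ℂ R} [GradedAlgebra 𝒜]
variable {K κ : Type} [Field K] [Algebra ℂ K] [Field κ] [Algebra ℂ κ] (v : LV K κ)
variable {S : Finset R} (hS : ∀ s ∈ S, s ∈ 𝒜 1) (hgen : Algebra.adjoin ℂ (S : Set R) = ⊤)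
  (U : R →ₐ[ℂ] K[X])

/-- The line of slope `σ` is below the Newton polygon. -/
def Below (S : Finset R) (σ c : ℤ) : Prop :=
  ∀ s ∈ S, ∀ i : ℕ, v.W (σ * i + c) ((U s).coeff i)

include hS hgen in
theorem Below.all {σ c : ℤ} (h : Below v U S σ c) {d : ℕ} {x : R} (hx : x ∈ 𝒜 d) (i : ℕ) :
    v.W (σ * i + d * c) ((U x).coeff i) := by
  revert i
  refine H348.gen_ind (T := (S : Set R)) hS hgen
    (Q := fun d x => ∀ i : ℕ, v.W (σ * i + d * c) ((U x).coeff i)) ?_ ?_ ?_ ?_ ?_ hx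
  · intro i
    rw [map_one, coeff_one]
    split_ifs with hi
    · subst hi
      have := v.const 1
      rw [map_one] at this
      simpa using this
    · exact v.zero _
  · intro d i
    rw [map_zero, coeff_zero]
    exact v.zero _
  · intro d x y hx hy i
    rw [map_add, coeff_add]
    exact v.add (hx i) (hy i)
  · intro d c x hx i
    rw [map_smul, coeff_smul, Algebra.smul_def]
    exact v.smul c (hx i)
  · intro d x s hs hx i
    rw [map_mul, coeff_mul]
    refine v.sum _ fun q hq => ?_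
    rw [Finset.HasAntidiagonal.mem_antidiagonal] at hq
    have h1 := v.mul (hx q.1) (h s hs q.2)
    convert h1 using 1
    rw [← hq]
    push_cast
    ring

include hS hgen in
/-- The residue curve. -/
theorem Below.exists_res {σ c : ℤ} (h : Below v U S σ c) :
    ∃ G : R →ₐ[ℂ] κ[X], ∀ d, ∀ x ∈ 𝒜 d, ∀ i : ℕ,
      (G x).coeff i = v.ld (σ * i + d * c) ((U x).coeff i) := by
  suffices hG : ∃ G : R →ₐ[ℂ] κ[X], ∀ d, ∀ x ∈ 𝒜 d,
      G x = mapc (fun i a => v.ld (σ * i + d * c) a) (U x) by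
    obtain ⟨G, hG⟩ := hG
    refine ⟨G, fun d x hx i => ?_⟩
    rw [hG d x hx, coeff_mapc (fun i => v.ld_zero _)]
  refine exists_graded_hom 𝒜 (fun (d : ℕ) x => mapc (fun i a => v.ld (σ * i + d * c) a) (U x))
    ?_ ?_ ?_ ?_
  · ext i
    rw [coeff_mapc (fun i => v.ld_zero _), map_one, coeff_one, coeff_one]
    split_ifs with hi
    · subst hi
      have := v.ld_const 1
      rw [map_one, map_one] at this
      simpa using this
    · exact v.ld_zero _
  · intro d a ha b hb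
    ext i
    rw [coeff_add, coeff_mapc (fun i => v.ld_zero _), coeff_mapc (fun i => v.ld_zero _),
      coeff_mapc (fun i => v.ld_zero _), map_add, coeff_add,
      v.ld_add (h.all v hS hgen U ha i) (h.all v hS hgen U hb i)]
  · intro d z a ha
    ext i
    rw [coeff_smul, coeff_mapc (fun i => v.ld_zero _), coeff_mapc (fun i => v.ld_zero _),
      map_smul, coeff_smul, Algebra.smul_def, v.ld_smul z (h.all v hS hgen U ha i),
      Algebra.smul_def]
  · intro i j a ha b hb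
    ext n
    rw [coeff_mapc (fun i => v.ld_zero _), coeff_mul, map_mul, coeff_mul, v.ld_sum]
    · refine Finset.sum_congr rfl fun q hq => ?_
      rw [Finset.HasAntidiagonal.mem_antidiagonal] at hq
      rw [coeff_mapc (fun i => v.ld_zero _), coeff_mapc (fun i => v.ld_zero _),
        ← v.ld_mul (h.all v hS hgen U ha q.1) (h.all v hS hgen U hb q.2)]
      congr 1
      rw [← hq]
      push_cast
      ring
    · intro q hq
      rw [Finset.HasAntidiagonal.mem_antidiagonal] at hq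
      have h1 := v.mul (h.all v hS hgen U ha q.1) (h.all v hS hgen U hb q.2)
      convert h1 using 1
      rw [← hq]
      push_cast
      ring

/-- The line of slope `σ` supports the Newton polygon, and the first point of contact is `a`. -/
structure St (S : Finset R) (a : ℕ) (σ c : ℤ) : Prop where
  le : Below v U S σ c
  lt : ∀ s ∈ S, ∀ i : ℕ, i < a → v.W (σ * i + c + 1) ((U s).coeff i)
  eq : ∃ s ∈ S, ¬ v.W (σ * a + c + 1) ((U s).coeff a)

/-- The point of a vertex of the Newton polygon. -/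
def Vx (𝒜 : ℕ → Submodule ℂ R) (a : ℕ) (ν : ℤ) (p : R →ₐ[ℂ] κ) : Prop :=
  ∀ d, ∀ x ∈ 𝒜 d, p x = v.ld (d * ν) ((U x).coeff (d * a))

theorem Vx.unique {a : ℕ} {ν : ℤ} {p p' : R →ₐ[ℂ] κ} (h : Vx v U 𝒜 a ν p)
    (h' : Vx v U 𝒜 a ν p') : p = p' :=
  hom_ext_hom 𝒜 fun d x hx => by rw [h d x hx, h' d x hx]

include hS hgen in
theorem St.exists_low {a : ℕ} {σ c : ℤ} (h : St v U S a σ c) :
    ∃ ψ : R →ₐ[ℂ] κ[X], ∀ d, ∀ x ∈ 𝒜 d, ∀ i : ℕ,
      (ψ x).coeff i = v.ld (σ * ((d * a + i : ℕ) : ℤ) + d * c) ((U x).coeff (d * a + i)) := by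
  obtain ⟨G, hG⟩ := h.le.exists_res v hS hgen U
  have hdvd : ∀ d, ∀ x ∈ 𝒜 d, (X ^ a : κ[X]) ^ d ∣ G x :=
    H348.dvd_of_gens (T := (S : Set R)) hS hgen G fun s hs => by
      rw [X_pow_dvd_iff]
      intro i hi
      rw [hG 1 s (hS s hs) i, Nat.cast_one, one_mul]
      exact (v.ld_eq_zero (h.le s hs i)).2 (h.lt s hs i hi)
  obtain ⟨ψ, hψ⟩ := H348.exists_divide 𝒜 G (pow_ne_zero a X_ne_zero) hdvd
  refine ⟨ψ, fun d x hx i => ?_⟩
  rw [← hG d x hx (d * a + i), hψ d x hx, ← pow_mul, mul_comm a d, add_comm (d * a) i,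
    coeff_X_pow_mul]

include hS hgen in
theorem St.exists_pt {a : ℕ} {σ c : ℤ} (h : St v U S a σ c) :
    ∃ p : R →ₐ[ℂ] κ, Vx v U 𝒜 a (σ * a + c) p := by
  obtain ⟨ψ, hψ⟩ := h.exists_low v hS hgen U
  refine ⟨cz.comp ψ, fun d x hx => ?_⟩
  rw [AlgHom.comp_apply, cz_apply, hψ d x hx 0, add_zero]
  congr 1
  push_cast
  ring

omit [GradedAlgebra 𝒜] in
include hS in
theorem St.nv {a : ℕ} {σ c : ℤ} (h : St v U S a σ c) {p : R →ₐ[ℂ] κ}
    (hp : Vx v U 𝒜 a (σ * a + c) p) : NV 𝒜 p := by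
  obtain ⟨s, hs, hne⟩ := h.eq
  refine ⟨s, hS s hs, ?_⟩
  rw [hp 1 s (hS s hs), Nat.cast_one, one_mul, one_mul]
  intro h0
  exact hne ((v.ld_eq_zero (h.le s hs a)).1 h0)

include hS hgen in
/-- An edge of the Newton polygon. -/
theorem St.exists_piece {a b : ℕ} (hab : a ≤ b) {σ c : ℤ} (h : St v U S a σ c)
    (hlt : ∀ s ∈ S, ∀ i : ℕ, b < i → v.W (σ * i + c + 1) ((U s).coeff i)) {p' p : R →ₐ[ℂ] κ}
    (hp' : Vx v U 𝒜 a (σ * a + c) p') (hp : Vx v U 𝒜 b (σ * b + c) p) :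
    ∃ ψ : R →ₐ[ℂ] κ[X], Piece 𝒜 (b - a) ψ p' p ∧ ∀ d, ∀ x ∈ 𝒜 d, ∀ i : ℕ,
      (ψ x).coeff i = v.ld (σ * ((d * a + i : ℕ) : ℤ) + d * c) ((U x).coeff (d * a + i)) := by
  obtain ⟨ψ, hψ⟩ := h.exists_low v hS hgen U
  refine ⟨ψ, ⟨?_, fun d x hx => ?_, fun d x hx => ?_⟩, hψ⟩
  · refine H348.natDegree_of_gens (T := (S : Set R)) hS hgen ψ fun s hs => ?_
    rw [natDegree_le_iff_coeff_eq_zero]
    intro i hi
    rw [hψ 1 s (hS s hs), Nat.cast_one, one_mul, one_mul]
    exact (v.ld_eq_zero (h.le s hs _)).2 (hlt s hs (a + i) (by omega))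
  · rw [hψ d x hx 0, add_zero, hp' d x hx]
    congr 1
    push_cast
    ring
  · have h7 : d * a + d * (b - a) = d * b := by
      rw [← mul_add]
      congr 1
      omega
    rw [hψ d x hx, h7, hp d x hx]
    congr 1
    push_cast
    ring

/-- The next edge. -/
theorem St.next {a : ℕ} {σ c Q : ℤ} (h : St v U S a σ c) (ha : 0 < a)
    (h0 : ∃ s ∈ S, (U s).coeff 0 ≠ 0) (hdiv : ∀ s x, v.ld s x ≠ 0 → Q ∣ s)
    (hQ : ∀ j : ℕ, 0 < j → j ≤ a → (j : ℤ) ∣ Q) :
    ∃ a' < a, ∃ σ' < σ, ∃ c', σ' * a + c' = σ * a + c ∧ St v U S a' σ' c' ∧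
      ∀ s ∈ S, ∀ i : ℕ, a < i → v.W (σ' * i + c' + 1) ((U s).coeff i) := by
  set ν := σ * a + c with hν
  obtain ⟨s₀, hs₀, hne₀⟩ := h0
  obtain ⟨t, ht⟩ := v.bounded hne₀
  obtain ⟨σ', hσ', hmin⟩ := Int.exists_least_of_bdd
    (P := fun τ => ∀ s ∈ S, ∀ i : ℕ, i < a → v.W (ν - τ * (a - i)) ((U s).coeff i))
    ⟨-|ν - t|, fun τ hτ => by
      by_contra hlt
      push Not at hlt
      apply ht
      refine v.mono ?_ (hτ s₀ hs₀ 0 ha)
      have h1 : τ * (a - (0 : ℕ)) ≤ τ * 1 := by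
        have h2 : (1 : ℤ) ≤ a := by exact_mod_cast ha
        have h3 : τ ≤ 0 := by
          have := abs_nonneg (ν - t)
          omega
        push_cast
        nlinarith
      have h4 := neg_abs_le (ν - t)
      omega⟩
    ⟨σ, fun s hs i hi => v.mono (by rw [hν]; linarith [mul_sub σ (a : ℤ) i]) (h.lt s hs i hi)⟩
  -- the point of contact
  have hQν : Q ∣ ν := by
    obtain ⟨s, hs, hne⟩ := h.eq
    refine hdiv ν _ fun h1 => hne ((v.ld_eq_zero (h.le s hs a)).1 h1)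
  obtain ⟨s₁, hs₁, i₁, hi₁, htouch⟩ : ∃ s ∈ S, ∃ i : ℕ, i < a ∧
      ¬ v.W (ν - σ' * (a - i) + 1) ((U s).coeff i) := by
    have h1 : ¬ ∀ s ∈ S, ∀ i : ℕ, i < a → v.W (ν - (σ' - 1) * (a - i)) ((U s).coeff i) := by
      intro hcon
      have := hmin (σ' - 1) hcon
      omega
    push Not at h1
    obtain ⟨s, hs, i, hi, hne⟩ := h1
    refine ⟨s, hs, i, hi, ?_⟩
    have hx0 : (U s).coeff i ≠ 0 := by
      intro hx0
      rw [hx0] at hne
      exact hne (v.zero _)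
    obtain ⟨w, hw, hw'⟩ := v.exists_order {(U s).coeff i} ⟨_, Finset.mem_singleton_self _, hx0⟩
    have hw1 := hw _ (Finset.mem_singleton_self _)
    have hw2 : ¬ v.W (w + 1) ((U s).coeff i) := by
      obtain ⟨a', ha', hne'⟩ := hw'
      rw [Finset.mem_singleton.1 ha'] at hne'
      exact hne'
    have hQw : Q ∣ w := hdiv w _ fun h1 => hw2 ((v.ld_eq_zero hw1).1 h1)
    have h2 : ν - σ' * (a - i) ≤ w := by
      by_contra hlt
      push Not at hlt
      exact hw2 (v.mono (by omega) (hσ' s hs i hi))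
    have h3 : w < ν - (σ' - 1) * (a - i) := by
      by_contra hge
      push Not at hge
      exact hne (v.mono hge hw1)
    have h4 : ((a - i : ℕ) : ℤ) ∣ w - (ν - σ' * (a - i)) := by
      have h5 := hQ (a - i) (by omega) (Nat.sub_le a i)
      have h6 : w - (ν - σ' * (a - i)) = w - ν + σ' * ((a - i : ℕ) : ℤ) := by
        rw [Nat.cast_sub hi.le]
        ring
      rw [h6]
      exact dvd_add (dvd_sub (h5.trans hQw) (h5.trans hQν)) (dvd_mul_left _ _)
    have h7 : w - (ν - σ' * (a - i)) = 0 := by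
      refine Int.eq_zero_of_dvd_of_nonneg_of_lt (by omega) ?_ h4
      rw [Nat.cast_sub hi.le]
      linarith [sub_mul σ' 1 ((a : ℤ) - i)]
    have h8 : w = ν - σ' * (a - i) := by omega
    rw [← h8]
    exact hw2
  have hle : σ' ≤ σ := hmin σ fun s hs i hi =>
    v.mono (by rw [hν]; linarith [mul_sub σ (a : ℤ) i]) (h.lt s hs i hi)
  have hlt : σ' < σ := by
    refine lt_of_le_of_ne hle fun h1 => htouch ?_
    rw [h1]
    refine v.mono ?_ (h.lt s₁ hs₁ i₁ hi₁)
    rw [hν]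
    linarith [mul_sub σ (a : ℤ) i₁]
  -- the new line
  have hline : ∀ i : ℕ, σ' * i + (c + (σ - σ') * a) = ν - σ' * (a - i) := fun i => by
    rw [hν]
    ring
  have hgt : ∀ s ∈ S, ∀ i : ℕ, a < i →
      v.W (σ' * i + (c + (σ - σ') * a) + 1) ((U s).coeff i) := by
    intro s hs i hi
    refine v.mono ?_ (h.le s hs i)
    have h1 : (a : ℤ) + 1 ≤ i := by exact_mod_cast hi
    nlinarith
  classical
  have hex : ∃ i : ℕ, ∃ s ∈ S, ¬ v.W (σ' * i + (c + (σ - σ') * a) + 1) ((U s).coeff i) :=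
    ⟨i₁, s₁, hs₁, by rw [hline]; exact htouch⟩
  have ha' : Nat.find hex < a := lt_of_le_of_lt
    (Nat.find_min' hex ⟨s₁, hs₁, by rw [hline]; exact htouch⟩) hi₁
  refine ⟨Nat.find hex, ha', σ', hlt, c + (σ - σ') * a, by rw [hν]; ring,
    ⟨fun s hs i => ?_, fun s hs i hi => ?_, Nat.find_spec hex⟩, hgt⟩
  · rcases lt_trichotomy i a with hi | hi | hi
    · rw [hline]
      exact hσ' s hs i hi
    · rw [hline, hi, sub_self, mul_zero, sub_zero]
      exact h.le s hs a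
    · exact v.mono (by omega) (hgt s hs i hi)
  · have h1 := Nat.find_min hex hi
    push Not at h1
    exact h1 s hs

/-- The first line. -/
theorem exists_st {e : ℕ} (hdeg : ∀ s ∈ S, (U s).natDegree ≤ e)
    (hend : ∃ s ∈ S, (U s).coeff e ≠ 0) : ∃ σ c, St v U S e σ c := by
  classical
  obtain ⟨s₀, hs₀, hne₀⟩ := hend
  obtain ⟨ν, hν, hν'⟩ := v.exists_order (S.image fun s => (U s).coeff e)
    ⟨_, Finset.mem_image_of_mem _ hs₀, hne₀⟩
  obtain ⟨t, ht⟩ := v.uniform (S.biUnion fun s => (Finset.range e).image fun i => (U s).coeff i)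
  have hν1 : ∀ s ∈ S, v.W ν ((U s).coeff e) := fun s hs => hν _ (Finset.mem_image_of_mem _ hs)
  have ht1 : ∀ s ∈ S, ∀ i < e, v.W t ((U s).coeff i) := fun s hs i hi =>
    ht _ (Finset.mem_biUnion.2 ⟨s, hs, Finset.mem_image.2 ⟨i, Finset.mem_range.2 hi, rfl⟩⟩)
  set σ := |ν + 1 - t| with hσ
  have hlt : ∀ s ∈ S, ∀ i : ℕ, i < e → v.W (σ * i + (ν - σ * e) + 1) ((U s).coeff i) := by
    intro s hs i hi
    refine v.mono ?_ (ht1 s hs i hi)
    have h1 : (i : ℤ) + 1 ≤ e := by exact_mod_cast hi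
    have h2 : 0 ≤ σ := abs_nonneg _
    have h3 : ν + 1 - t ≤ σ := le_abs_self _
    nlinarith
  refine ⟨σ, ν - σ * e, ⟨fun s hs i => ?_, hlt, ?_⟩⟩
  · rcases lt_trichotomy i e with hi | hi | hi
    · exact v.mono (by omega) (hlt s hs i hi)
    · rw [hi]
      have : σ * e + (ν - σ * e) = ν := by ring
      rw [this]
      exact hν1 s hs
    · rw [coeff_eq_zero_of_natDegree_lt (lt_of_le_of_lt (hdeg s hs) hi)]
      exact v.zero _
  · obtain ⟨x, hx, hne⟩ := hν'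
    obtain ⟨s, hs, rfl⟩ := Finset.mem_image.1 hx
    refine ⟨s, hs, ?_⟩
    have : σ * e + (ν - σ * e) = ν := by ring
    rw [this]
    exact hne

end

end Vale.Agent.P280.H475
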