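import Vale.Agent.P280.H475.Count
import Vale.Agent.P280.H475.GenF
import Vale.Agent.P280.H475.DvrA
import Vale.Agent.P280.H475.Der

/-! P280, Theorem F: the velocity of the generic arc is regular. -/

open DirectSum Polynomial Module

namespace Vale.Agent.P280.H475

open Vale.Agent.P280.S

section

variable {R : Type} [CommRing R] [Algebra ℂ R] {𝒜 : ℕ → Submodule ℂ R} [GradedAlgebra 𝒜]

/-- Divisors do not contain all elements of degree one. -/
theorem nv_of_ind (hgen1 : Algebra.adjoin ℂ {h : R | h ∈ 𝒜 1} = ⊤)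
    (hzero : ∀ h ∈ 𝒜 0, ∃ c : ℂ, h = algebraMap ℂ R c) {O κ : Type} [CommRing O]
    [Algebra ℂ O] [Field κ] [Algebra ℂ κ] {ϖ : O} (res : O →ₐ[ℂ] κ)
    (hker : ∀ x, res x = 0 ↔ ϖ ∣ x) (ι : R →ₐ[ℂ] O) {N : ℕ} (hN : 2 ≤ N)
    {D : Fin N → (O →ₗ[ℂ] κ)} (hD : ∀ i x y, D i (x * y) = res x * D i y + res y * D i x)
    (hind : LinearIndependent κ fun i => (D i).comp ι.toLinearMap) :
    NV 𝒜 (res.comp ι) := by
  by_contra hcon
  have h1 : ∀ s ∈ 𝒜 1, res (ι s) = 0 := fun s hs => by
    by_contra hne
    exact hcon ⟨s, hs, hne⟩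
  have h2 : twist 𝒜 (0 : κ) (res.comp ι) = res.comp ι := by
    refine AlgHom.ext_of_adjoin_eq_top hgen1 fun s hs => ?_
    rw [twist_apply 𝒜 hs, AlgHom.comp_apply, h1 s hs, mul_zero]
  have hres : res ϖ = 0 := (hker ϖ).2 dvd_rfl
  have key : ∀ x : R, ∃ u : O, ∀ i, D i (ι x) = res u * D i ϖ := by
    intro x
    induction x using DirectSum.Decomposition.inductionOn 𝒜 with
    | zero => exact ⟨0, fun i => by rw [map_zero, map_zero, map_zero, zero_mul]⟩
    | add a b ha hb =>
      obtain ⟨u, hu⟩ := ha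
      obtain ⟨w, hw⟩ := hb
      exact ⟨u + w, fun i => by rw [map_add, map_add, hu, hw, map_add, add_mul]⟩
    | @homogeneous d a =>
      rcases Nat.eq_zero_or_pos d with hd | hd
      · subst hd
        obtain ⟨c, hc⟩ := hzero a a.2
        refine ⟨0, fun i => ?_⟩
        have h3 : D i 1 = 0 := by
          have h4 := hD i 1 1
          rw [mul_one, map_one res, one_mul] at h4
          linear_combination -h4
        rw [hc, AlgHom.commutes, Algebra.algebraMap_eq_smul_one, map_smul, h3, smul_zero,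
          map_zero, zero_mul]
      · have h3 : res (ι a) = 0 := by
          have h4 := AlgHom.congr_fun h2 (a : R)
          rw [twist_apply 𝒜 a.2, zero_pow hd.ne', zero_mul] at h4
          exact h4.symm
        obtain ⟨u, hu⟩ := (hker _).1 h3
        exact ⟨u, fun i => by rw [hu, hD, hres, zero_mul, zero_add]⟩
  have h3 : ∀ i j : Fin N, i ≠ j → D j ϖ = 0 := by
    intro i j hij
    have h4 := Fintype.linearIndependent_iff.1 hind
      (fun l => if l = i then D j ϖ else if l = j then - D i ϖ else 0) (by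
        refine LinearMap.ext fun x => ?_
        obtain ⟨u, hu⟩ := key x
        rw [LinearMap.sum_apply, LinearMap.zero_apply]
        have h5 : ∀ l, ((if l = i then D j ϖ else if l = j then - D i ϖ else 0) •
            (D l).comp ι.toLinearMap) x =
            (if l = i then D j ϖ * (res u * D i ϖ) else 0) +
            (if l = j then - D i ϖ * (res u * D j ϖ) else 0) := by
          intro l
          rw [LinearMap.smul_apply]
          change _ * D l (ι x) = _
          rw [hu]
          by_cases h6 : l = i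
          · subst h6
            rw [if_pos rfl, if_pos rfl, if_neg hij, add_zero]
          · rw [if_neg h6, if_neg h6, zero_add]
            by_cases h7 : l = j
            · subst h7
              rw [if_pos rfl, if_pos rfl]
            · rw [if_neg h7, if_neg h7, zero_mul]
        rw [Finset.sum_congr rfl fun l _ => h5 l, Finset.sum_add_distrib, Finset.sum_ite_eq',
          Finset.sum_ite_eq', if_pos (Finset.mem_univ _), if_pos (Finset.mem_univ _)]
        ring) i
    rwa [if_pos rfl] at h4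
  have h4 : ∀ j, D j ϖ = 0 := by
    intro j
    by_cases h5 : j = ⟨0, by omega⟩
    · exact h3 ⟨1, by omega⟩ j (by rw [h5]; simp [Fin.ext_iff])
    · exact h3 ⟨0, by omega⟩ j fun h6 => h5 h6.symm
  have h5 := hind.ne_zero ⟨0, by omega⟩
  apply h5
  refine LinearMap.ext fun x => ?_
  obtain ⟨u, hu⟩ := key x
  change D _ (ι x) = 0
  rw [hu, h4, mul_zero]

/-- **The velocity of the generic arc is regular.** -/
theorem regular (hX : IsProjectiveManifold 𝒜) {r : ℚ} (hr : 0 < r) (hI : HasIndex 𝒜 r)
    {J : Set R} {θ : (R →ₐ[ℂ] ℂ) → (R →ₗ[ℂ] ℂ) → ℂ} {e d₀ : ℕ} {g : R}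
    (hP : IsNullPair 𝒜 J θ e d₀ g) {N : ℕ} (hN : (N : Cardinal) ≤ Algebra.trdeg ℂ R)
    (hc : r * e + d₀ ≤ N) {K : Type} [Field K] [Algebra ℂ K] [Algebra R K] [IsScalarTower ℂ R K]
    [IsFractionRing R K] {U : R →ₐ[ℂ] K[X]}
    (hU : WSol 𝒜 J e (IsScalarTower.toAlgHom ℂ R K) U)
    (hnrm : Nrm {ρ | ρ.IsValid 𝒜 J θ} e U) {x : R} (hx : x ∈ 𝒜 1) :
    (U x).coeff 1 ∈ Set.range (algebraMap R K) := by
  have := hX.domain
  have := hX.normal
  have hft := hX.finiteType
  have hnoeth : IsNoetherianRing R := Algebra.FiniteType.isNoetherianRing ℂ R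
  rcases Nat.eq_zero_or_pos e with he | he
  · have h1 := hU.deg 1 x hx
    rw [coeff_eq_zero_of_natDegree_lt (by rw [he] at h1; omega)]
    exact ⟨0, map_zero _⟩
  have hN2 : 2 ≤ N := by
    have hznv : NV 𝒜 (IsScalarTower.toAlgHom ℂ R K) := by
      obtain ⟨p, hp⟩ := hX.nonempty
      obtain ⟨y, hy, hne⟩ := (nv_iff hX.gen p).1 hp
      refine ⟨y, hy, fun h0 => hne ?_⟩
      have h1 : y = 0 := IsFractionRing.injective R K (by rw [map_zero]; exact h0)
      rw [h1, map_zero]
    have hs := strong_of_sol hft hX.gen hP hznv hU hnrm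
    have h1 : (2 : ℚ) ≤ finrank K (Vf0 𝒜 e U) := by exact_mod_cast two_le_vf0 𝒜 hft hX.gen he hs
    have h2 : (0 : ℚ) ≤ d₀ := by exact_mod_cast Nat.zero_le d₀
    have h3 : (2 : ℚ) ≤ N := by linarith [bound_vf0 (k := K) hft hX.gen hI e U hs]
    exact_mod_cast h3
  by_contra ha
  obtain ⟨P, hP', hdvr, hpole⟩ := exists_dvr ha
  let O := Localization.AtPrime P
  let _ : Algebra O K := (locHom K P).toAlgebra
  have htow : IsScalarTower R O K := IsScalarTower.of_algebraMap_eq fun r =>
    (locHom_algebraMap P r).symm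
  have hfrac : IsFractionRing O K :=
    IsFractionRing.isFractionRing_of_isDomain_of_isLocalization P.primeCompl O K
  have hdom : IsDomain O := IsLocalization.isDomain_of_le_nonZeroDivisors (M := P.primeCompl) O
    P.primeCompl_le_nonZeroDivisors
  have htow2 : IsScalarTower ℂ O K := IsScalarTower.of_algebraMap_eq fun c => by
    rw [IsScalarTower.algebraMap_apply ℂ R K, IsScalarTower.algebraMap_apply ℂ R O,
      ← IsScalarTower.algebraMap_apply R O K]
  let κ := IsLocalRing.ResidueField O
  let res : O →ₐ[ℂ] κ := IsScalarTower.toAlgHom ℂ O κ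
  have hres : ∀ x, res x = IsLocalRing.residue O x := fun x => rfl
  have hker : RingHom.ker res = IsLocalRing.maximalIdeal O := by
    ext y
    rw [RingHom.mem_ker, hres, IsLocalRing.residue_eq_zero_iff]
  have hsurj : Function.Surjective res := IsLocalRing.residue_surjective
  obtain ⟨ϖ, hϖ⟩ := IsDiscreteValuationRing.exists_irreducible O
  obtain ⟨D, hD, hind⟩ := exists_derivations hN P res hker hsurj
  let ι : R →ₐ[ℂ] O := IsScalarTower.toAlgHom ℂ R O
  have hind' : LinearIndependent κ fun i => (D i).comp ι.toLinearMap := hind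
  have hnv := nv_of_ind hX.gen hX.zero res (fun y => res_eq_zero hϖ res hker) ι hN2 hD hind'
  have hU' : WSol 𝒜 J e ((IsScalarTower.toAlgHom ℂ O K).comp ι) U := by
    refine ⟨hU.deg, fun y => ?_, hU.nv, hU.mem⟩
    rw [hU.start]
    exact (IsScalarTower.algebraMap_apply R O K y)
  obtain ⟨u, hu⟩ := no_pole hϖ res hker hsurj hft hX.gen hr hI hP hc ι hU' hnrm hnv hD hind' hx
  rw [zpow_zero, one_mul] at hu
  obtain ⟨⟨r, s⟩, hrs⟩ := IsLocalization.surj P.primeCompl u
  refine hpole r s s.2 ?_
  rw [hu]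
  have h1 := congrArg (algebraMap O K) hrs
  rw [map_mul, ← IsScalarTower.algebraMap_apply, ← IsScalarTower.algebraMap_apply] at h1
  exact h1

end

end Vale.Agent.P280.H475
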