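import Vale.Agent.P280.H475.Spz

/-! P280, Theorem F: bounds over any field. -/

open DirectSum Polynomial Module

namespace Vale.Agent.P280.H475

open Vale.Agent.P280.S

section

set_option linter.unusedSectionVars false

variable {R : Type} [CommRing R] [Algebra ℂ R] {𝒜 : ℕ → Submodule ℂ R} [GradedAlgebra 𝒜]
  {k : Type} [Field k] [Algebra ℂ k]

/-- The coefficients of finitely many polynomials. -/
noncomputable def cfs {ι : Type} (s : Finset ι) (f : ι → k[X]) : Finset k := by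
  classical
  exact s.biUnion fun t => (f t).support.image (f t).coeff

theorem mem_of_cfs {ι : Type} {s : Finset ι} {f : ι → k[X]} {A : Subalgebra ℂ k}
    (h : ∀ a ∈ cfs s f, a ∈ A) {t : ι} (ht : t ∈ s) (i : ℕ) : (f t).coeff i ∈ A := by
  classical
  by_cases hi : (f t).coeff i = 0
  · rw [hi]
    exact A.zero_mem
  · exact h _ (Finset.mem_biUnion.2 ⟨t, ht, Finset.mem_image.2 ⟨i, mem_support_iff.2 hi, rfl⟩⟩)

/-- The bound for the fields which vanish at infinity, over any field. -/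
theorem bound_vf0 (hft : Algebra.FiniteType ℂ R)
    (hgen : Algebra.adjoin ℂ {h : R | h ∈ 𝒜 1} = ⊤) {r : ℚ} (hr : HasIndex 𝒜 r) (e : ℕ)
    (ψ : R →ₐ[ℂ] k[X]) (h : Strong 𝒜 e ψ) : (finrank k (Vf0 𝒜 e ψ) : ℚ) ≤ r * e := by
  classical
  obtain ⟨T, hT1, hT⟩ := exists_gen1 hft hgen
  have h1 : FiniteDimensional k (Vf 𝒜 e ψ) := finite_vf 𝒜 hft hgen e ψ
  have h2 : FiniteDimensional k (Vf0 𝒜 e ψ) := Submodule.finiteDimensional_of_le (vf0_le 𝒜 e ψ)
  obtain ⟨b, c, hb, hbc⟩ := exists_dual (valV (k := k) T e) (Vf0 𝒜 e ψ) (by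
    intro v w hvw
    have h3 := valV_injective 𝒜 hT1 hT e ψ (a₁ := ⟨v.1, v.2.1⟩) (a₂ := ⟨w.1, w.2.1⟩) hvw
    have h4 : v.1 = w.1 := congrArg (fun z : Vf 𝒜 e ψ => z.1) h3
    exact Subtype.ext h4)
  obtain ⟨hdeg, ⟨x, hx, hxe⟩, hspan⟩ := h
  -- the Bezout identity
  obtain ⟨n, f, gx, hfg⟩ := (Submodule.mem_span_set' (R := k[X])
    (s := ψ '' {h : R | h ∈ 𝒜 1}) (m := 1)).1 (by
      change (1 : k[X]) ∈ Ideal.span (ψ '' {h : R | h ∈ 𝒜 1})
      rw [hspan]
      trivial)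
  have hy : ∀ i, ∃ y ∈ 𝒜 1, ψ y = gx i := fun i => (gx i).2
  choose y hy1 hy2 using hy
  -- the specialization
  obtain ⟨A, hSA, hNA, w, hw⟩ := exists_spec_finset
    (cfs T ψ ∪ cfs Finset.univ (fun q : Fin (finrank k (Vf0 𝒜 e ψ)) × T => b q.1 q.2) ∪
      Finset.univ.image (fun q : Fin (finrank k (Vf0 𝒜 e ψ)) × (T × Fin (e + 1)) => c q.1 q.2) ∪
      cfs Finset.univ f) {(ψ x).coeff e} (by simpa using hxe)
  have hψT : ∀ t ∈ T, ∀ i, (ψ t).coeff i ∈ A := fun t ht i =>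
    mem_of_cfs (fun a ha => hSA a (by simp only [Finset.mem_union]; tauto)) ht i
  have hψA := mem_hom hT ψ hψT
  have hbA : ∀ j r i, (b j r).coeff i ∈ A := fun j =>
    mem_vf hT 𝒜 hψT (hb j).1 fun t ht i =>
      mem_of_cfs (f := fun q : Fin (finrank k (Vf0 𝒜 e ψ)) × T => b q.1 q.2)
        (fun a ha => hSA a (by simp only [Finset.mem_union]; tauto))
        (Finset.mem_univ (j, (⟨t, ht⟩ : T))) i
  have hcA : ∀ l q, c l q ∈ A := fun l q => hSA _ (by
    simp only [Finset.mem_union]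
    exact Or.inl (Or.inr (Finset.mem_image.2 ⟨(l, q), Finset.mem_univ _, rfl⟩)))
  have hfA : ∀ i j, (f i).coeff j ∈ A := fun i j =>
    mem_of_cfs (f := f) (fun a ha => hSA a (by simp only [Finset.mem_union]; tauto))
      (Finset.mem_univ i) j
  obtain ⟨ψ', hψ'⟩ := exists_wxH w ψ hψA
  have hex : ∀ j, ∃ η' : R →ₗ[ℂ] ℂ[X], ∀ r i, (η' r).coeff i = wx w ((b j r).coeff i) :=
    fun j => exists_wxL w (b j) (hbA j)
  choose b' hb' using hex
  have hdeg' : Deg 𝒜 e ψ' := by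
    intro d z hz
    refine natDegree_le_iff_coeff_eq_zero.2 fun i hi => ?_
    rw [hψ', coeff_eq_zero_of_natDegree_lt (lt_of_le_of_lt (hdeg d z hz) hi), wx_zero]
  have hstrong : Strong 𝒜 e ψ' := by
    refine ⟨hdeg', ⟨x, hx, ?_⟩, ?_⟩
    · rw [hψ', wx_mem w (hψA x e)]
      exact hw _ (Finset.mem_singleton_self _)
    · rw [Ideal.eq_top_iff_one]
      have h3 : (1 : ℂ[X]) = ∑ i, mapc (fun _ => wx w) (f i) * ψ' (y i) := by
        ext j
        rw [finsetSum_coeff]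
        have h4 : ∀ i, (mapc (fun _ => wx w) (f i) * ψ' (y i)).coeff j =
            wx w ((f i * ψ (y i)).coeff j) := fun i => by
          rw [coeff_mul, coeff_mul, wx_sum w _ fun q _ => A.mul_mem (hfA i _) (hψA _ _)]
          refine Finset.sum_congr rfl fun q _ => ?_
          rw [coeff_mapc (fun _ => wx_zero w), hψ', wx_mul w (hfA i _) (hψA _ _)]
        rw [Finset.sum_congr rfl fun i _ => h4 i, ← wx_sum w _ fun i _ => by
          rw [coeff_mul]
          exact sum_mem fun q _ => A.mul_mem (hfA i _) (hψA _ _), ← finsetSum_coeff]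
        have h5 : ∑ i, f i * ψ (y i) = 1 := by
          rw [← hfg]
          exact Finset.sum_congr rfl fun i _ => by rw [hy2, smul_eq_mul]
        rw [h5, coeff_one, coeff_one]
        split_ifs
        · exact (wx_one w).symm
        · exact (wx_zero w).symm
      rw [h3]
      exact sum_mem fun i _ => Ideal.mul_mem_left _ _ (Ideal.subset_span ⟨y i, hy1 i, rfl⟩)
  have hb'mem : ∀ j, b' j ∈ Vf0 𝒜 e ψ' := by
    intro j
    refine ⟨⟨fun u v => Polynomial.ext fun i => ?_, fun d z hz => ?_⟩, fun d z hz => ?_⟩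
    · have h3 : ∀ u v : R, (ψ' u * b' j v).coeff i = wx w ((ψ u * b j v).coeff i) := by
        intro u v
        rw [coeff_mul, coeff_mul, wx_sum w _ fun q _ => A.mul_mem (hψA _ _) (hbA _ _ _)]
        refine Finset.sum_congr rfl fun q _ => ?_
        rw [hψ', hb', wx_mul w (hψA _ _) (hbA _ _ _)]
      have h4 : ∀ u v : R, (ψ u * b j v).coeff i ∈ A := by
        intro u v
        rw [coeff_mul]
        exact sum_mem fun q _ => A.mul_mem (hψA _ _) (hbA _ _ _)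
      rw [hb', (hb j).1.1, coeff_add, coeff_add, h3, h3, wx_add w (h4 u v) (h4 v u)]
    · refine natDegree_le_iff_coeff_eq_zero.2 fun i hi => ?_
      rw [hb', coeff_eq_zero_of_natDegree_lt (lt_of_le_of_lt ((hb j).1.2 d z hz) hi), wx_zero]
    · rw [hb', (hb j).2 d z hz, wx_zero]
  have hind : LinearIndependent ℂ b' := by
    refine indep_of_dual (ι := T × Fin (e + 1)) b' (fun q =>
      { toFun := fun η => (η q.1).coeff q.2
        map_add' := fun η η' => by rw [LinearMap.add_apply, coeff_add]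
        map_smul' := fun a η => by
          rw [LinearMap.smul_apply, coeff_smul, RingHom.id_apply] })
      (fun l q => wx w (c l q)) fun l j => ?_
    have h3 := congrArg (wx w) (hbc l j)
    rw [wx_sum w Finset.univ (f := fun q => c l q * valV (k := k) T e (b j) q)
      fun q _ => A.mul_mem (hcA l q) (hbA j _ _)] at h3
    rw [apply_ite (wx w), wx_one, wx_zero] at h3
    rw [← h3]
    refine Finset.sum_congr rfl fun q _ => ?_
    change wx w (c l q) * (b' j q.1).coeff q.2 = wx w (c l q * (b j q.1).coeff q.2)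
    rw [hb', wx_mul w (hcA l q) (hbA j _ _)]
  have hfin : FiniteDimensional ℂ (Vf 𝒜 e ψ') := finite_vf 𝒜 hft hgen e ψ'
  have hfin2 : FiniteDimensional ℂ (Vf0 𝒜 e ψ') :=
    Submodule.finiteDimensional_of_le (vf0_le 𝒜 e ψ')
  have hind2 : LinearIndependent ℂ (fun j => (⟨b' j, hb'mem j⟩ : Vf0 𝒜 e ψ')) :=
    LinearIndependent.of_comp (Vf0 𝒜 e ψ').subtype hind
  have h3 := hind2.fintype_card_le_finrank
  rw [Fintype.card_fin] at h3
  exact le_trans (by exact_mod_cast h3) (finrank_vf0_le hft hgen hr hstrong)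

/-- The tangent space of `F` at a point over a field. -/
noncomputable def TF (J : Set R) (p : R →ₐ[ℂ] k) : Submodule k (R →ₗ[ℂ] k) where
  carrier := {v | v ∈ Tan p ∧ ∀ h ∈ J, v h = 0}
  add_mem' := by
    rintro a b ⟨h1, h2⟩ ⟨h1', h2'⟩
    exact ⟨add_mem h1 h1', fun h hh => by
      rw [LinearMap.add_apply, h2 h hh, h2' h hh, add_zero]⟩
  zero_mem' := ⟨zero_mem _, fun h _ => rfl⟩
  smul_mem' := by
    rintro c a ⟨h1, h2⟩
    exact ⟨Submodule.smul_mem _ _ h1, fun h hh => by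
      rw [LinearMap.smul_apply, h2 h hh, smul_zero]⟩

theorem TF.good {J : Set R} (hJ : ∀ h ∈ J, ∃ d : ℕ, h ∈ 𝒜 d) {p : R →ₐ[ℂ] k}
    (hp : ∀ h ∈ J, p h = 0) : Good 𝒜 p (TF J p) := by
  refine ⟨fun v hv => hv.1, ⟨eu_mem_tan 𝒜 p, fun h hh => ?_⟩, fun D => ⟨?_, fun h hh => ?_⟩⟩
  · obtain ⟨d, hd⟩ := hJ h hh
    rw [eu_apply 𝒜 hd, hp h hh, mul_zero]
  · intro x y
    rw [dP_apply, dP_apply, dP_apply, map_mul, Derivation.leibniz]
    rfl
  · rw [dP_apply, hp h hh, map_zero]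

/-- The dimension of the tangent spaces of `F`, over any field. -/
theorem bound_TF (hft : Algebra.FiniteType ℂ R)
    (hgen : Algebra.adjoin ℂ {h : R | h ∈ 𝒜 1} = ⊤) {J : Set R} {d₀ : ℕ}
    (hdim : ∀ y : R →ₐ[ℂ] ℂ, OnF 𝒜 J y → Module.finrank ℂ (tangentSpace J y) ≤ d₀ + 1)
    {p : R →ₐ[ℂ] k} (hp : NV 𝒜 p) (hpJ : ∀ h ∈ J, p h = 0) :
    finrank k (TF J p) ≤ d₀ + 1 := by
  classical
  obtain ⟨T, hT1, hT⟩ := exists_gen1 hft hgen
  have h1 : FiniteDimensional k (TF J p) := finite_le_tan fun v hv => hv.1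
  obtain ⟨b, c, hb, hbc⟩ := exists_dual (valT (k := k) T) (TF J p) (by
    intro v w hvw
    exact Subtype.ext (tan_ext v.2.1 w.2.1 hT fun t ht => congrFun hvw ⟨t, ht⟩))
  obtain ⟨x, hx, hx0⟩ := hp
  obtain ⟨A, hSA, hNA, w, hw⟩ := exists_spec_finset
    (T.image p ∪ Finset.univ.image (fun q : Fin (finrank k (TF J p)) × T => b q.1 q.2) ∪
      Finset.univ.image (fun q : Fin (finrank k (TF J p)) × T => c q.1 q.2)) {p x}
    (by simpa using hx0)
  have hpT : ∀ t ∈ T, p t ∈ A := fun t ht => hSA _ (by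
    simp only [Finset.mem_union]
    exact Or.inl (Or.inl (Finset.mem_image_of_mem _ ht)))
  have hpA := mem_pt hT p hpT
  have hbA : ∀ j r, b j r ∈ A := fun j => mem_tanv hT hpT (hb j).1 fun t ht => hSA _ (by
    simp only [Finset.mem_union]
    exact Or.inl (Or.inr (Finset.mem_image.2 ⟨(j, ⟨t, ht⟩), Finset.mem_univ _, rfl⟩)))
  have hcA : ∀ l q, c l q ∈ A := fun l q => hSA _ (by
    simp only [Finset.mem_union]
    exact Or.inr (Finset.mem_image.2 ⟨(l, q), Finset.mem_univ _, rfl⟩))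
  obtain ⟨p', hp'⟩ := exists_wxP w p hpA
  have hex : ∀ j, ∃ v' : R →ₗ[ℂ] ℂ, ∀ r, v' r = wx w (b j r) :=
    fun j => exists_wxV w (b j) (hbA j)
  choose b' hb' using hex
  have hF : OnF 𝒜 J p' := by
    refine ⟨(nv_iff hgen p').2 ⟨x, hx, ?_⟩, fun h hh => ?_⟩
    · rw [hp', wx_mem w (hpA x)]
      exact hw _ (Finset.mem_singleton_self _)
    · rw [hp', hpJ h hh, wx_zero]
  have hb'mem : ∀ j, b' j ∈ tangentSpace J p' := by
    intro j
    refine ⟨fun u v => ?_, fun h hh => ?_⟩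
    · rw [hb', (hb j).1, hb', hb', hp', hp', wx_add w (A.mul_mem (hpA _) (hbA _ _))
        (A.mul_mem (hpA _) (hbA _ _)), wx_mul w (hpA _) (hbA _ _), wx_mul w (hpA _) (hbA _ _)]
    · rw [hb', (hb j).2 h hh, wx_zero]
  have hind : LinearIndependent ℂ b' := by
    refine indep_of_dual (ι := T) b' (fun q =>
      { toFun := fun v => v q
        map_add' := fun η η' => by rw [LinearMap.add_apply]
        map_smul' := fun a η => by
          rw [LinearMap.smul_apply, RingHom.id_apply] })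
      (fun l q => wx w (c l q)) fun l j => ?_
    have h3 := congrArg (wx w) (hbc l j)
    rw [wx_sum w Finset.univ (f := fun q => c l q * valT (k := k) T (b j) q)
      fun q _ => A.mul_mem (hcA l q) (hbA j _)] at h3
    rw [apply_ite (wx w), wx_one, wx_zero] at h3
    rw [← h3]
    refine Finset.sum_congr rfl fun q _ => ?_
    change wx w (c l q) * b' j q = wx w (c l q * b j q)
    rw [hb', wx_mul w (hcA l q) (hbA j _)]
  have hfin : FiniteDimensional ℂ (tangentSpace J p') :=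
    finite_le_tan (p := p') (W := tangentSpace J p') fun v hv => hv.1
  have hind2 : LinearIndependent ℂ (fun j => (⟨b' j, hb'mem j⟩ : tangentSpace J p')) :=
    LinearIndependent.of_comp (tangentSpace J p').subtype hind
  have h3 := hind2.fintype_card_le_finrank
  rw [Fintype.card_fin] at h3
  exact h3.trans (hdim p' hF)

/-- Weak curves of small degree are null, over any field. -/
theorem null_val (hft : Algebra.FiniteType ℂ R)
    (hgen : Algebra.adjoin ℂ {h : R | h ∈ 𝒜 1} = ⊤) {J : Set R}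
    {θ : (R →ₐ[ℂ] ℂ) → (R →ₗ[ℂ] ℂ) → ℂ} {e d₀ : ℕ} {g : R}
    (hP : IsNullPair 𝒜 J θ e d₀ g) {e' : ℕ} {ψ : R →ₐ[ℂ] k[X]} {p' p : R →ₐ[ℂ] k}
    (h : Piece 𝒜 e' ψ p' p) (hp' : NV 𝒜 p') (hp : NV 𝒜 p)
    (hJ : ∀ h ∈ J, p h = 0) (he : e' < e) {ρ : Rep R}
    (hρ : ρ.IsValid 𝒜 J θ) : ρ.val e' ψ = 0 := by
  classical
  by_contra hne
  obtain ⟨T, hT1, hT⟩ := exists_gen1 hft hgen
  obtain ⟨x, hx, hx0⟩ := hp
  obtain ⟨y, hy, hy0⟩ := hp'
  obtain ⟨A, hSA, hNA, w, hw⟩ := exists_spec_finset (cfs T ψ ∪ T.image p ∪ T.image p')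
    {p x, p' y, ρ.val e' ψ} (by
      intro s hs
      simp only [Finset.mem_insert, Finset.mem_singleton] at hs
      rcases hs with rfl | rfl | rfl <;> assumption)
  have hψT : ∀ t ∈ T, ∀ i, (ψ t).coeff i ∈ A := fun t ht i =>
    mem_of_cfs (fun a ha => hSA a (by simp only [Finset.mem_union]; tauto)) ht i
  have hψA := mem_hom hT ψ hψT
  have hpA := mem_pt hT p (A := A) fun t ht => hSA _ (by
    simp only [Finset.mem_union]
    exact Or.inl (Or.inr (Finset.mem_image_of_mem _ ht)))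
  have hpA' := mem_pt hT p' (A := A) fun t ht => hSA _ (by
    simp only [Finset.mem_union]
    exact Or.inr (Finset.mem_image_of_mem _ ht))
  obtain ⟨ψ₀, hψ₀⟩ := exists_wxH w ψ hψA
  obtain ⟨p₀, hp₀⟩ := exists_wxP w p hpA
  obtain ⟨p₀', hp₀'⟩ := exists_wxP w p' hpA'
  have hpc : Piece 𝒜 e' ψ₀ p₀' p₀ := by
    refine ⟨fun d z hz => ?_, fun d z hz => ?_, fun d z hz => ?_⟩
    · refine natDegree_le_iff_coeff_eq_zero.2 fun i hi => ?_
      rw [hψ₀, coeff_eq_zero_of_natDegree_lt (lt_of_le_of_lt (h.deg d z hz) hi), wx_zero]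
    · rw [hψ₀, hp₀', h.start1 d z hz]
    · rw [hψ₀, hp₀, h.fin d z hz]
  have h1 : NV 𝒜 p₀' := ⟨y, hy, by
    rw [hp₀', wx_mem w (hpA' y)]
    exact hw _ (by simp)⟩
  have h2 : NV 𝒜 p₀ := ⟨x, hx, by
    rw [hp₀, wx_mem w (hpA x)]
    exact hw _ (by simp)⟩
  have h3 := null_val_aux hgen hP hpc h1 h2 (fun z hz => by rw [hp₀, hJ z hz, wx_zero]) he.le
    (fun h0 => absurd h0 he.ne) hρ
  have h4 : ∀ (z : R) (i : ℕ), (X * ψ z).coeff i ∈ A := by
    intro z i
    cases i with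
    | zero => rw [coeff_X_mul_zero]; exact A.zero_mem
    | succ i => rw [coeff_X_mul]; exact hψA z i
  have h5 : ∀ (z : R) (i : ℕ), (X * ψ₀ z).coeff i = wx w ((X * ψ z).coeff i) := by
    intro z i
    cases i with
    | zero => rw [coeff_X_mul_zero, coeff_X_mul_zero, wx_zero]
    | succ i => rw [coeff_X_mul, coeff_X_mul, hψ₀]
  have h6 : ρ.val e' ψ₀ = wx w (ρ.val e' ψ) := by
    rw [Rep.val, Rep.val, wx_sum w Finset.univ
      (f := fun i => cInf e' ψ (ρ.k i) (ρ.a i) * vInf e' ψ (ρ.l i) (ρ.c i))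
      fun i _ => A.mul_mem (hψA _ _) (h4 _ _)]
    refine Finset.sum_congr rfl fun i _ => ?_
    rw [cInf, cInf, vInf, vInf, hψ₀, h5, wx_mul w (hψA _ _) (h4 _ _)]
  rw [h3] at h6
  have h7 := hw (ρ.val e' ψ) (by simp)
  rw [← wx_mem w] at h7
  exact h7 h6.symm

/-- Local expressions at points over any field. -/
theorem exists_rep (hft : Algebra.FiniteType ℂ R)
    (hgen : Algebra.adjoin ℂ {h : R | h ∈ 𝒜 1} = ⊤) {J : Set R}
    {θ : (R →ₐ[ℂ] ℂ) → (R →ₗ[ℂ] ℂ) → ℂ} (hθ : IsCovectorField 𝒜 J θ) {p : R →ₐ[ℂ] k}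
    (hp : NV 𝒜 p) (hpJ : ∀ h ∈ J, p h = 0) : ∃ ρ : Rep R, ρ.IsValid 𝒜 J θ ∧ p ρ.b ≠ 0 := by
  classical
  obtain ⟨T, hT1, hT⟩ := exists_gen1 hft hgen
  obtain ⟨x, hx, hx0⟩ := hp
  obtain ⟨A, hSA, hNA, w, hw⟩ := exists_spec_finset (T.image p) {p x} (by simpa using hx0)
  have hpA := mem_pt hT p (A := A) fun t ht => hSA _ (Finset.mem_image_of_mem _ ht)
  obtain ⟨p₀, hp₀⟩ := exists_wxP w p hpA
  obtain ⟨ρ, hρ, hb⟩ := hθ.regular p₀ ⟨(nv_iff hgen p₀).2 ⟨x, hx, by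
    rw [hp₀, wx_mem w (hpA x)]
    exact hw _ (by simp)⟩, fun z hz => by rw [hp₀, hpJ z hz, wx_zero]⟩
  refine ⟨ρ, hρ, fun h0 => hb ?_⟩
  rw [hp₀, h0, wx_zero]

end

end Vale.Agent.P280.H475
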