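import Vale.Agent.P280.H475.Uni

/-! P280, Theorem F: specialization. -/

open DirectSum Polynomial Module

namespace Vale.Agent.P280.H475

open Vale.Agent.P280.S

section dual

/-- Dual functionals. -/
theorem exists_dual {k V : Type*} {ι : Type} [Field k] [AddCommGroup V] [Module k V] [Fintype ι]
    (L : V →ₗ[k] (ι → k)) (W : Submodule k V) [FiniteDimensional k W]
    (hinj : Function.Injective (L.comp W.subtype)) :
    ∃ (b : Fin (finrank k W) → V) (c : Fin (finrank k W) → ι → k), (∀ j, b j ∈ W) ∧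
      ∀ l j, ∑ q, c l q * L (b j) q = if l = j then 1 else 0 := by
  classical
  let b := finBasis k W
  obtain ⟨g, hg⟩ := (L.comp W.subtype).exists_leftInverse_of_injective
    (LinearMap.ker_eq_bot.2 hinj)
  refine ⟨fun j => (b j : V), fun l q => b.repr (g (Pi.single q 1)) l, fun j => (b j).2,
    fun l j => ?_⟩
  have h1 : g (L (b j)) = b j := LinearMap.congr_fun hg (b j)
  have h2 : L (b j) = ∑ q, L (b j) q • (Pi.single q 1 : ι → k) := by
    funext i
    rw [Finset.sum_apply]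
    simp [Pi.single_apply]
  have h3 : b.repr (g (L (b j))) l = ∑ q, L (b j) q * b.repr (g (Pi.single q 1)) l := by
    conv_lhs => rw [h2]
    rw [map_sum, map_sum, Finsupp.finsetSum_apply]
    refine Finset.sum_congr rfl fun q _ => ?_
    rw [map_smul, map_smul, Finsupp.smul_apply, smul_eq_mul]
  rw [h1, b.repr_self, Finsupp.single_apply] at h3
  rw [Finset.sum_congr rfl fun q _ => mul_comm _ _, ← h3]
  by_cases h : l = j
  · rw [if_pos h, if_pos h.symm]
  · rw [if_neg h, if_neg fun h' => h h'.symm]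

theorem indep_of_dual {k V : Type*} {ι : Type} [Field k] [AddCommGroup V] [Module k V]
    [Fintype ι] {m : ℕ} (b : Fin m → V) (l : ι → V →ₗ[k] k) (c : Fin m → ι → k)
    (h : ∀ i j, ∑ q, c i q * l q (b j) = if i = j then 1 else 0) : LinearIndependent k b := by
  rw [Fintype.linearIndependent_iff]
  intro s hs i
  have h1 : ∑ q, c i q * l q (∑ j, s j • b j) = s i := by
    have h2 : ∀ q, c i q * l q (∑ j, s j • b j) = ∑ j, s j * (c i q * l q (b j)) := fun q => by
      rw [map_sum, Finset.mul_sum]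
      refine Finset.sum_congr rfl fun j _ => ?_
      rw [map_smul, smul_eq_mul]
      ring
    rw [Finset.sum_congr rfl fun q _ => h2 q, Finset.sum_comm]
    have h3 : ∀ j, ∑ q, s j * (c i q * l q (b j)) = if i = j then s j else 0 := fun j => by
      rw [← Finset.mul_sum, h i j]
      split_ifs <;> simp
    rw [Finset.sum_congr rfl fun j _ => h3 j]
    simp
  rw [hs] at h1
  rw [← h1]
  simp

end dual

section wx
variable {k L : Type} [Field k] [Algebra ℂ k] [Field L] [Algebra ℂ L] {A : Subalgebra ℂ k}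
  (w : A →ₐ[ℂ] L)

open Classical in
/-- The specialization, extended by zero. -/
noncomputable def wx (a : k) : L := if h : a ∈ A then w ⟨a, h⟩ else 0

theorem wx_mem {a : k} (h : a ∈ A) : wx w a = w ⟨a, h⟩ := dif_pos h

theorem wx_zero : wx w (0 : k) = 0 := by
  rw [wx_mem w A.zero_mem]
  exact map_zero w

theorem wx_one : wx w (1 : k) = 1 := by
  rw [wx_mem w A.one_mem]
  exact map_one w

theorem wx_add {a b : k} (ha : a ∈ A) (hb : b ∈ A) : wx w (a + b) = wx w a + wx w b := by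
  rw [wx_mem w ha, wx_mem w hb, wx_mem w (A.add_mem ha hb), ← map_add]
  rfl

theorem wx_mul {a b : k} (ha : a ∈ A) (hb : b ∈ A) : wx w (a * b) = wx w a * wx w b := by
  rw [wx_mem w ha, wx_mem w hb, wx_mem w (A.mul_mem ha hb), ← map_mul]
  rfl

theorem wx_sum {ι : Type} (s : Finset ι) {f : ι → k} (h : ∀ i ∈ s, f i ∈ A) :
    wx w (∑ i ∈ s, f i) = ∑ i ∈ s, wx w (f i) := by
  classical
  induction s using Finset.induction_on with
  | empty => rw [Finset.sum_empty, Finset.sum_empty, wx_zero]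
  | insert a s ha ih =>
    rw [Finset.sum_insert ha, Finset.sum_insert ha, wx_add w (h a (Finset.mem_insert_self a s))
      (sum_mem fun i hi => h i (Finset.mem_insert_of_mem hi)),
      ih fun i hi => h i (Finset.mem_insert_of_mem hi)]

theorem wx_smul (c : ℂ) {a : k} (ha : a ∈ A) : wx w (c • a) = c • wx w a := by
  rw [wx_mem w ha, wx_mem w (A.smul_mem ha c), ← map_smul]
  rfl

theorem wx_pow {a : k} (ha : a ∈ A) (n : ℕ) : wx w (a ^ n) = wx w a ^ n := by
  rw [wx_mem w ha, wx_mem w (pow_mem ha n), ← map_pow]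
  rfl

variable {R : Type} [CommRing R] [Algebra ℂ R]

theorem exists_wxH (ψ : R →ₐ[ℂ] k[X]) (hψ : ∀ r i, (ψ r).coeff i ∈ A) :
    ∃ ψ' : R →ₐ[ℂ] L[X], ∀ r i, (ψ' r).coeff i = wx w ((ψ r).coeff i) := by
  have h0 : ∀ (p : k[X]) (i : ℕ), (mapc (fun _ => wx w) p).coeff i = wx w (p.coeff i) :=
    fun p i => coeff_mapc (fun _ => wx_zero w) p i
  refine ⟨AlgHom.ofLinearMap
    { toFun := fun r => mapc (fun _ => wx w) (ψ r)
      map_add' := fun a b => Polynomial.ext fun i => ?_
      map_smul' := fun c a => Polynomial.ext fun i => ?_ }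
    (Polynomial.ext fun i => ?_) (fun a b => Polynomial.ext fun i => ?_), fun r i => h0 _ i⟩
  · rw [h0, coeff_add, h0, h0, map_add, coeff_add, wx_add w (hψ a i) (hψ b i)]
  · rw [h0, RingHom.id_apply, coeff_smul, h0, map_smul, coeff_smul, wx_smul w c (hψ a i)]
  · change (mapc (fun _ => wx w) (ψ 1)).coeff i = _
    rw [h0, map_one, coeff_one, coeff_one]
    split_ifs
    · exact wx_one w
    · exact wx_zero w
  · change (mapc (fun _ => wx w) (ψ (a * b))).coeff i =
      (mapc (fun _ => wx w) (ψ a) * mapc (fun _ => wx w) (ψ b)).coeff i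
    rw [h0, map_mul, coeff_mul, coeff_mul, wx_sum w _ fun q _ => A.mul_mem (hψ a _) (hψ b _)]
    refine Finset.sum_congr rfl fun q _ => ?_
    rw [h0, h0, wx_mul w (hψ a _) (hψ b _)]

theorem exists_wxL (η : R →ₗ[ℂ] k[X]) (hη : ∀ r i, (η r).coeff i ∈ A) :
    ∃ η' : R →ₗ[ℂ] L[X], ∀ r i, (η' r).coeff i = wx w ((η r).coeff i) := by
  have h0 : ∀ (p : k[X]) (i : ℕ), (mapc (fun _ => wx w) p).coeff i = wx w (p.coeff i) :=
    fun p i => coeff_mapc (fun _ => wx_zero w) p i
  refine ⟨{ toFun := fun r => mapc (fun _ => wx w) (η r)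
            map_add' := fun a b => Polynomial.ext fun i => ?_
            map_smul' := fun c a => Polynomial.ext fun i => ?_ }, fun r i => h0 _ i⟩
  · rw [h0, coeff_add, h0, h0, map_add, coeff_add, wx_add w (hη a i) (hη b i)]
  · rw [h0, RingHom.id_apply, coeff_smul, h0, map_smul, coeff_smul, wx_smul w c (hη a i)]

theorem exists_wxP (p : R →ₐ[ℂ] k) (hp : ∀ r, p r ∈ A) :
    ∃ p' : R →ₐ[ℂ] L, ∀ r, p' r = wx w (p r) :=
  ⟨w.comp (p.codRestrict A hp), fun r => (wx_mem w (hp r)).symm⟩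

theorem exists_wxV (v : R →ₗ[ℂ] k) (hv : ∀ r, v r ∈ A) :
    ∃ v' : R →ₗ[ℂ] L, ∀ r, v' r = wx w (v r) :=
  ⟨{ toFun := fun r => wx w (v r)
     map_add' := fun a b => by rw [map_add, wx_add w (hv a) (hv b)]
     map_smul' := fun c a => by rw [map_smul, wx_smul w c (hv a), RingHom.id_apply] },
    fun r => rfl⟩

end wx

section gens
variable {R : Type} [CommRing R] [Algebra ℂ R] {k : Type} [Field k] [Algebra ℂ k]
  {A : Subalgebra ℂ k} {T : Finset R} (hT : Algebra.adjoin ℂ (T : Set R) = ⊤)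

include hT in
theorem mem_hom (ψ : R →ₐ[ℂ] k[X]) (h : ∀ t ∈ T, ∀ i, (ψ t).coeff i ∈ A) (r : R) (i : ℕ) :
    (ψ r).coeff i ∈ A := by
  obtain ⟨Ψ, hΨ⟩ := exists_cod_poly hT A ψ h
  rw [← hΨ]
  exact Subtype.prop _

include hT in
theorem mem_pt (p : R →ₐ[ℂ] k) (h : ∀ t ∈ T, p t ∈ A) (r : R) : p r ∈ A := by
  obtain ⟨P, hP⟩ := exists_cod hT A p h
  rw [← hP]
  exact Subtype.prop _

include hT in
theorem mem_tanv {p : R →ₐ[ℂ] k} (h : ∀ t ∈ T, p t ∈ A) {v : R →ₗ[ℂ] k} (hv : v ∈ Tan p)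
    (h' : ∀ t ∈ T, v t ∈ A) (r : R) : v r ∈ A := by
  have hr : r ∈ Algebra.adjoin ℂ (T : Set R) := by rw [hT]; trivial
  induction hr using Algebra.adjoin_induction with
  | mem x hx => exact h' x hx
  | algebraMap c => rw [tan_one hv]; exact A.zero_mem
  | add x y _ _ hx hy => rw [map_add]; exact A.add_mem hx hy
  | mul x y _ _ hx hy =>
    rw [hv]
    exact A.add_mem (A.mul_mem (mem_pt hT p h x) hy) (A.mul_mem (mem_pt hT p h y) hx)

include hT in
theorem mem_vf (𝒜 : ℕ → Submodule ℂ R) {e : ℕ} {ψ : R →ₐ[ℂ] k[X]}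
    (h : ∀ t ∈ T, ∀ i, (ψ t).coeff i ∈ A) {η : R →ₗ[ℂ] k[X]} (hη : η ∈ Vf 𝒜 e ψ)
    (h' : ∀ t ∈ T, ∀ i, (η t).coeff i ∈ A) (r : R) : ∀ i, (η r).coeff i ∈ A := by
  have hr : r ∈ Algebra.adjoin ℂ (T : Set R) := by rw [hT]; trivial
  induction hr using Algebra.adjoin_induction with
  | mem x hx => exact h' x hx
  | algebraMap c =>
    intro i
    rw [vf_one 𝒜 hη, coeff_zero]
    exact A.zero_mem
  | add x y _ _ hx hy =>
    intro i
    rw [map_add, coeff_add]
    exact A.add_mem (hx i) (hy i)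
  | mul x y _ _ hx hy =>
    intro i
    rw [hη.1, coeff_add, coeff_mul, coeff_mul]
    exact A.add_mem (sum_mem fun q _ => A.mul_mem (mem_hom hT ψ h x _) (hy _))
      (sum_mem fun q _ => A.mul_mem (mem_hom hT ψ h y _) (hx _))

end gens

end Vale.Agent.P280.H475
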