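import Vale.Agent.P280.H475.Ends

/-! P280, Theorem F: the tangent spaces at the two ends of a weak curve. -/

open DirectSum Polynomial Module

namespace Vale.Agent.P280.H475

open Vale.Agent.P280.S

section lin
variable {k V V' : Type*} [Field k] [AddCommGroup V] [Module k V] [AddCommGroup V'] [Module k V']

theorem finrank_map_add (f : V →ₗ[k] V') (W : Submodule k V) [FiniteDimensional k W] :
    finrank k (W.map f) + finrank k (W ⊓ LinearMap.ker f : Submodule k V) = finrank k W := by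
  have h1 := LinearMap.finrank_range_add_finrank_ker (f.domRestrict W)
  rw [LinearMap.range_domRestrict] at h1
  rw [← h1]
  congr 1
  have h2 : LinearMap.ker (f.domRestrict W) = (LinearMap.ker f).comap W.subtype := by
    ext x
    simp
  have h3 : LinearMap.range (W.subtype.comp ((LinearMap.ker f).comap W.subtype).subtype) =
      W ⊓ LinearMap.ker f := by
    rw [LinearMap.range_comp, Submodule.range_subtype, Submodule.map_comap_subtype]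
  rw [h2, ← LinearMap.finrank_range_of_inj (f := W.subtype.comp
    ((LinearMap.ker f).comap W.subtype).subtype) (by
      exact (Submodule.subtype_injective _).comp (Submodule.subtype_injective _)), h3]

/-- An upper bound for the dimension. -/
theorem finrank_le_add (f : V →ₗ[k] V') {W Z : Submodule k V} {T : Submodule k V'}
    [FiniteDimensional k W] [FiniteDimensional k T] [FiniteDimensional k Z] (h1 : W.map f ≤ T)
    (h2 : W ⊓ LinearMap.ker f ≤ Z) : finrank k W ≤ finrank k T + finrank k Z := by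
  rw [← finrank_map_add f W]
  exact add_le_add (Submodule.finrank_mono h1) (Submodule.finrank_mono h2)

theorem two_le_finrank {W : Submodule k V} [FiniteDimensional k W] {x y : V} (hx : x ∈ W)
    (hy : y ∈ W) (h : ∀ s t : k, s • x + t • y = 0 → s = 0 ∧ t = 0) : 2 ≤ finrank k W := by
  have h1 : LinearIndependent k ![(⟨x, hx⟩ : W), ⟨y, hy⟩] := by
    rw [LinearIndependent.pair_iff]
    intro s t hst
    exact h s t (congrArg Subtype.val hst)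
  have h2 := h1.fintype_card_le_finrank
  rwa [Fintype.card_fin] at h2

theorem one_le_finrank {W : Submodule k V} [FiniteDimensional k W] {x : V} (hx : x ∈ W)
    (h : x ≠ 0) : 1 ≤ finrank k W := by
  have : Nontrivial W := ⟨⟨⟨x, hx⟩, 0, fun h0 => h (congrArg Subtype.val h0)⟩⟩
  exact finrank_pos

end lin

section
variable {R : Type} [CommRing R] [Algebra ℂ R] (𝒜 : ℕ → Submodule ℂ R) [GradedAlgebra 𝒜]
  {k : Type} [Field k] [Algebra ℂ k]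

/-- Admissible spaces of tangent vectors. -/
structure Good (p : R →ₐ[ℂ] k) (T : Submodule k (R →ₗ[ℂ] k)) : Prop where
  le : T ≤ Tan p
  eu : eu 𝒜 p ∈ T
  dP : ∀ D : Derivation ℂ k k, dP D p ∈ T

theorem Good.twist {p : R →ₐ[ℂ] k} {T : Submodule k (R →ₗ[ℂ] k)} (h : Good 𝒜 p T) {c : k}
    (hc : c ≠ 0) : Good 𝒜 (twist 𝒜 c p) (T.map (twL 𝒜 c)) := by
  refine ⟨?_, ?_, fun D => ?_⟩
  · rintro _ ⟨v, hv, rfl⟩
    exact twL_mem_tan 𝒜 (h.le hv)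
  · exact ⟨_, h.eu, twL_eu 𝒜⟩
  · rw [dP_twist 𝒜 D p hc]
    exact ⟨_, T.add_mem (h.dP D) (T.smul_mem _ h.eu), rfl⟩

theorem finrank_twist (T : Submodule k (R →ₗ[ℂ] k)) {c : k} (hc : c ≠ 0) :
    finrank k (T.map (twL 𝒜 c)) = finrank k T :=
  LinearEquiv.finrank_eq (Submodule.equivMapOfInjective _ (twL_injective 𝒜 hc) T).symm

/-- A weak curve of degree `e` from `p'` to `p`. -/
structure Piece (e : ℕ) (ψ : R →ₐ[ℂ] k[X]) (p' p : R →ₐ[ℂ] k) : Prop where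
  deg : Deg 𝒜 e ψ
  start1 : ∀ d, ∀ h ∈ 𝒜 d, (ψ h).coeff 0 = p' h
  fin : ∀ d, ∀ h ∈ 𝒜 d, (ψ h).coeff (d * e) = p h

/-- The constant coefficient. -/
noncomputable def cz : k[X] →ₐ[ℂ] k := (Polynomial.aeval (R := k) (0 : k)).restrictScalars ℂ

theorem cz_apply (p : k[X]) : cz p = p.coeff 0 := by
  rw [coeff_zero_eq_eval_zero]
  change Polynomial.aeval (0 : k) p = _
  rw [Polynomial.coe_aeval_eq_eval]

variable {𝒜} in
theorem Piece.start {e : ℕ} {ψ : R →ₐ[ℂ] k[X]} {p' p : R →ₐ[ℂ] k} (h : Piece 𝒜 e ψ p' p) (x : R) :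
    (ψ x).coeff 0 = p' x := by
  have h1 : cz.comp ψ = p' := hom_ext_hom 𝒜 fun d y hy => by
    rw [AlgHom.comp_apply, cz_apply, h.start1 d y hy]
  rw [← h1, AlgHom.comp_apply, cz_apply]

/-- The fields whose value at the end is in `T`. -/
noncomputable def fieldsTo (e : ℕ) (ψ : R →ₐ[ℂ] k[X]) (T : Submodule k (R →ₗ[ℂ] k)) :
    Submodule k (R →ₗ[ℂ] k[X]) := Vf 𝒜 e ψ ⊓ T.comap (evE 𝒜 e)

/-- The values at the start of the fields whose value at the end is in `T`. -/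
noncomputable def prev (e : ℕ) (ψ : R →ₐ[ℂ] k[X]) (T : Submodule k (R →ₗ[ℂ] k)) :
    Submodule k (R →ₗ[ℂ] k) := (fieldsTo 𝒜 e ψ T).map ev0

variable {𝒜} in
theorem Piece.good {e : ℕ} {ψ : R →ₐ[ℂ] k[X]} {p' p : R →ₐ[ℂ] k} (h : Piece 𝒜 e ψ p' p)
    {T : Submodule k (R →ₗ[ℂ] k)} (hT : Good 𝒜 p T) : Good 𝒜 p' (prev 𝒜 e ψ T) := by
  refine ⟨?_, ?_, fun D => ?_⟩
  · rintro _ ⟨η, hη, rfl⟩
    exact ev0_mem 𝒜 hη.1 h.start
  · refine ⟨fE 𝒜 ψ, ⟨fE_mem 𝒜 h.deg, ?_⟩, ev0_fE 𝒜 h.start⟩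
    change evE 𝒜 e (fE 𝒜 ψ) ∈ T
    rw [evE_fE 𝒜 h.fin]
    exact hT.eu
  · refine ⟨fD D ψ, ⟨fD_mem 𝒜 D h.deg, ?_⟩, ev0_fD D h.start⟩
    change evE 𝒜 e (fD D ψ) ∈ T
    rw [evE_fD 𝒜 D h.fin]
    exact hT.dP D

variable {𝒜} in
theorem Piece.fX_mem {e : ℕ} {ψ : R →ₐ[ℂ] k[X]} {p' p : R →ₐ[ℂ] k} (h : Piece 𝒜 e ψ p' p)
    {T : Submodule k (R →ₗ[ℂ] k)} (hT : Good 𝒜 p T) :
    fX ψ ∈ fieldsTo 𝒜 e ψ T ⊓ LinearMap.ker (ev0 : (R →ₗ[ℂ] k[X]) →ₗ[k] (R →ₗ[ℂ] k)) := by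
  refine ⟨⟨H475.fX_mem 𝒜 h.deg, ?_⟩, ev0_fX ψ⟩
  change evE 𝒜 e (fX ψ) ∈ T
  rw [evE_fX 𝒜 h.fin]
  exact T.smul_mem _ hT.eu

theorem charZero_of (k : Type) [Field k] [Algebra ℂ k] : CharZero k :=
  charZero_of_injective_algebraMap (algebraMap ℂ k).injective

variable {𝒜} in
theorem Piece.finrank_le (hft : Algebra.FiniteType ℂ R)
    (hgen : Algebra.adjoin ℂ {h : R | h ∈ 𝒜 1} = ⊤) {e : ℕ} {ψ : R →ₐ[ℂ] k[X]}
    {p' p : R →ₐ[ℂ] k} (h : Piece 𝒜 e ψ p' p) (he : 0 < e) (hp : NV 𝒜 p)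
    {T : Submodule k (R →ₗ[ℂ] k)} (hT : Good 𝒜 p T) :
    finrank k (prev 𝒜 e ψ T) + 1 ≤ finrank k T + finrank k (Vf0 𝒜 e ψ) := by
  have := charZero_of k
  have h1 : FiniteDimensional k (Vf 𝒜 e ψ) := finite_vf 𝒜 hft hgen e ψ
  have h2 : FiniteDimensional k (Vf0 𝒜 e ψ) := Submodule.finiteDimensional_of_le (vf0_le 𝒜 e ψ)
  have h3 : FiniteDimensional k T := finite_le_tan hT.le
  have h4 : FiniteDimensional k (fieldsTo 𝒜 e ψ T) := Submodule.finiteDimensional_of_le inf_le_left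
  have h5 : finrank k (fieldsTo 𝒜 e ψ T) ≤ finrank k T + finrank k (Vf0 𝒜 e ψ) := by
    refine finrank_le_add (evE 𝒜 e) ?_ ?_
    · rintro _ ⟨η, hη, rfl⟩
      exact hη.2
    · rintro η ⟨hη, h0⟩
      refine ⟨hη.1, fun d x hx => ?_⟩
      rw [← evE_apply 𝒜 hx, LinearMap.mem_ker.1 h0, LinearMap.zero_apply]
  have h6 : 1 ≤ finrank k (fieldsTo 𝒜 e ψ T ⊓
      LinearMap.ker (ev0 : (R →ₗ[ℂ] k[X]) →ₗ[k] (R →ₗ[ℂ] k)) : Submodule k (R →ₗ[ℂ] k[X])) := by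
    have : FiniteDimensional k (fieldsTo 𝒜 e ψ T ⊓
      LinearMap.ker (ev0 : (R →ₗ[ℂ] k[X]) →ₗ[k] (R →ₗ[ℂ] k)) : Submodule k (R →ₗ[ℂ] k[X])) :=
      Submodule.finiteDimensional_of_le inf_le_left
    refine one_le_finrank (h.fX_mem hT) fun h0 => ?_
    obtain ⟨x, hx, hx0⟩ := hp
    have h7 : (fX ψ x).coeff e = e * p x := by
      rw [fX_apply, coeff_X_derivative, ← h.fin 1 x hx, one_mul]
    rw [h0, LinearMap.zero_apply, coeff_zero] at h7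
    exact mul_ne_zero (Nat.cast_ne_zero.2 he.ne') hx0 h7.symm
  have h7 := finrank_map_add (ev0 : (R →ₗ[ℂ] k[X]) →ₗ[k] (R →ₗ[ℂ] k)) (fieldsTo 𝒜 e ψ T)
  change finrank k (prev 𝒜 e ψ T) + _ = _ at h7
  omega

variable {𝒜} in
theorem Piece.finrank_le_two (hft : Algebra.FiniteType ℂ R)
    (hgen : Algebra.adjoin ℂ {h : R | h ∈ 𝒜 1} = ⊤) {e : ℕ} {ψ : R →ₐ[ℂ] k[X]}
    {p' p : R →ₐ[ℂ] k} (h : Piece 𝒜 e ψ p' p) (he : 0 < e) (hp' : NV 𝒜 p') (hp : NV 𝒜 p)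
    {T : Submodule k (R →ₗ[ℂ] k)} (hT : Good 𝒜 p T) {q : ℕ} (hq : 2 ≤ q)
    (hqd : ∀ d, ∀ h ∈ 𝒜 d, ∀ i, (ψ h).coeff i ≠ 0 → q ∣ i) :
    finrank k (prev 𝒜 e ψ T) + 2 ≤ finrank k T + finrank k (Vf0 𝒜 e ψ) := by
  have := charZero_of k
  have h1 : FiniteDimensional k (Vf 𝒜 e ψ) := finite_vf 𝒜 hft hgen e ψ
  have h2 : FiniteDimensional k (Vf0 𝒜 e ψ) := Submodule.finiteDimensional_of_le (vf0_le 𝒜 e ψ)
  have h3 : FiniteDimensional k T := finite_le_tan hT.le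
  have h4 : FiniteDimensional k (fieldsTo 𝒜 e ψ T) := Submodule.finiteDimensional_of_le inf_le_left
  have h5 : finrank k (fieldsTo 𝒜 e ψ T) ≤ finrank k T + finrank k (Vf0 𝒜 e ψ) := by
    refine finrank_le_add (evE 𝒜 e) ?_ ?_
    · rintro _ ⟨η, hη, rfl⟩
      exact hη.2
    · rintro η ⟨hη, h0⟩
      refine ⟨hη.1, fun d x hx => ?_⟩
      rw [← evE_apply 𝒜 hx, LinearMap.mem_ker.1 h0, LinearMap.zero_apply]
  obtain ⟨x, hx, hx0⟩ := hp
  obtain ⟨y, hy, hy0⟩ := hp'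
  have hxe : (ψ x).coeff e = p x := by
    rw [← h.fin 1 x hx, one_mul]
  have hqe : q ∣ e := hqd 1 x hx e (by rwa [hxe])
  obtain ⟨n, rfl⟩ : ∃ n, e = n + 1 := ⟨e - 1, by omega⟩
  have hY0 : ∀ d, ∀ h ∈ 𝒜 d, (fY 𝒜 (n + 1) ψ h).coeff (d * (n + 1)) = 0 := by
    intro d z hz
    rcases Nat.eq_zero_or_pos d with hd | hd
    · rw [hd, zero_mul]
      exact coeff_fY_zero 𝒜 z
    · obtain ⟨m, hm⟩ : ∃ m, d * (n + 1) = m + 1 :=
        ⟨d * (n + 1) - 1, by have := Nat.mul_pos hd he; omega⟩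
      rw [hm, coeff_fY 𝒜 hz]
      by_cases h0 : (ψ z).coeff m = 0
      · rw [h0, mul_zero]
      · have h6 : q ∣ m := hqd d z hz m h0
        have h7 : q ∣ m + 1 := by
          rw [← hm]
          exact dvd_mul_of_dvd_right hqe d
        have h8 : q ∣ 1 := (Nat.dvd_add_right h6).1 h7
        have := Nat.le_of_dvd one_pos h8
        omega
  have hYmem : fY 𝒜 (n + 1) ψ ∈ fieldsTo 𝒜 (n + 1) ψ T ⊓
      LinearMap.ker (ev0 : (R →ₗ[ℂ] k[X]) →ₗ[k] (R →ₗ[ℂ] k)) := by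
    refine ⟨⟨fY_mem 𝒜 h.deg, ?_⟩, ev0_fY 𝒜 ψ⟩
    change evE 𝒜 (n + 1) (fY 𝒜 (n + 1) ψ) ∈ T
    have h6 : evE 𝒜 (n + 1) (fY 𝒜 (n + 1) ψ) = 0 := lin_ext 𝒜 fun d z hz => by
      rw [evE_apply 𝒜 hz, hY0 d z hz, LinearMap.zero_apply]
    rw [h6]
    exact T.zero_mem
  have h6 : 2 ≤ finrank k (fieldsTo 𝒜 (n + 1) ψ T ⊓
      LinearMap.ker (ev0 : (R →ₗ[ℂ] k[X]) →ₗ[k] (R →ₗ[ℂ] k)) : Submodule k (R →ₗ[ℂ] k[X])) := by
    have : FiniteDimensional k (fieldsTo 𝒜 (n + 1) ψ T ⊓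
      LinearMap.ker (ev0 : (R →ₗ[ℂ] k[X]) →ₗ[k] (R →ₗ[ℂ] k)) : Submodule k (R →ₗ[ℂ] k[X])) :=
      Submodule.finiteDimensional_of_le inf_le_left
    refine two_le_finrank (h.fX_mem hT) hYmem fun s t h0 => ?_
    have h7 : s = 0 := by
      have h8 := congrArg (fun η : R →ₗ[ℂ] k[X] => (η x).coeff (n + 1)) h0
      have h9 := hY0 1 x hx
      rw [one_mul] at h9
      simp only [LinearMap.add_apply, LinearMap.smul_apply, coeff_add, coeff_smul, smul_eq_mul,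
        LinearMap.zero_apply, coeff_zero, h9, mul_zero, add_zero, fX_apply, coeff_X_derivative,
        hxe] at h8
      rcases mul_eq_zero.1 h8 with h10 | h10
      · exact h10
      · exact absurd h10 (mul_ne_zero (Nat.cast_ne_zero.2 he.ne') hx0)
    refine ⟨h7, ?_⟩
    have h8 := congrArg (fun η : R →ₗ[ℂ] k[X] => (η y).coeff 1) h0
    simp only [h7, zero_smul, zero_add, LinearMap.smul_apply, coeff_smul, smul_eq_mul,
      LinearMap.zero_apply, coeff_zero] at h8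
    have h9 := coeff_fY 𝒜 (e := n + 1) (ψ := ψ) hy 0
    rw [zero_add, h.start, Nat.cast_zero, zero_sub, one_mul] at h9
    rw [h9] at h8
    rcases mul_eq_zero.1 h8 with h10 | h10
    · exact h10
    · exact absurd h10 (mul_ne_zero (neg_ne_zero.2 (Nat.cast_ne_zero.2 he.ne')) hy0)
  have h7 := finrank_map_add (ev0 : (R →ₗ[ℂ] k[X]) →ₗ[k] (R →ₗ[ℂ] k)) (fieldsTo 𝒜 (n + 1) ψ T)
  change finrank k (prev 𝒜 (n + 1) ψ T) + _ = _ at h7
  omega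

end

end Vale.Agent.P280.H475
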