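import Vale.Agent.P280.H475.BoundC
import Vale.Agent.P280.H475.Grad

/-! P280, Theorem F: arcs in terms of weak curves over `ℂ`. -/

open DirectSum Polynomial Module

namespace Vale.Agent.P280.H475

open Vale.Agent.P280.S

section

set_option linter.unusedSectionVars false

variable {R : Type} [CommRing R] [Algebra ℂ R] {𝒜 : ℕ → Submodule ℂ R} [GradedAlgebra 𝒜]

/-- The end point of a weak curve. -/
theorem exists_end {k : Type} [Field k] [Algebra ℂ k] {e : ℕ} {ψ : R →ₐ[ℂ] k[X]}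
    (hd : Deg 𝒜 e ψ) : ∃ p : R →ₐ[ℂ] k, ∀ d, ∀ h ∈ 𝒜 d, (ψ h).coeff (d * e) = p h := by
  obtain ⟨p, hp⟩ := exists_graded_hom 𝒜 (fun (d : ℕ) h => (ψ h).coeff (d * e))
    (by rw [map_one, zero_mul, coeff_one_zero]) (fun d a _ b _ => by rw [map_add, coeff_add])
    (fun d c a _ => by rw [map_smul, coeff_smul])
    (fun i j a ha b hb => by
      rw [map_mul, add_mul, coeff_mul_add_eq_of_natDegree_le (hd i a ha) (hd j b hb)])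
  exact ⟨p, fun d h hh => (hp d h hh).symm⟩

/-- The normalization at infinity. -/
def Nrm (L : Set (Rep R)) {k : Type} [Field k] [Algebra ℂ k] (e : ℕ) (ψ : R →ₐ[ℂ] k[X]) : Prop :=
  ∀ ρ ∈ L, ρ.val e ψ = cInf e ψ ρ.m ρ.b

theorem weak_of_arc (hgen : Algebra.adjoin ℂ {h : R | h ∈ 𝒜 1} = ⊤) {J : Set R}
    {θ : (R →ₐ[ℂ] ℂ) → (R →ₗ[ℂ] ℂ) → ℂ} {e : ℕ} {z : R →ₐ[ℂ] ℂ}
    {φ : R →ₐ[ℂ] MvPolynomial (Fin 2) ℂ} (h : IsArc 𝒜 J θ e z φ) :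
    WSol 𝒜 J e z (dehom φ) ∧ Nrm {ρ | ρ.IsValid 𝒜 J θ} e (dehom φ) := by
  obtain ⟨hφ, hz, hJ, hθ⟩ := h
  have hpc := piece_dehom (𝒜 := 𝒜) hφ.1
  have hnv := (nv_iff hgen _).1 (hφ.2 _ basis_ne_zero)
  refine ⟨⟨hpc.deg, fun x => by rw [hpc.start, hz], ?_, fun d x hx hd => ?_⟩, fun ρ hρ => ?_⟩
  · obtain ⟨x, hx, hne⟩ := hnv
    refine ⟨x, hx, ?_⟩
    rw [cInf, hpc.fin 1 x hx]
    exact hne
  · rw [cInf, hpc.fin d x hd, hJ x hx]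
  · rw [val_eq hρ hφ.1 ⟨hφ.2 _ basis_ne_zero, hJ⟩, hθ, mul_one, cInf, hpc.fin _ _ hρ.1.1]

theorem arc_of_weak (hgen : Algebra.adjoin ℂ {h : R | h ∈ 𝒜 1} = ⊤) {J : Set R}
    {θ : (R →ₐ[ℂ] ℂ) → (R →ₗ[ℂ] ℂ) → ℂ} {e d₀ : ℕ} {g : R}
    (hP : IsNullPair 𝒜 J θ e d₀ g) {z : R →ₐ[ℂ] ℂ} (hz : NV 𝒜 z) {ψ : R →ₐ[ℂ] ℂ[X]}
    (h : WSol 𝒜 J e z ψ) (hN : Nrm {ρ | ρ.IsValid 𝒜 J θ} e ψ) :
    IsArc 𝒜 J θ e z (hgz h.deg) := by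
  obtain ⟨p, hp⟩ := exists_end h.deg
  have hpc : Piece 𝒜 e ψ z p := ⟨h.deg, fun d x _ => h.start x, hp⟩
  have hpnv : NV 𝒜 p := by
    obtain ⟨x, hx, hne⟩ := h.nv
    refine ⟨x, hx, ?_⟩
    rw [← hp 1 x hx]
    exact hne
  have hJ : ∀ x ∈ J, p x = 0 := by
    intro x hx
    obtain ⟨d, hd⟩ := hP.homogeneous x hx
    rw [← hp d x hd]
    exact h.mem d x hx hd
  obtain ⟨ρ, hρ, hb⟩ := hP.covector.regular p ⟨(nv_iff hgen p).2 hpnv, hJ⟩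
  have hstrong : Strong 𝒜 e ψ := by
    by_contra hns
    have h1 := null_val_aux hgen hP hpc hz hpnv hJ le_rfl (fun _ => hns) hρ
    rw [hN ρ hρ, cInf, hp _ _ hρ.1.1] at h1
    exact hb h1
  have hcurve := isCurve_of_strong hgen hstrong
  have hdh : dehom (hgz h.deg) = ψ := dehom_hgz h.deg
  have hpt : pt (hgz h.deg) ![1, 0] = p := hom_ext_hom 𝒜 fun d x hx => by
    rw [← hp d x hx, ← (piece_dehom (𝒜 := 𝒜) hcurve.1).fin d x hx, hdh]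
  refine ⟨hcurve, hom_ext_hom 𝒜 fun d x hx => ?_, fun x hx => by rw [hpt]; exact hJ x hx, ?_⟩
  · rw [← (piece_dehom (𝒜 := 𝒜) hcurve.1).start1 d x hx, hdh, h.start]
  · have h1 := val_eq hρ hcurve.1 (hpt.symm ▸ ⟨(nv_iff hgen p).2 hpnv, hJ⟩)
    rw [hdh, hN ρ hρ, cInf, hp _ _ hρ.1.1] at h1
    have h2 : pt (hgz h.deg) ![1, 0] ρ.b ≠ 0 := by rwa [hpt]
    have h3 : pt (hgz h.deg) ![1, 0] ρ.b *
        θ (pt (hgz h.deg) ![1, 0]) (vel (hgz h.deg) ![1, 0] 1) =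
        pt (hgz h.deg) ![1, 0] ρ.b * 1 := by
      rw [← h1, hpt, mul_one]
    exact mul_left_cancel₀ h2 h3

/-- Through the general point there is exactly one weak normalized curve. -/
theorem unique_weak (hgen : Algebra.adjoin ℂ {h : R | h ∈ 𝒜 1} = ⊤) {J : Set R}
    {θ : (R →ₐ[ℂ] ℂ) → (R →ₗ[ℂ] ℂ) → ℂ} {e d₀ : ℕ} {g : R}
    (hP : IsNullPair 𝒜 J θ e d₀ g) {z : R →ₐ[ℂ] ℂ} (hz : z g ≠ 0) :
    ∃! ψ : R →ₐ[ℂ] ℂ[X], WSol 𝒜 J e z ψ ∧ Nrm {ρ | ρ.IsValid 𝒜 J θ} e ψ := by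
  obtain ⟨φ, hφ, huniq⟩ := hP.unique z hz
  have hznv : NV 𝒜 z := by
    rw [← hφ.2.1]
    exact (nv_iff hgen _).1 (hφ.1.2 _ basis_ne_zero')
  refine ⟨dehom φ, weak_of_arc hgen hφ, fun ψ hψ => ?_⟩
  rw [← huniq _ (arc_of_weak hgen hP hznv hψ.1 hψ.2), dehom, dehom_hgz]

end

end Vale.Agent.P280.H475
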