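import Vale.Agent.P280.H475.Grad

/-! P280, Theorem F: leading coefficients for a discrete valuation. -/

open DirectSum Polynomial Module

namespace Vale.Agent.P280.H475

open Vale.Agent.P280.S

/-- Leading coefficients with respect to a valuation with values in `(1/Q) ℤ`: `W s a` says that
the valuation of `a` is at least `s / Q` and `ld s a` is the coefficient of order `s / Q`. -/
structure LV (K κ : Type) [Field K] [Algebra ℂ K] [Field κ] [Algebra ℂ κ] where
  /-- the filtration -/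
  W : ℤ → K → Prop
  /-- leading coefficients -/
  ld : ℤ → K → κ
  zero : ∀ s, W s 0
  add : ∀ {s a b}, W s a → W s b → W s (a + b)
  mul : ∀ {s t a b}, W s a → W t b → W (s + t) (a * b)
  const : ∀ c : ℂ, W 0 (algebraMap ℂ K c)
  mono : ∀ {s t a}, s ≤ t → W t a → W s a
  ld_add : ∀ {s a b}, W s a → W s b → ld s (a + b) = ld s a + ld s b
  ld_mul : ∀ {s t a b}, W s a → W t b → ld (s + t) (a * b) = ld s a * ld t b
  ld_const : ∀ c : ℂ, ld 0 (algebraMap ℂ K c) = algebraMap ℂ κ c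
  ld_eq_zero : ∀ {s a}, W s a → (ld s a = 0 ↔ W (s + 1) a)
  bounded : ∀ {a}, a ≠ 0 → ∃ s, ¬ W s a
  exists_W : ∀ a, ∃ s, W s a

namespace LV

variable {K κ : Type} [Field K] [Algebra ℂ K] [Field κ] [Algebra ℂ κ] (v : LV K κ)

theorem ld_zero (s : ℤ) : v.ld s 0 = 0 := (v.ld_eq_zero (v.zero s)).2 (v.zero _)

theorem sum {ι : Type} {s : ℤ} (A : Finset ι) {f : ι → K} (h : ∀ i ∈ A, v.W s (f i)) :
    v.W s (∑ i ∈ A, f i) := by
  classical
  induction A using Finset.induction_on with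
  | empty => rw [Finset.sum_empty]; exact v.zero s
  | insert a A ha ih =>
    rw [Finset.sum_insert ha]
    exact v.add (h a (Finset.mem_insert_self a A))
      (ih fun i hi => h i (Finset.mem_insert_of_mem hi))

theorem ld_sum {ι : Type} {s : ℤ} (A : Finset ι) {f : ι → K} (h : ∀ i ∈ A, v.W s (f i)) :
    v.ld s (∑ i ∈ A, f i) = ∑ i ∈ A, v.ld s (f i) := by
  classical
  induction A using Finset.induction_on with
  | empty => rw [Finset.sum_empty, Finset.sum_empty, v.ld_zero]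
  | insert a A ha ih =>
    rw [Finset.sum_insert ha, Finset.sum_insert ha, v.ld_add (h a (Finset.mem_insert_self a A))
      (v.sum A fun i hi => h i (Finset.mem_insert_of_mem hi)),
      ih fun i hi => h i (Finset.mem_insert_of_mem hi)]

theorem smul {s : ℤ} {a : K} (c : ℂ) (h : v.W s a) : v.W s (algebraMap ℂ K c * a) := by
  have := v.mul (v.const c) h
  rwa [zero_add] at this

theorem ld_smul {s : ℤ} {a : K} (c : ℂ) (h : v.W s a) :
    v.ld s (algebraMap ℂ K c * a) = algebraMap ℂ κ c * v.ld s a := by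
  have := v.ld_mul (v.const c) h
  rwa [zero_add, v.ld_const] at this

theorem uniform (A : Finset K) : ∃ s, ∀ a ∈ A, v.W s a := by
  classical
  induction A using Finset.induction_on with
  | empty => exact ⟨0, fun a ha => absurd ha (Finset.notMem_empty a)⟩
  | insert a A ha ih =>
    obtain ⟨s, hs⟩ := ih
    obtain ⟨t, ht⟩ := v.exists_W a
    refine ⟨min s t, fun b hb => ?_⟩
    rcases Finset.mem_insert.1 hb with rfl | hb
    · exact v.mono (min_le_right s t) ht
    · exact v.mono (min_le_left s t) (hs b hb)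

/-- The exact order. -/
theorem exists_order (A : Finset K) (hA : ∃ a ∈ A, a ≠ 0) :
    ∃ s, (∀ a ∈ A, v.W s a) ∧ ∃ a ∈ A, ¬ v.W (s + 1) a := by
  obtain ⟨a, ha, ha0⟩ := hA
  obtain ⟨t, ht⟩ := v.bounded ha0
  obtain ⟨s, hs, hmax⟩ := Int.exists_greatest_of_bdd (P := fun s => ∀ a ∈ A, v.W s a)
    ⟨t, fun z hz => by
      by_contra hlt
      exact ht (v.mono (by omega) (hz a ha))⟩ (v.uniform A)
  refine ⟨s, hs, ?_⟩
  by_contra hcon
  push Not at hcon
  have := hmax (s + 1) hcon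
  omega

end LV

section dvr

set_option linter.unusedSectionVars false

variable {O K κ : Type} [CommRing O] [IsDomain O] [Algebra ℂ O] [IsDiscreteValuationRing O]
  [Field K] [Algebra ℂ K] [Algebra O K] [IsScalarTower ℂ O K] [IsFractionRing O K]
  [Field κ] [Algebra ℂ κ]

variable (K) in
/-- The valuation of `a` is at least `n`. -/
def V (ϖ : O) (n : ℤ) (a : K) : Prop :=
  ∃ u : O, a = algebraMap O K ϖ ^ n * algebraMap O K u

open Classical in
variable (K) in
/-- `ϖ ^ (-n) a`. -/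
noncomputable def un (ϖ : O) (n : ℤ) (a : K) : O := if h : V K ϖ n a then h.choose else 0

variable {ϖ : O} (hϖ : Irreducible ϖ)

theorem un_spec {n : ℤ} {a : K} (h : V K ϖ n a) :
    a = algebraMap O K ϖ ^ n * algebraMap O K (un K ϖ n a) := by
  rw [un, dif_pos h]
  exact h.choose_spec

include hϖ in
theorem piK_ne_zero : algebraMap O K ϖ ≠ 0 := fun h =>
  hϖ.ne_zero (IsFractionRing.injective O K (by rw [h, map_zero]))

include hϖ in
theorem un_eq {n : ℤ} {a : K} {u : O} (h : a = algebraMap O K ϖ ^ n * algebraMap O K u) :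
    un K ϖ n a = u := by
  have h1 := un_spec (⟨u, h⟩ : V K ϖ n a)
  rw [h] at h1
  have h2 := mul_left_cancel₀ (zpow_ne_zero n (piK_ne_zero (K := K) hϖ)) h1
  have h3 := IsFractionRing.injective O K h2
  rw [← h] at h3
  exact h3.symm

theorem V_zero (n : ℤ) : V K ϖ n 0 := ⟨0, by rw [map_zero, mul_zero]⟩

theorem V_add {n : ℤ} {a b : K} (ha : V K ϖ n a) (hb : V K ϖ n b) : V K ϖ n (a + b) := by
  obtain ⟨u, rfl⟩ := ha
  obtain ⟨w, rfl⟩ := hb
  exact ⟨u + w, by rw [map_add, mul_add]⟩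

include hϖ in
theorem un_add {n : ℤ} {a b : K} (ha : V K ϖ n a) (hb : V K ϖ n b) :
    un K ϖ n (a + b) = un K ϖ n a + un K ϖ n b := by
  apply un_eq hϖ
  rw [map_add, mul_add, ← un_spec ha, ← un_spec hb]

include hϖ in
theorem V_mul {n m : ℤ} {a b : K} (ha : V K ϖ n a) (hb : V K ϖ m b) : V K ϖ (n + m) (a * b) := by
  obtain ⟨u, rfl⟩ := ha
  obtain ⟨w, rfl⟩ := hb
  exact ⟨u * w, by rw [map_mul, zpow_add₀ (piK_ne_zero hϖ)]; ring⟩

include hϖ in
theorem un_mul {n m : ℤ} {a b : K} (ha : V K ϖ n a) (hb : V K ϖ m b) :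
    un K ϖ (n + m) (a * b) = un K ϖ n a * un K ϖ m b := by
  apply un_eq hϖ
  conv_lhs => rw [un_spec ha, un_spec hb]
  rw [map_mul, zpow_add₀ (piK_ne_zero hϖ)]
  ring

include hϖ in
theorem V_of_le {n m : ℤ} (h : n ≤ m) {a : K} (ha : V K ϖ m a) : V K ϖ n a := by
  obtain ⟨u, rfl⟩ := ha
  refine ⟨ϖ ^ (m - n).toNat * u, ?_⟩
  rw [map_mul, map_pow, ← mul_assoc, ← zpow_natCast, ← zpow_add₀ (piK_ne_zero hϖ),
    Int.toNat_of_nonneg (by omega)]
  congr 2
  ring

include hϖ in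
theorem un_of_le {n m : ℤ} (h : n ≤ m) {a : K} (ha : V K ϖ m a) :
    un K ϖ n a = ϖ ^ (m - n).toNat * un K ϖ m a := by
  apply un_eq hϖ
  conv_lhs => rw [un_spec ha]
  rw [map_mul, map_pow, ← mul_assoc, ← zpow_natCast, ← zpow_add₀ (piK_ne_zero hϖ),
    Int.toNat_of_nonneg (by omega)]
  congr 2
  ring

theorem V_algebraMap (u : O) : V K ϖ 0 (algebraMap O K u) := ⟨u, by rw [zpow_zero, one_mul]⟩

include hϖ in
theorem un_algebraMap (u : O) : un K ϖ 0 (algebraMap O K u) = u :=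
  un_eq hϖ (by rw [zpow_zero, one_mul])

include hϖ in
theorem exists_V (a : K) : ∃ n, V K ϖ n a := by
  obtain ⟨x, y, hy, rfl⟩ := IsFractionRing.div_surjective (A := O) a
  have hy0 : y ≠ 0 := nonZeroDivisors.ne_zero hy
  obtain ⟨n, u, hu⟩ := IsDiscreteValuationRing.eq_unit_mul_pow_irreducible hy0 hϖ
  refine ⟨-n, x * (↑u⁻¹ : O), ?_⟩
  have h1 : algebraMap O K (↑u : O) ≠ 0 := by
    intro h
    exact u.ne_zero (IsFractionRing.injective O K (by rw [h, map_zero]))
  have h2 : algebraMap O K (↑u⁻¹ : O) = (algebraMap O K (↑u : O))⁻¹ := by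
    apply eq_inv_of_mul_eq_one_left
    rw [← map_mul, Units.inv_mul, map_one]
  rw [hu, map_mul, map_mul, map_pow, h2, zpow_neg, zpow_natCast, div_eq_mul_inv, mul_inv]
  ring

include hϖ in
theorem V_bounded {a : K} (ha : a ≠ 0) : ∃ n, ¬ V K ϖ n a := by
  obtain ⟨n, hn⟩ := exists_V hϖ a
  have h0 : un K ϖ n a ≠ 0 := by
    intro h
    rw [un_spec hn, h, map_zero, mul_zero] at ha
    exact ha rfl
  obtain ⟨m, u, hu⟩ := IsDiscreteValuationRing.eq_unit_mul_pow_irreducible h0 hϖ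
  refine ⟨n + m + 1, fun h1 => ?_⟩
  have h2 := un_of_le hϖ (n := n) (m := n + m + 1) (by omega) h1
  rw [hu] at h2
  have h3 : (n + m + 1 - n).toNat = m + 1 := by omega
  rw [h3, pow_succ, mul_comm, mul_assoc] at h2
  have h4 : (↑u : O) = ϖ * un K ϖ (n + m + 1) a :=
    mul_left_cancel₀ (pow_ne_zero m hϖ.ne_zero) h2
  have h5 : IsUnit (ϖ * un K ϖ (n + m + 1) a) := h4 ▸ u.isUnit
  exact hϖ.not_isUnit (isUnit_of_mul_isUnit_left h5)

variable (res : O →ₐ[ℂ] κ) (hker : RingHom.ker res = IsLocalRing.maximalIdeal O)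

include hϖ hker in
theorem res_eq_zero {u : O} : res u = 0 ↔ ϖ ∣ u := by
  rw [← RingHom.mem_ker, hker, hϖ.maximalIdeal_eq, Ideal.mem_span_singleton]

include hϖ hker in
theorem res_un_eq_zero {n : ℤ} {a : K} (ha : V K ϖ n a) :
    res (un K ϖ n a) = 0 ↔ V K ϖ (n + 1) a := by
  rw [res_eq_zero hϖ res hker]
  constructor
  · rintro ⟨w, hw⟩
    refine ⟨w, ?_⟩
    rw [un_spec ha, hw, map_mul, zpow_add₀ (piK_ne_zero hϖ), zpow_one, mul_assoc]
  · intro h
    rw [un_of_le hϖ (by omega) h]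
    have h3 : (n + 1 - n).toNat = 1 := by omega
    rw [h3, pow_one]
    exact dvd_mul_right _ _

variable (K) in
/-- The leading coefficients for a discrete valuation ring, rescaled by `Q`. -/
noncomputable def lvOf {Q : ℤ} (hQ : 0 < Q) : LV K κ where
  W s a := ∃ n : ℤ, s ≤ Q * n ∧ V K ϖ n a
  ld s a := if Q ∣ s then res (un K ϖ (s / Q) a) else 0
  zero s := ⟨max s 0, by nlinarith [le_max_left s 0, le_max_right s 0], V_zero _⟩
  add := by
    rintro s a b ⟨n, hn, hna⟩ ⟨m, hm, hmb⟩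
    refine ⟨min n m, ?_, V_add (V_of_le hϖ (min_le_left n m) hna)
      (V_of_le hϖ (min_le_right n m) hmb)⟩
    rcases min_choice n m with h | h <;> rw [h] <;> assumption
  mul := by
    rintro s t a b ⟨n, hn, hna⟩ ⟨m, hm, hmb⟩
    exact ⟨n + m, by rw [mul_add]; omega, V_mul hϖ hna hmb⟩
  const c := ⟨0, by simp, by
    rw [IsScalarTower.algebraMap_apply ℂ O K]
    exact V_algebraMap _⟩
  mono := by
    rintro s t a hst ⟨n, hn, hna⟩
    exact ⟨n, hst.trans hn, hna⟩
  ld_add := by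
    rintro s a b ⟨n, hn, hna⟩ ⟨m, hm, hmb⟩
    by_cases h : Q ∣ s
    · obtain ⟨t, rfl⟩ := h
      rw [if_pos (dvd_mul_right Q t), if_pos (dvd_mul_right Q t), if_pos (dvd_mul_right Q t),
        Int.mul_ediv_cancel_left t hQ.ne', un_add hϖ (V_of_le hϖ (le_of_mul_le_mul_left hn hQ) hna)
        (V_of_le hϖ (le_of_mul_le_mul_left hm hQ) hmb), map_add]
    · rw [if_neg h, if_neg h, if_neg h, add_zero]
  ld_mul := by
    rintro s t a b ⟨n, hn, hna⟩ ⟨m, hm, hmb⟩
    by_cases hs : Q ∣ s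
    · obtain ⟨s', rfl⟩ := hs
      by_cases ht : Q ∣ t
      · obtain ⟨t', rfl⟩ := ht
        rw [← mul_add, if_pos (dvd_mul_right Q _), if_pos (dvd_mul_right Q _),
          if_pos (dvd_mul_right Q _), Int.mul_ediv_cancel_left _ hQ.ne',
          Int.mul_ediv_cancel_left _ hQ.ne', Int.mul_ediv_cancel_left _ hQ.ne',
          un_mul hϖ (V_of_le hϖ (le_of_mul_le_mul_left hn hQ) hna)
          (V_of_le hϖ (le_of_mul_le_mul_left hm hQ) hmb), map_mul]
      · rw [if_neg ht, if_neg fun h => ht ((Int.dvd_add_right (dvd_mul_right Q s')).1 h), mul_zero]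
    · by_cases hst : Q ∣ s + t
      · obtain ⟨w, hw⟩ := hst
        rw [if_pos ⟨w, hw⟩, if_neg hs, zero_mul, hw, Int.mul_ediv_cancel_left _ hQ.ne']
        have h1 : s < Q * n := lt_of_le_of_ne hn fun h => hs ⟨n, h⟩
        have h2 : w + 1 ≤ n + m := by
          by_contra hcon
          have h3 : Q * (n + m) ≤ Q * w := mul_le_mul_of_nonneg_left (by omega) hQ.le
          rw [mul_add] at h3
          omega
        have h4 := V_mul hϖ hna hmb
        exact (res_un_eq_zero hϖ res hker (V_of_le hϖ (by omega) h4)).2 (V_of_le hϖ h2 h4)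
      · rw [if_neg hst, if_neg hs, zero_mul]
  ld_const c := by
    rw [if_pos (dvd_zero Q), Int.zero_ediv, IsScalarTower.algebraMap_apply ℂ O K,
      un_algebraMap hϖ, AlgHom.commutes]
  ld_eq_zero := by
    rintro s a ⟨n, hn, hna⟩
    by_cases hs : Q ∣ s
    · obtain ⟨s', rfl⟩ := hs
      rw [if_pos (dvd_mul_right Q _), Int.mul_ediv_cancel_left _ hQ.ne',
        res_un_eq_zero hϖ res hker (V_of_le hϖ (le_of_mul_le_mul_left hn hQ) hna)]
      constructor
      · intro h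
        exact ⟨s' + 1, by rw [mul_add, mul_one]; omega, h⟩
      · rintro ⟨m, hm, hma⟩
        refine V_of_le hϖ ?_ hma
        by_contra hcon
        have h3 : Q * m ≤ Q * s' := mul_le_mul_of_nonneg_left (by omega) hQ.le
        omega
    · rw [if_neg hs]
      refine ⟨fun _ => ⟨n, ?_, hna⟩, fun _ => rfl⟩
      have h1 : s < Q * n := lt_of_le_of_ne hn fun h => hs ⟨n, h⟩
      omega
  bounded := by
    intro a ha
    obtain ⟨n, hn⟩ := V_bounded hϖ ha
    refine ⟨Q * n, ?_⟩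
    rintro ⟨m, hm, hma⟩
    exact hn (V_of_le hϖ (le_of_mul_le_mul_left hm hQ) hma)
  exists_W a := by
    obtain ⟨n, hn⟩ := exists_V hϖ a
    exact ⟨Q * n, n, le_rfl, hn⟩

theorem lvOf_dvd {Q : ℤ} (hQ : 0 < Q) {s : ℤ} {a : K}
    (h : (lvOf K hϖ res hker hQ).ld s a ≠ 0) : Q ∣ s := by
  by_contra hcon
  exact h (if_neg hcon)

theorem lvOf_W {Q : ℤ} (hQ : 0 < Q) {n : ℤ} {a : K} :
    (lvOf K hϖ res hker hQ).W (Q * n) a ↔ V K ϖ n a := by
  constructor
  · rintro ⟨m, hm, hma⟩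
    exact V_of_le hϖ (le_of_mul_le_mul_left hm hQ) hma
  · intro h
    exact ⟨n, le_rfl, h⟩

theorem lvOf_ld {Q : ℤ} (hQ : 0 < Q) {n : ℤ} {a : K} :
    (lvOf K hϖ res hker hQ).ld (Q * n) a = res (un K ϖ n a) := by
  change (if Q ∣ Q * n then res (un K ϖ (Q * n / Q) a) else 0) = _
  rw [if_pos (dvd_mul_right Q n), Int.mul_ediv_cancel_left _ hQ.ne']

end dvr

end Vale.Agent.P280.H475
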